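import Crest.Agent.N336.C.Defs
import Crest.Agent.N336.Q.Swp
import Crest.Agent.N336.TB
import Crest.Agent.N336.Area.Col

-- ▼ part N336/C/Anc1
section

/-!
# Row 336, CORE, `AncStmt` part 1: product vectors, rank projectors, Fannes (helper44)
-/

set_option autoImplicit false
set_option linter.unusedSectionVars false

open Matrix Finset
open scoped ComplexOrder MatrixOrder Matrix.Norms.L2Operator InnerProductSpace

namespace Crest.Agent.N336.C.An

open Crest.Agent.N336.Q Crest.Agent.N336.Eng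

section one

variable {ι : Type} [Fintype ι] [DecidableEq ι] {d : ι → Type} [∀ x, Fintype (d x)]
  [∀ x, DecidableEq (d x)] [∀ x, Nonempty (d x)]

lemma SV_eq (χ : Q.Vec (Cfg d)) (X : Finset ι) : SV χ X = SX X (pj χ) := rfl

lemma SV_compl (χ : Q.Vec (Cfg d)) (X : Finset ι) : SV χ Xᶜ = SV χ X := SX_compl X χ

lemma SV_le {χ : Q.Vec (Cfg d)} (h : ‖χ‖ = 1) (X : Finset ι) : SV χ X ≤ Real.log (dim d X) :=
  (dens_pj h).SX_le X

lemma SV_nonneg {χ : Q.Vec (Cfg d)} (h : ‖χ‖ = 1) (X : Finset ι) : 0 ≤ SV χ X :=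
  (dens_pj h).SX_nonneg X

lemma SV_empty {χ : Q.Vec (Cfg d)} (h : ‖χ‖ = 1) : SV χ ∅ = 0 := (dens_pj h).SX_empty

lemma SV_univ {χ : Q.Vec (Cfg d)} (h : ‖χ‖ = 1) : SV χ univ = 0 := by
  rw [← compl_empty, SV_compl, SV_empty h]

lemma dim_mono {X Y : Finset ι} (h : X ⊆ Y) : dim d X ≤ dim d Y := by
  rw [← union_sdiff_of_subset h, dim_union disjoint_sdiff]
  exact Nat.le_mul_of_pos_right _ (dim_pos _)

lemma log_dim_nonneg (X : Finset ι) : 0 ≤ Real.log (dim d X) :=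
  Real.log_nonneg (by exact_mod_cast dim_pos (d := d) X)

lemma log_dim_mono {X Y : Finset ι} (h : X ⊆ Y) : Real.log (dim d X) ≤ Real.log (dim d Y) :=
  Real.log_le_log (dim_pos_real X) (by exact_mod_cast dim_mono h)

/-- Fannes' inequality for pure states -/
lemma fannes {ψ φ : Q.Vec (Cfg d)} (h1 : ‖ψ‖ = 1) (h2 : ‖φ‖ = 1) (X : Finset ι) {δ L : ℝ}
    (h : ‖ψ - φ‖ ≤ δ) (hL : Real.log (dim d X) ≤ L) : SV ψ X ≤ SV φ X + 2 * δ * L + 4 := by
  have h0 := log_dim_nonneg (d := d) X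
  have hδ : 0 ≤ δ := (norm_nonneg _).trans h
  have hm : δ * Real.log (dim d X) ≤ δ * L := mul_le_mul_of_nonneg_left hL hδ
  rcases le_total δ 1 with hd | hd
  · have h3 := afw_dim (disjoint_empty_right X) (dens_pj h1) (dens_pj h2) (ε := δ)
      fun O _ _ hO => (re_inner_sub_le h1.le h2.le hO).trans (by linarith)
    rw [union_empty, (dens_pj h1).SX_empty, (dens_pj h2).SX_empty] at h3
    have h4 := bin_le hδ hd
    have h5 : Real.sqrt δ ≤ 1 := Real.sqrt_le_one.2 hd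
    rw [SV_eq, SV_eq]
    linarith
  · have h3 := SV_le h1 X
    have h4 := SV_nonneg h2 X
    nlinarith

/-- the mutual information across a shell, by purity -/
lemma mi_shell (χ : Q.Vec (Cfg d)) (P R : Finset ι) :
    mi χ P Rᶜ = SV χ P + SV χ R - SV χ (R \ P) := by
  have : P ∪ Rᶜ = (R \ P)ᶜ := by ext x; simp; tauto
  rw [mi, this, SV_compl, SV_compl]

lemma mi_nonneg {χ : Q.Vec (Cfg d)} (h : ‖χ‖ = 1) (A F : Finset ι) : 0 ≤ mi χ A F := by
  have := (dens_pj h).SX_union_le A F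
  simp only [mi, SV_eq]; linarith

lemma mi_le {χ : Q.Vec (Cfg d)} (h : ‖χ‖ = 1) {A F : Finset ι} (hd : Disjoint A F) :
    mi χ A F ≤ 2 * SV χ A := by
  have := araki_lieb_pure h hd
  simp only [mi, SV_eq]; linarith

/-- continuity of the mutual information across a shell -/
lemma mi_cont {ψ φ : Q.Vec (Cfg d)} (h1 : ‖ψ‖ = 1) (h2 : ‖φ‖ = 1) {P R : Finset ι} (hP : P ⊆ R)
    {δ L : ℝ} (h : ‖ψ - φ‖ ≤ δ) (hL : Real.log (dim d R) ≤ L) :
    mi ψ P Rᶜ ≤ mi φ P Rᶜ + 6 * δ * L + 12 := by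
  have k1 := fannes h1 h2 P h ((log_dim_mono hP).trans hL)
  have k2 := fannes h1 h2 R h hL
  have k3 := fannes h2 h1 (R \ P) ((norm_sub_rev _ _).trans_le h)
    ((log_dim_mono sdiff_subset).trans hL)
  rw [mi_shell, mi_shell]; linarith

/-- a projector on `X` of rank at most `r` -/
structure Rk (X : Finset ι) (M : Q.Op d) (r : ℝ) : Prop where
  supp : Supp X M
  herm : M.IsHermitian
  idem : M * M = M
  tr : (trace M).re ≤ r * dim d Xᶜ

lemma Rk.exists {X : Finset ι} {M : Q.Op d} {r : ℝ} (h : Rk X M r) :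
    ∃ P : Q.Op (sub (sb X) d), lift X P = M ∧ P.IsHermitian ∧ P * P = P ∧ (trace P).re ≤ r := by
  obtain ⟨P, rfl⟩ := h.supp.exists_lift
  refine ⟨P, rfl, isHermitian_of_emb h.herm, emb_injective _ (by rw [map_mul]; exact h.idem), ?_⟩
  have h1 := h.tr
  rw [trace_lift, ← Complex.ofReal_natCast, Complex.re_ofReal_mul, mul_comm] at h1
  exact le_of_mul_le_mul_right h1 (dim_pos_real _)

lemma rk_lift {X : Finset ι} {P : Q.Op (sub (sb X) d)} {r : ℝ} (h1 : P.IsHermitian)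
    (h2 : P * P = P) (h3 : (trace P).re ≤ r) : Rk X (lift X P) r where
  supp := supp_lift X P
  herm := emb_isHermitian _ h1
  idem := by rw [← map_mul, h2]
  tr := by
    rw [trace_lift, ← Complex.ofReal_natCast, Complex.re_ofReal_mul, mul_comm]
    exact mul_le_mul_of_nonneg_right h3 (Nat.cast_nonneg _)

lemma rk_one (X : Finset ι) : Rk X (1 : Q.Op d) (dim d X) where
  supp := Supp.one X
  herm := isHermitian_one
  idem := Matrix.mul_one 1
  tr := by rw [trace_one, card_cfg, ← dim_mul_compl X]; simp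

/-- a state fixed by a rank one projector on `X` is a product across `X` -/
lemma Rk.SV_union {X Y : Finset ι} {M : Q.Op d} (h : Rk X M 1) (hd : Disjoint X Y)
    {χ : Q.Vec (Cfg d)} (h1 : ‖χ‖ = 1) (h2 : ap M χ = χ) : SV χ (X ∪ Y) = SV χ Y := by
  obtain ⟨P, rfl, k1, k2, k3⟩ := h.exists
  have := abs_cond_le hd k1 k2 k3 (dens_pj h1) (by rw [pj, mul_kb, h2])
  rw [Real.log_one] at this
  exact sub_eq_zero.1 (abs_nonpos_iff.1 this)

end one

section vec

variable {n : Type} [Fintype n] [DecidableEq n]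

/-- normalisation -/
noncomputable def nz (v : Q.Vec n) : Q.Vec n := ((‖v‖⁻¹ : ℝ) : ℂ) • v

lemma norm_nz {v : Q.Vec n} (h : v ≠ 0) : ‖nz v‖ = 1 := by
  rw [nz, norm_smul, Complex.norm_real, norm_inv, norm_norm,
    inv_mul_cancel₀ (norm_ne_zero_iff.2 h)]

lemma norm_nz_sub {v w : Q.Vec n} (h : v ≠ 0) (hw : ‖w‖ = 1) : ‖nz v - w‖ ≤ 2 * ‖v - w‖ := by
  have h0 : 0 < ‖v‖ := norm_pos_iff.2 h
  have h1 : ‖nz v - v‖ = |1 - ‖v‖| := by
    have : nz v - v = (((‖v‖⁻¹ - 1 : ℝ)) : ℂ) • v := by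
      rw [nz]; push_cast; rw [sub_smul, one_smul]
    rw [this, norm_smul, Complex.norm_real, Real.norm_eq_abs, ← abs_of_pos h0, ← abs_mul,
      abs_of_pos h0, sub_mul, inv_mul_cancel₀ h0.ne', one_mul]
  have h2 : |1 - ‖v‖| ≤ ‖v - w‖ := by
    rw [← hw, abs_sub_comm]; exact abs_norm_sub_norm_le _ _
  have h3 := norm_add_le (nz v - v) (v - w)
  rw [sub_add_sub_cancel] at h3
  linarith

lemma norm_ap_proj_le {M : Matrix n n ℂ} (h1 : M.IsHermitian) (h2 : M * M = M) (v : Q.Vec n) :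
    ‖ap M v‖ ≤ ‖v‖ := by
  have h3 : ‖ap M v‖ ^ 2 ≤ ‖v‖ * ‖ap M v‖ := by
    rw [norm_ap_sq, h1.eq, h2]
    exact (Complex.re_le_norm _).trans (norm_inner_le_norm _ _)
  rcases (norm_nonneg (ap M v)).eq_or_lt with h | h
  · rw [← h]; exact norm_nonneg _
  · nlinarith

lemma norm_sub_proj_sq {M : Matrix n n ℂ} (h1 : M.IsHermitian) (h2 : M * M = M) (v : Q.Vec n) :
    ‖ap M v - v‖ ^ 2 = qf v (1 - M) := by
  have : ap M v - v = ap (M - 1) v := by rw [ap_sub, ap_one]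
  rw [this, norm_ap_sq, conjTranspose_sub, h1.eq, conjTranspose_one]
  congr 4
  rw [Matrix.sub_mul, Matrix.mul_sub, Matrix.mul_sub, h2]; simp

/-- the gap as an operator inequality -/
lemma gap_le {H : Matrix n n ℂ} {Ω : Q.Vec n} {E Δ : ℝ} (h : A.Gap H Ω E Δ) (hE : 0 ≤ E) :
    (Δ : ℂ) • (1 - pj Ω) ≤ H := by
  rw [Matrix.le_iff]
  refine posSemidef_of_re_inner (h.herm.sub ?_) fun v => ?_
  · unfold Matrix.IsHermitian
    rw [conjTranspose_smul, conjTranspose_sub, conjTranspose_one, (pj_isHermitian Ω).eq]; simp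
  · have h1 := h.gap v
    have h2 : (⟪v, ap ((Δ : ℂ) • (1 - pj Ω)) v⟫_ℂ).re = Δ * (‖v‖ ^ 2 - ‖⟪Ω, v⟫_ℂ‖ ^ 2) := by
      rw [ap_smul, ap_sub, ap_one, ap_kb, inner_smul_right, inner_sub_right, inner_smul_right,
        ← inner_conj_symm v Ω, Complex.mul_conj', inner_self_eq_norm_sq_to_K,
        Complex.re_ofReal_mul]
      norm_cast
    rw [ap_sub, inner_sub_right, Complex.sub_re, h2]
    nlinarith [sq_nonneg ‖v‖]

end vec

section two

variable {ι κ κ' : Type} [Fintype ι] [DecidableEq ι] [Fintype κ] [DecidableEq κ]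
  [Fintype κ'] [DecidableEq κ']
  {d : ι → Type} [∀ x, Fintype (d x)] [∀ x, DecidableEq (d x)] [∀ x, Nonempty (d x)]
  {e : κ ↪ ι} {e' : κ' ↪ ι}

/-- product vectors -/
noncomputable def pr (e : κ ↪ ι) (e' : κ' ↪ ι) (u : Q.Vec (Cfg (sub e d)))
    (ξ : Q.Vec (Cfg (sub e' d))) : Q.Vec (Cfg d) :=
  WithLp.toLp 2 fun σ => u (res e σ) * ξ (res e' σ)

lemma pr_comm (u : Q.Vec (Cfg (sub e d))) (ξ : Q.Vec (Cfg (sub e' d))) :
    pr e e' u ξ = pr e' e ξ u := by
  ext σ; simp [pr, mul_comm]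

lemma pr_smul_left (c : ℂ) (u : Q.Vec (Cfg (sub e d))) (ξ : Q.Vec (Cfg (sub e' d))) :
    pr e e' (c • u) ξ = c • pr e e' u ξ := by
  ext σ; simp [pr, mul_assoc]

lemma pr_smul_right (c : ℂ) (u : Q.Vec (Cfg (sub e d))) (ξ : Q.Vec (Cfg (sub e' d))) :
    pr e e' u (c • ξ) = c • pr e e' u ξ := by
  rw [pr_comm, pr_smul_left, pr_comm]

lemma pr_sub_left (u u' : Q.Vec (Cfg (sub e d))) (ξ : Q.Vec (Cfg (sub e' d))) :
    pr e e' u ξ - pr e e' u' ξ = pr e e' (u - u') ξ := by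
  ext σ; simp [pr, sub_mul]

lemma disj_of (h : rg e' = (rg e)ᶜ) : Disjoint (rg e) (rg e') := h ▸ disjoint_compl_right

lemma tr_ee (h : rg e' = (rg e)ᶜ) (a : Q.Op (sub e d)) (b : Q.Op (sub e' d)) :
    trace (emb e a * emb e' b) = trace a * trace b := by
  rw [trace_emb_mul_emb (disj_of h), h, union_compl, compl_univ, dim_empty]; simp

lemma comm_ee (h : rg e' = (rg e)ᶜ) (a : Q.Op (sub e d)) (b : Q.Op (sub e' d)) :
    emb e' b * emb e a = emb e a * emb e' b :=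
  ((supp_emb e a).commute (supp_emb e' b) (disj_of h)).eq.symm

lemma ee_mul (h : rg e' = (rg e)ᶜ) (a a' : Q.Op (sub e d)) (b b' : Q.Op (sub e' d)) :
    emb e a * emb e' b * (emb e a' * emb e' b') = emb e (a * a') * emb e' (b * b') := by
  rw [map_mul, map_mul, Matrix.mul_assoc, ← Matrix.mul_assoc (emb e' b), comm_ee h]
  simp only [Matrix.mul_assoc]

lemma kb_pr (h : rg e' = (rg e)ᶜ) (u u' : Q.Vec (Cfg (sub e d)))
    (ξ ξ' : Q.Vec (Cfg (sub e' d))) :
    kb (pr e e' u ξ) (pr e e' u' ξ') = emb e (kb u u') * emb e' (kb ξ ξ') := by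
  ext σ τ
  rw [emb_mul_emb_apply h]
  simp only [kb_apply, pr, star_mul']
  ring

lemma inner_ee (h : rg e' = (rg e)ᶜ) (a : Q.Op (sub e d)) (b : Q.Op (sub e' d))
    (u u' : Q.Vec (Cfg (sub e d))) (ξ ξ' : Q.Vec (Cfg (sub e' d))) :
    ⟪pr e e' u ξ, ap (emb e a * emb e' b) (pr e e' u' ξ')⟫_ℂ =
      ⟪u, ap a u'⟫_ℂ * ⟪ξ, ap b ξ'⟫_ℂ := by
  rw [← trace_mul_kb, kb_pr h, ee_mul h, tr_ee h, trace_mul_kb, trace_mul_kb]

lemma norm_pr (h : rg e' = (rg e)ᶜ) (u : Q.Vec (Cfg (sub e d))) (ξ : Q.Vec (Cfg (sub e' d))) :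
    ‖pr e e' u ξ‖ = ‖u‖ * ‖ξ‖ := by
  have h1 := trace_pj (pr e e' u ξ)
  rw [pj, kb_pr h, tr_ee h, trace_pj, trace_pj, ← Complex.ofReal_mul, Complex.ofReal_inj,
    ← mul_pow] at h1
  exact ((pow_left_inj₀ (by positivity) (norm_nonneg _) two_ne_zero).1 h1).symm

lemma ap_emb_pr (h : rg e' = (rg e)ᶜ) (a : Q.Op (sub e d)) (u : Q.Vec (Cfg (sub e d)))
    {ξ : Q.Vec (Cfg (sub e' d))} (hξ : ‖ξ‖ = 1) :
    ap (emb e a) (pr e e' u ξ) = pr e e' (ap a u) ξ := by
  obtain ⟨σ₀⟩ : Nonempty (Cfg (sub e d)) := inferInstance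
  set w : Q.Vec (Cfg (sub e d)) := EuclideanSpace.single σ₀ 1 with hw
  have h1 : ‖pr e e' w ξ‖ = 1 := by rw [norm_pr h, hξ, hw]; simp
  have h2 : emb e a * kb (pr e e' u ξ) (pr e e' w ξ) = kb (pr e e' (ap a u) ξ) (pr e e' w ξ) := by
    rw [kb_pr h, kb_pr h, ← Matrix.mul_assoc, ← map_mul, mul_kb]
  have h3 := congrArg (fun M => ap M (pr e e' w ξ)) h2
  simpa only [ap_mul, ap_kb, inner_self_eq_norm_sq_to_K, h1, RCLike.ofReal_one, one_pow,
    one_smul] using h3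

/-- the partial inner product -/
lemma exists_partial (h : rg e' = (rg e)ᶜ) (u : Q.Vec (Cfg (sub e d))) (χ : Q.Vec (Cfg d)) :
    ∃ ζ, ap (emb e (pj u)) χ = pr e e' u ζ := by
  refine ⟨WithLp.toLp 2 fun b => ∑ τ, star (u (res e τ)) * (if b = res e' τ then 1 else 0) * χ τ,
    ?_⟩
  have : emb e (pj u) = emb e (pj u) * emb e' 1 := by simp
  ext σ
  rw [this, ap_apply]
  simp only [emb_mul_emb_apply h, kb_apply, one_apply, pr, Finset.mul_sum]
  exact Finset.sum_congr rfl fun τ _ => by ring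

lemma red_pr (h : rg e' = (rg e)ᶜ) (u : Q.Vec (Cfg (sub e d))) {ξ : Q.Vec (Cfg (sub e' d))}
    (hξ : ‖ξ‖ = 1) : red e (pj (pr e e' u ξ)) = pj u :=
  (eq_red fun m => by
    rw [pj, pj, kb_pr h, ← Matrix.mul_assoc, ← map_mul, tr_ee h, trace_pj, hξ]; simp).symm

lemma map_subset_rg (e : κ ↪ ι) (X : Finset κ) : X.map e ⊆ rg e := map_subset_map.2 (subset_univ X)

/-- additivity of the entropy for product vectors -/
lemma SV_pr (h : rg e' = (rg e)ᶜ) {u : Q.Vec (Cfg (sub e d))} {ξ : Q.Vec (Cfg (sub e' d))}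
    (hu : ‖u‖ = 1) (hξ : ‖ξ‖ = 1) (X : Finset κ) (Y : Finset κ') :
    SV (pr e e' u ξ) (X.map e ∪ Y.map e') = SV u X + SV ξ Y := by
  have h' : rg e = (rg e')ᶜ := by rw [h, compl_compl]
  have h1 : ‖pr e e' u ξ‖ = 1 := by rw [norm_pr h, hu, hξ, one_mul]
  have r1 := red_pr h u hξ
  have r2 : red e' (pj (pr e e' u ξ)) = pj ξ := by rw [pr_comm]; exact red_pr h' ξ hu
  have h2 : piZ (rg e) (pj (pr e e' u ξ)) = pj (pr e e' u ξ) := by
    rw [piZ, ← h, ← emb_red_eq_mg, ← emb_red_eq_mg, r1, r2, ← kb_pr h]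
  have h3 := SX_piZ (map_subset_rg e X) (h ▸ map_subset_rg e' Y) (dens_pj h1)
  rw [h2, SX_map e X (pj_isHermitian _), SX_map e' Y (pj_isHermitian _), r1, r2] at h3
  exact h3

lemma dim_map (e : κ ↪ ι) (X : Finset κ) : dim d (X.map e) = dim (sub e d) X := by
  rw [dim, dim, Finset.prod_map]

lemma compl_un (h : rg e' = (rg e)ᶜ) (X : Finset κ) (Y : Finset κ') :
    (X.map e ∪ Y.map e')ᶜ = Xᶜ.map e ∪ Yᶜ.map e' := by
  have hd := Finset.disjoint_left.1 (disj_of h)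
  ext x
  by_cases hx : x ∈ rg e
  · obtain ⟨k, rfl⟩ := mem_rg.1 hx
    have : ∀ Y : Finset κ', e k ∉ Y.map e' := fun Y hY => hd hx (map_subset_rg e' Y hY)
    simp [-mem_map, this, mem_map']
  · have hx' : x ∈ rg e' := by rwa [h, mem_compl]
    obtain ⟨k, rfl⟩ := mem_rg.1 hx'
    have : ∀ X : Finset κ, e' k ∉ X.map e := fun X hX => hx (map_subset_rg e X hX)
    simp [-mem_map, this, mem_map']

lemma dim_un (h : rg e' = (rg e)ᶜ) (X : Finset κ) (Y : Finset κ') :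
    dim d (X.map e ∪ Y.map e') = dim (sub e d) X * dim (sub e' d) Y := by
  rw [dim_union ((disj_of h).mono (map_subset_rg e X) (map_subset_rg e' Y)), dim_map, dim_map]

lemma Rk.ee (h : rg e' = (rg e)ᶜ) {X : Finset κ} {Y : Finset κ'} {a : Q.Op (sub e d)}
    {b : Q.Op (sub e' d)} {r r' : ℝ} (ha : Rk X a r) (hb : Rk Y b r') :
    Rk (X.map e ∪ Y.map e') (emb e a * emb e' b) (r * r') where
  supp := (ha.supp.emb e).mul_union (hb.supp.emb e')
  herm := by
    unfold Matrix.IsHermitian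
    rw [conjTranspose_mul, ← emb_conjTranspose, ← emb_conjTranspose, ha.herm.eq, hb.herm.eq,
      comm_ee h]
  idem := by rw [ee_mul h, ha.idem, hb.idem]
  tr := by
    have p1 := (proj_posSemidef ha.herm ha.idem).trace_nonneg
    have p2 := (proj_posSemidef hb.herm hb.idem).trace_nonneg
    rw [Complex.le_def] at p1 p2
    rw [tr_ee h, compl_un h, dim_un h, Complex.mul_re, ← p1.2, Complex.zero_im, zero_mul,
      sub_zero, Nat.cast_mul]
    calc _ ≤ (r * dim (sub e d) Xᶜ) * (r' * dim (sub e' d) Yᶜ) :=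
          mul_le_mul ha.tr hb.tr p2.1 (p1.1.trans ha.tr)
      _ = _ := by ring

end two

end Crest.Agent.N336.C.An
end

-- ▼ part N336/C/Anc2
section

/-!
# Row 336, CORE, `AncStmt` part 2: the two ancillas and the extended scanner (helper44)
-/

set_option autoImplicit false
set_option linter.unusedSectionVars false

open Matrix Finset
open scoped Kronecker ComplexOrder MatrixOrder Matrix.Norms.L2Operator InnerProductSpace

namespace Crest.Agent.N336.C.An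

open Crest.Agent.N336.Q Crest.Agent.N336.Eng

/-- a maximally entangled pair of ancillas with matrix units on the first one -/
structure Anc (T : Type) [Fintype T] [DecidableEq T] (d : Bool → Type) [∀ x, Fintype (d x)]
    [∀ x, DecidableEq (d x)] where
  ξ : Q.Vec (Cfg d)
  u : T → T → Q.Op d
  norm : ‖ξ‖ = 1
  supp : ∀ α β, Supp {false} (u α β)
  mul : ∀ α β γ δ, u α β * u γ δ = if β = γ then u α δ else 0
  adj : ∀ α β, (u α β)ᴴ = u β α
  ex : ∀ α β, ⟪ξ, ap (u α β) ξ⟫_ℂ = if α = β then (Fintype.card T : ℂ)⁻¹ else 0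
  tr : ∀ α β, trace (u α β) = if α = β then (Fintype.card T : ℂ) else 0
  dim : ∀ b, dim d {b} = Fintype.card T

lemma exists_anc (T : Type) [Fintype T] [DecidableEq T] [Nonempty T] :
    Nonempty (Anc T fun _ => T) := by
  let f : (Bool → T) ≃ T × T := Equiv.boolArrowEquivProd T
  have hf : ∀ σ, f σ = (σ false, σ true) := fun _ => rfl
  have hc : (0 : ℝ) < Fintype.card T := by exact_mod_cast Fintype.card_pos
  set c : ℝ := (Real.sqrt (Fintype.card T))⁻¹ with hcd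
  have hcc : (c : ℂ) * c = (Fintype.card T : ℂ)⁻¹ := by
    rw [← Complex.ofReal_mul, hcd, ← mul_inv, Real.mul_self_sqrt hc.le]; simp
  let ξ : Q.Vec (Bool → T) := WithLp.toLp 2 fun σ => if σ false = σ true then (c : ℂ) else 0
  let u : T → T → Matrix (Bool → T) (Bool → T) ℂ := fun α β =>
    (Matrix.single α β (1 : ℂ) ⊗ₖ (1 : Matrix T T ℂ)).submatrix f f
  have key : ∀ M : Matrix T T ℂ, ⟪ξ, ap ((M ⊗ₖ (1 : Matrix T T ℂ)).submatrix f f) ξ⟫_ℂ =
      (Fintype.card T : ℂ)⁻¹ * trace M := by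
    intro M
    rw [inner_eq_sum]
    simp only [ap_apply]
    rw [← f.symm.sum_comp]
    simp only [← f.symm.sum_comp (fun j => _ * ξ j)]
    have e1 : ∀ p : T × T, ξ (f.symm p) = if p.1 = p.2 then (c : ℂ) else 0 := fun p => rfl
    simp only [e1, submatrix_apply, Equiv.apply_symm_apply, kroneckerMap_apply, one_apply,
      Fintype.sum_prod_type, mul_ite, ite_mul, mul_one, mul_zero, zero_mul, Finset.sum_ite_eq,
      mem_univ, if_true, apply_ite star, star_zero, trace, Matrix.diag, Finset.mul_sum]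
    refine Finset.sum_congr rfl fun a _ => ?_
    rw [← hcc]
    simp [mul_comm, mul_left_comm]
  refine ⟨⟨ξ, u, ?_, fun α β => ⟨fun σ τ h => ?_, fun σ τ σ' τ' h h' h1 h2 => ?_⟩,
    fun α β γ δ => ?_, fun α β => ?_, fun α β => ?_, fun α β => ?_, fun b => by simp [Q.dim]⟩⟩
  · have h1 := key 1
    rw [one_kronecker_one, submatrix_one_equiv, ap_one, trace_one, inv_mul_cancel₀
      (by exact_mod_cast hc.ne'), inner_self_eq_norm_sq_to_K] at h1
    have h2 : ‖ξ‖ ^ 2 = 1 := by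
      have h3 : ((‖ξ‖ ^ 2 : ℝ) : ℂ) = 1 := by rw [← h1]; norm_cast
      exact_mod_cast h3
    exact (pow_eq_one_iff_of_nonneg (norm_nonneg _) two_ne_zero).1 h2
  · have : σ true ≠ τ true := fun h' => h fun x hx => by cases x <;> simp_all
    simp [u, hf, this]
  · simp [u, hf, h true (by simp), h' true (by simp), h1 false (by simp), h2 false (by simp)]
  · simp only [u]
    rw [submatrix_mul_equiv, ← mul_kronecker_mul, Matrix.mul_one]
    split_ifs with h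
    · subst h; simp
    · rw [single_mul_single_of_ne _ _ _ _ h]; simp
  · simp only [u, conjTranspose_submatrix, conjTranspose_kronecker, conjTranspose_single,
      star_one, conjTranspose_one]
  · refine (key _).trans ?_
    split_ifs with h
    · subst h; simp
    · simp [trace_single_eq_of_ne _ _ _ h]
  · simp only [u]
    rw [trace_submatrix_equiv, trace_kronecker, trace_one]
    split_ifs with h
    · subst h; simp
    · simp [trace_single_eq_of_ne _ _ _ h]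

section ext

variable {ι V : Type} [Fintype ι] [DecidableEq ι] [Fintype V] {K w r b₁ b₂ N₀ Na : ℕ}

/-- the system inside the extended system -/
abbrev eL (ι : Type) : ι ↪ ι ⊕ Bool := Function.Embedding.inl

/-- the ancillas inside the extended system -/
abbrev eR (ι : Type) : Bool ↪ ι ⊕ Bool := Function.Embedding.inr

lemma rg_eR : rg (eR ι) = (rg (eL ι))ᶜ := by
  ext x; cases x <;> simp

/-- regions of the extended system -/
abbrev un (X : Finset ι) (Y : Finset Bool) : Finset (ι ⊕ Bool) := X.map (eL ι) ∪ Y.map (eR ι)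

lemma un_compl (X : Finset ι) : (un X {false})ᶜ = un Xᶜ {true} := by
  rw [compl_un rg_eR]; congr

lemma card_filter_inl {p : ι ⊕ Bool → Prop} [DecidablePred p] (h : ∀ b, ¬ p (Sum.inr b)) :
    (univ.filter p).card = (univ.filter fun x => p (Sum.inl x)).card := by
  rw [← card_map (eL ι)]
  congr 1
  ext x; cases x <;> simp [h]

/-- the extended scanner -/
def ext (S : Scn ι V K w r b₁ b₂ N₀ Na) (lo hi : ℤ) (hlo : ∀ g, lo ≤ S.a g - r)
    (hhi : ∀ g, S.b g + r < hi) : Scn (ι ⊕ Bool) V K w r b₁ b₂ N₀ Na where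
  lv := Sum.elim S.lv fun b => cond b hi lo
  A₁ := un ∅ {true}
  Z v := (S.Z v).map (eL ι)
  near := S.near
  a := S.a
  b := S.b
  r_pos := S.r_pos
  sep := S.sep
  sep' := S.sep'
  far v hv x hx g := by
    obtain ⟨y, hy, rfl⟩ := mem_map.1 hx
    exact S.far v hv y hy g
  top x hx g := by
    have : x = Sum.inr true := by simpa [eq_comm] using hx
    subst this
    have := hhi g
    simp only [Sum.elim_inr, cond_true]
    omega
  disj v := by
    rw [Finset.disjoint_left]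
    intro x hx
    obtain ⟨y, -, rfl⟩ := mem_map.1 hx
    simp
  spread v hv x hx y hy := by
    obtain ⟨x, hx', rfl⟩ := mem_map.1 hx
    obtain ⟨y, hy', rfl⟩ := mem_map.1 hy
    exact S.spread v hv x hx' y hy'
  size v hv := by rw [card_map]; exact S.size v hv
  deg x := by
    cases x with
    | inl x => simpa using S.deg x
    | inr b => simp
  lay g := by
    have h1 := hlo g
    have h2 := hhi g
    have h3 := S.sep g
    rw [card_filter_inl, card_filter_inl]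
    · exact S.lay g
    · intro b; cases b <;> simp <;> omega
    · intro b; cases b <;> simp <;> omega
  cnt := by simpa using S.cnt

variable (S : Scn ι V K w r b₁ b₂ N₀ Na) {lo hi : ℤ} (hlo : ∀ g, lo ≤ S.a g - r)
  (hhi : ∀ g, S.b g + r < hi)

lemma ext_sl {k : ℤ} (h1 : lo ≤ k) (h2 : k < hi) :
    (ext S lo hi hlo hhi).sl k = un (S.sl k) {false} := by
  ext x
  rw [Scn.sl, mem_filter]
  rcases x with x | b
  · simp [Scn.sl, ext]
  · cases b <;> simp [ext, h1, h2]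

lemma ext_ini (g : Fin K) :
    (ext S lo hi hlo hhi).ini g = (un (S.ini g).1 {false}, un (S.ini g).2 {false}) := by
  have h1 := hlo g
  have h2 := hhi g
  have h3 := S.sep g
  refine Prod.ext (ext_sl S hlo hhi ?_ ?_) (ext_sl S hlo hhi ?_ ?_) <;> simp only [ext] <;> omega

lemma ext_fin (g : Fin K) :
    (ext S lo hi hlo hhi).fin g = (un (S.fin g).1 {false}, un (S.fin g).2 {false}) := by
  have h1 := hlo g
  have h2 := hhi g
  have h3 := S.sep g
  refine Prod.ext (ext_sl S hlo hhi ?_ ?_) (ext_sl S hlo hhi ?_ ?_) <;> simp only [ext] <;> omega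

lemma sl_mono {k k' : ℤ} (h : k ≤ k') : S.sl k ⊆ S.sl k' := by
  intro x hx
  simp only [Scn.sl, mem_filter, mem_univ, true_and] at hx ⊢
  omega

lemma chain (g : Fin K) : (S.ini g).1 ⊆ (S.fin g).1 ∧ (S.fin g).1 ⊆ (S.fin g).2 ∧
    (S.fin g).2 ⊆ (S.ini g).2 := by
  have h3 := S.sep g
  exact ⟨sl_mono S (by omega), sl_mono S (by omega), sl_mono S (by omega)⟩

lemma exists_lohi : ∃ lo hi : ℤ, (∀ g, lo ≤ S.a g - r) ∧ ∀ g, S.b g + r < hi := by
  obtain ⟨lo, h1⟩ := Finite.exists_ge fun g => S.a g - r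
  obtain ⟨hi, h2⟩ := Finite.exists_le fun g => S.b g + r
  exact ⟨lo, hi + 1, h1, fun g => Int.lt_add_one_iff.2 (h2 g)⟩

variable {d : ι ⊕ Bool → Type} [∀ x, Fintype (d x)] [∀ x, DecidableEq (d x)]
  [∀ x, Nonempty (d x)]

/-- one term of the entropy functional of the extended system -/
noncomputable def tm (χ : Q.Vec (Cfg d)) (P R : Finset ι) : ℝ :=
  mi χ (un P {false}) (un Rᶜ {true}) - 2 * SV χ (un ∅ {true})

lemma fn_un {c : Cnf (ι ⊕ Bool) K} {c₀ : Cnf ι K}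
    (h : ∀ g, c g = (un (c₀ g).1 {false}, un (c₀ g).2 {false})) (χ : Q.Vec (Cfg d)) :
    fn (un ∅ {true}) c χ = ∑ g, tm χ (c₀ g).1 (c₀ g).2 := by
  refine Finset.sum_congr rfl fun g _ => ?_
  rw [h g, tm, ← un_compl, mi_shell]

lemma un_union (P F : Finset ι) (Y Y' : Finset Bool) :
    un P Y ∪ un F Y' = un (P ∪ F) (Y ∪ Y') := by
  ext x; cases x <;> simp

/-- the functional at a product vector -/
lemma tm_pr {u : Q.Vec (Cfg (sub (eL ι) d))} {ζ : Q.Vec (Cfg (sub (eR ι) d))} (hu : ‖u‖ = 1)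
    (hζ : ‖ζ‖ = 1) (P R : Finset ι) : tm (pr (eL ι) (eR ι) u ζ) P R = mi u P Rᶜ := by
  have h1 : ({false} : Finset Bool) ∪ {true} = univ := by decide
  have h2 : ({true} : Finset Bool) = {false}ᶜ := by decide
  rw [tm, mi, un_union, SV_pr rg_eR hu hζ, SV_pr rg_eR hu hζ, SV_pr rg_eR hu hζ,
    SV_pr rg_eR hu hζ, h1, SV_univ hζ, SV_empty hu, h2, SV_compl ζ, mi]
  ring

end ext

end Crest.Agent.N336.C.An
end

-- ▼ part N336/C/Anc3
section

/-!
# Row 336, CORE, `AncStmt` part 3: the lower bound at low energy and the test (helper44)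
-/

set_option autoImplicit false
set_option linter.unusedSectionVars false

open Matrix Finset
open scoped ComplexOrder MatrixOrder Matrix.Norms.L2Operator InnerProductSpace

namespace Crest.Agent.N336.C.An

open Crest.Agent.N336.Q Crest.Agent.N336.Eng

variable {ι : Type} [Fintype ι] [DecidableEq ι] {d : ι ⊕ Bool → Type} [∀ x, Fintype (d x)]
  [∀ x, DecidableEq (d x)] [∀ x, Nonempty (d x)]

/-- a state of low energy is close to a product with the ground state -/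
lemma close {H : Q.Op (sub (eL ι) d)} {Ω : Q.Vec (Cfg (sub (eL ι) d))} {E Δ z : ℝ}
    (h : A.Gap H Ω E Δ) (hE : 0 ≤ E) (hΔ : 0 < Δ) (hz : 0 < z) {χ : Q.Vec (Cfg d)} (hχ : ‖χ‖ = 1)
    {ξ : Q.Vec (Cfg (sub (eR ι) d))} (hξ : ‖ξ‖ = 1) :
    ∃ ζ, ‖ζ‖ = 1 ∧ ‖χ - pr (eL ι) (eR ι) Ω ζ‖ ≤ z + qf χ (emb (eL ι) H) / (Δ * z) := by
  obtain ⟨ζ, hζ⟩ := exists_partial rg_eR Ω χ
  have hp : pj Ω * pj Ω = pj Ω := by
    rw [pj, mul_kb, ap_kb, inner_self_eq_norm_sq_to_K, h.norm]; simp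
  have h1 := norm_sub_proj_sq (emb_isHermitian (eL ι) (pj_isHermitian Ω))
    (by rw [← map_mul, hp]) χ
  have h2 := re_inner_ap_mono (emb_mono (eL ι) (gap_le h hE)) χ
  rw [map_smul, map_sub, map_one, ap_smul, inner_smul_right, Complex.re_ofReal_mul] at h2
  set x := ‖ap (emb (eL ι) (pj Ω)) χ - χ‖ with hx
  have h3 : Δ * x ^ 2 ≤ qf χ (emb (eL ι) H) := by rw [h1]; exact h2
  have h4 : 2 * x ≤ z + qf χ (emb (eL ι) H) / (Δ * z) := by
    have : x ^ 2 / z ≤ qf χ (emb (eL ι) H) / (Δ * z) := by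
      rw [div_le_div_iff₀ hz (by positivity)]; nlinarith
    have h5 : 2 * x ≤ z + x ^ 2 / z := by
      rw [add_div' _ _ _ hz.ne', le_div_iff₀ hz]; nlinarith [sq_nonneg (x - z)]
    linarith
  by_cases h0 : ζ = 0
  · refine ⟨ξ, hξ, le_trans ?_ h4⟩
    have h5 : x = 1 := by
      rw [hx, hζ, h0, ← zero_smul ℂ (0 : Q.Vec _), pr_smul_right, zero_smul, zero_sub, norm_neg,
        hχ]
    have h6 := norm_sub_le χ (pr (eL ι) (eR ι) Ω ξ)
    rw [norm_pr rg_eR, h.norm, hξ, hχ] at h6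
    linarith
  · refine ⟨nz ζ, norm_nz h0, le_trans ?_ h4⟩
    have h5 : ‖pr (eL ι) (eR ι) Ω ζ‖ = ‖ζ‖ := by rw [norm_pr rg_eR, h.norm, one_mul]
    have h6 : pr (eL ι) (eR ι) Ω (nz ζ) = nz (pr (eL ι) (eR ι) Ω ζ) := by
      rw [nz, nz, pr_smul_right, h5]
    rw [h6, norm_sub_rev, hx, hζ]
    exact norm_nz_sub (by rw [← norm_ne_zero_iff, h5, norm_ne_zero_iff]; exact h0) hχ

lemma ne_zero_of_close {n : Type} [Fintype n] {v w : Q.Vec n} (hw : ‖w‖ = 1) {ε : ℝ}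
    (h : ‖v - w‖ ≤ ε) (hε : ε < 1) : v ≠ 0 := by
  rintro rfl
  rw [zero_sub, norm_neg, hw] at h
  linarith

/-- lower bound for one term of the functional near a product with `Ω` -/
lemma tm_lower (hL : LscStmt) {Ω : Q.Vec (Cfg (sub (eL ι) d))} {P R : Finset ι} {ρ ε δ : ℝ}
    (hΩ : ‖Ω‖ = 1) (hlow : Low Ω P ρ ε) (hPR : P ⊆ R)
    (hd : ε * Real.log (dim (sub (eL ι) d) R) ≤ 1) (hε : ε ≤ 1 / 10) (hρ : 1 ≤ ρ)
    (hερ : ε * ρ ≤ 1) (hT : ∀ b, (dim (sub (eR ι) d) {b} : ℝ) ≤ Real.exp ρ)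
    {χ : Q.Vec (Cfg d)} (hχ : ‖χ‖ = 1) {ζ : Q.Vec (Cfg (sub (eR ι) d))} (hζ : ‖ζ‖ = 1)
    (hδ : ‖χ - pr (eL ι) (eR ι) Ω ζ‖ ≤ δ) : mi Ω P Rᶜ - 44 * δ * ρ - 150 ≤ tm χ P R := by
  obtain ⟨M, h1, h2, h3, h4⟩ := hlow
  have hv := ne_zero_of_close hΩ h4 (by linarith)
  have k1 := norm_nz hv
  have k2 : ‖nz (ap (lift P M) Ω) - Ω‖ ≤ 2 * ε := (norm_nz_sub hv hΩ).trans (by linarith)
  have hrk := rk_lift h1 h2 h3
  have k3 : ap (lift P M) (nz (ap (lift P M) Ω)) = nz (ap (lift P M) Ω) := by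
    rw [nz, map_smul, ← ap_mul, hrk.idem]
  set u := nz (ap (lift P M) Ω)
  have k4 : ‖pr (eL ι) (eR ι) u ζ‖ = 1 := by rw [norm_pr rg_eR, k1, hζ, one_mul]
  have k5 : ‖χ - pr (eL ι) (eR ι) u ζ‖ ≤ δ + 2 * ε := by
    have := norm_sub_le_norm_sub_add_norm_sub χ (pr (eL ι) (eR ι) Ω ζ) (pr (eL ι) (eR ι) u ζ)
    rw [pr_sub_left, norm_pr rg_eR, hζ, mul_one, norm_sub_rev Ω] at this
    linarith
  obtain ⟨M', e1, e2, e3, e4⟩ := (Rk.ee rg_eR hrk (rk_one (d := sub (eR ι) d) {false})).exists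
  have k6 := hL _ d (un P {false}) (un Rᶜ {true}) M' (2 * ρ) (δ + 2 * ε) χ
    (pr (eL ι) (eR ι) u ζ) (by
      rw [← un_compl]
      exact disjoint_compl_right.mono_left (union_subset_union_left (map_subset_map.2 hPR)))
    e2 e3 (e4.trans (by rw [two_mul, Real.exp_add]; gcongr; exact hT _)) (by linarith) hχ k4
    (by rw [e1, map_one, Matrix.mul_one, ap_emb_pr rg_eR _ _ hζ, k3]) k5
  have k7 := fannes hχ k4 (un ∅ {true}) k5 (L := ρ) (by
    rw [dim_un rg_eR, dim_empty, one_mul, Real.log_le_iff_le_exp (dim_pos_real _)]; exact hT _)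
  have k8 := tm_pr k1 hζ P R
  have k9 := mi_cont hΩ k1 hPR ((norm_sub_rev _ _).trans_le k2) le_rfl
  unfold tm at k8 ⊢
  nlinarith

lemma tm_ge {ρ : ℝ} (hT : ∀ b, (dim (sub (eR ι) d) {b} : ℝ) ≤ Real.exp ρ) {χ : Q.Vec (Cfg d)}
    (hχ : ‖χ‖ = 1) (P R : Finset ι) : -(2 * ρ) ≤ tm χ P R := by
  have k1 := mi_nonneg hχ (un P {false}) (un Rᶜ {true})
  have k2 := SV_le hχ (un ∅ {true})
  rw [dim_un rg_eR, dim_empty, one_mul] at k2
  have k3 := (Real.log_le_iff_le_exp (dim_pos_real _)).2 (hT true)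
  unfold tm
  linarith

section test

variable {T : Type} [Fintype T] [DecidableEq T] [Nonempty T]

/-- rank one matrix units on `X` -/
structure MU {κ : Type} [Fintype κ] [DecidableEq κ] {d : κ → Type} [∀ x, Fintype (d x)]
    [∀ x, DecidableEq (d x)] (X : Finset κ) (A : T → T → Q.Op d) : Prop where
  supp : ∀ α β, Supp X (A α β)
  mul : ∀ α β γ δ, A α β * A γ δ = if β = γ then A α δ else 0
  adj : ∀ α β, (A α β)ᴴ = A β α
  tr : ∀ α, trace (A α α) = dim d Xᶜ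

/-- the test projector -/
noncomputable def tst (A : T → T → Q.Op (sub (eL ι) d)) (X : Anc T (sub (eR ι) d)) : Q.Op d :=
  (Fintype.card T : ℂ)⁻¹ • ∑ α, ∑ β, emb (eL ι) (A α β) * emb (eR ι) (X.u α β)

variable {P₀ : Finset ι} {A : T → T → Q.Op (sub (eL ι) d)} (hA : MU P₀ A)
  (X : Anc T (sub (eR ι) d))
include hA

lemma rk_tst : Rk (un P₀ {false}) (tst A X) 1 where
  supp := Supp.smul _ (Supp.sum fun α _ => Supp.sum fun β _ =>
    ((hA.supp α β).emb _).mul_union ((X.supp α β).emb _))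
  herm := by
    unfold Matrix.IsHermitian tst
    simp only [conjTranspose_smul, conjTranspose_sum, conjTranspose_mul, ← emb_conjTranspose,
      hA.adj, X.adj, comm_ee rg_eR]
    rw [Finset.sum_comm]; simp
  idem := by
    have hc : (Fintype.card T : ℂ) ≠ 0 := by exact_mod_cast Fintype.card_ne_zero
    unfold tst
    rw [Matrix.smul_mul, Matrix.mul_smul]
    congr 1
    rw [inv_smul_eq_iff₀ hc]
    simp only [Matrix.sum_mul, Matrix.mul_sum, ee_mul rg_eR, hA.mul, X.mul]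
    simp only [apply_ite (emb (d := d) (eL ι)), apply_ite (emb (d := d) (eR ι)), map_zero,
      ite_mul, zero_mul, Finset.sum_ite_eq', mem_univ, if_true]
    rw [Finset.sum_comm]
    simp only [Finset.sum_const, card_univ, Finset.smul_sum, Nat.cast_smul_eq_nsmul]
    exact Finset.sum_comm
  tr := by
    have hc : (Fintype.card T : ℂ) ≠ 0 := by exact_mod_cast Fintype.card_ne_zero
    unfold tst
    simp only [trace_smul, trace_sum, tr_ee rg_eR, X.tr, mul_ite, mul_zero, Finset.sum_ite_eq,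
      mem_univ, if_true, hA.tr, Finset.sum_const, card_univ, nsmul_eq_mul, smul_eq_mul]
    rw [inv_mul_cancel_left₀ hc, un_compl, dim_un rg_eR, X.dim]
    simp

lemma MU.proj : (∑ α, A α α).IsHermitian ∧ (∑ α, A α α) * (∑ α, A α α) = ∑ α, A α α := by
  constructor
  · unfold Matrix.IsHermitian; simp only [conjTranspose_sum, hA.adj]
  · simp only [Matrix.sum_mul, Matrix.mul_sum, hA.mul]
    refine Finset.sum_congr rfl fun α _ => ?_
    rw [Finset.sum_eq_single α] <;> simp +contextual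

lemma inner_tst (Ω : Q.Vec (Cfg (sub (eL ι) d))) {N : Q.Op (sub (eL ι) d)} (hN : Supp P₀ᶜ N) :
    ⟪ap (tst A X) (pr (eL ι) (eR ι) Ω X.ξ),
        ap (emb (eL ι) N) (ap (tst A X) (pr (eL ι) (eR ι) Ω X.ξ))⟫_ℂ =
      (Fintype.card T : ℂ)⁻¹ ^ 2 * ⟪ap (∑ α, A α α) Ω, ap N (ap (∑ α, A α α) Ω)⟫_ℂ := by
  have hO := rk_tst hA X
  have c1 : Commute (tst A X) (emb (eL ι) N) := hO.supp.commute (hN.emb _) (by
    refine disjoint_compl_right.mono_right ?_
    rw [un_compl]; exact subset_union_left)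
  have c2 : Commute (∑ α, A α α) N :=
    (Supp.sum fun α _ => hA.supp α α).commute hN disjoint_compl_right
  rw [inner_ap_left, inner_ap_left, hO.herm.eq, hA.proj.1.eq, ← ap_mul, ← ap_mul, ← ap_mul,
    ← ap_mul, Matrix.mul_assoc, ← c1.eq, ← Matrix.mul_assoc, hO.idem, Matrix.mul_assoc, ← c2.eq,
    ← Matrix.mul_assoc, hA.proj.2, c1.eq, c2.eq, tst]
  simp only [Matrix.mul_smul, Matrix.mul_sum, ← Matrix.mul_assoc, ← map_mul, ap_smul, ap_sum,
    inner_smul_right, inner_sum, inner_ee rg_eR, X.ex, mul_ite, mul_zero, Finset.sum_ite_eq,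
    mem_univ, if_true, ← Finset.sum_mul]
  ring

lemma norm_tst (Ω : Q.Vec (Cfg (sub (eL ι) d))) :
    ‖ap (tst A X) (pr (eL ι) (eR ι) Ω X.ξ)‖ = (Fintype.card T : ℝ)⁻¹ * ‖ap (∑ α, A α α) Ω‖ := by
  have h := inner_tst hA X Ω (Supp.one _)
  rw [map_one, ap_one, ap_one, inner_self_eq_norm_sq_to_K, inner_self_eq_norm_sq_to_K,
    ← mul_pow] at h
  have h2 : ((‖ap (tst A X) (pr (eL ι) (eR ι) Ω X.ξ)‖ ^ 2 : ℝ) : ℂ) =
      (((Fintype.card T : ℝ)⁻¹ * ‖ap (∑ α, A α α) Ω‖) ^ 2 : ℝ) := by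
    push_cast; exact h
  exact (pow_left_inj₀ (norm_nonneg _) (by positivity) two_ne_zero).1 (Complex.ofReal_inj.1 h2)

/-- the marginals of the tested state -/
lemma SV_tst {Ω : Q.Vec (Cfg (sub (eL ι) d))} (h0 : ap (∑ α, A α α) Ω ≠ 0) {Y : Finset ι}
    (hY : P₀ ⊆ Y) : SV (nz (ap (tst A X) (pr (eL ι) (eR ι) Ω X.ξ))) (un (Y \ P₀) ∅) =
        SV (nz (ap (∑ α, A α α) Ω)) (Y \ P₀) ∧
      SV (nz (ap (tst A X) (pr (eL ι) (eR ι) Ω X.ξ))) (un Y {false}) =
        SV (nz (ap (∑ α, A α α) Ω)) (Y \ P₀) := by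
  have hc : (Fintype.card T : ℂ) ≠ 0 := by exact_mod_cast Fintype.card_ne_zero
  have hc' : (0 : ℝ) < Fintype.card T := by exact_mod_cast Fintype.card_pos
  have hn := norm_tst hA X Ω
  have h1 : ap (tst A X) (pr (eL ι) (eR ι) Ω X.ξ) ≠ 0 := by
    rw [← norm_pos_iff, hn]; have := norm_pos_iff.2 h0; positivity
  have h2 : SV (nz (ap (tst A X) (pr (eL ι) (eR ι) Ω X.ξ))) (un (Y \ P₀) ∅) =
      SV (nz (ap (∑ α, A α α) Ω)) (Y \ P₀) := by
    rw [un, map_empty, union_empty, SV_eq, SX_map _ _ (pj_isHermitian _), SV_eq]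
    refine SX_congr fun N hN => ?_
    rw [← trace_emb_mul, trace_mul_kb, trace_mul_kb, nz, nz, map_smul, map_smul, inner_smul_left,
      inner_smul_right, inner_smul_left, inner_smul_right,
      inner_tst hA X Ω (hN.mono fun x hx => mem_compl.2 (mem_sdiff.1 hx).2), hn]
    simp only [mul_inv, inv_inv, Complex.ofReal_mul, Complex.ofReal_inv, Complex.ofReal_natCast,
      map_mul, map_inv₀, Complex.conj_ofReal, map_natCast]
    field_simp
  refine ⟨h2, Eq.trans ?_ h2⟩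
  have h3 : un Y {false} = un P₀ {false} ∪ un (Y \ P₀) ∅ := by
    rw [un_union, union_sdiff_of_subset hY, union_empty]
  rw [h3]
  refine (rk_tst hA X).SV_union ?_ (norm_nz h1) (by rw [nz, map_smul, ← ap_mul, (rk_tst hA X).idem])
  refine disjoint_compl_right.mono_right ?_
  rw [un_compl]
  exact union_subset_union (map_subset_map.2 fun x hx => mem_compl.2 (mem_sdiff.1 hx).2)
    (by simp)

/-- upper bound for one term of the functional at the tested state -/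
lemma tm_tst {Ω Ω' : Q.Vec (Cfg (sub (eL ι) d))} (h0 : ap (∑ α, A α α) Ω' ≠ 0) (hΩ : ‖Ω‖ = 1)
    {P R : Finset ι} (h1 : P₀ ⊆ P) (h2 : P ⊆ R) {δ L : ℝ}
    (hδ : ‖nz (ap (∑ α, A α α) Ω') - Ω‖ ≤ δ) (hL : Real.log (dim (sub (eL ι) d) R) ≤ L) :
    tm (nz (ap (tst A X) (pr (eL ι) (eR ι) Ω' X.ξ))) P R ≤
      mi Ω P Rᶜ - mi Ω P₀ Rᶜ + 10 * δ * L + 20 := by
  have e1 : un R {false} \ un P {false} = un (((R \ P) ∪ P₀) \ P₀) ∅ := by
    ext x
    rcases x with x | b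
    · have : x ∈ P₀ → x ∈ P := fun h => h1 h
      simp; tauto
    · simp
  have e2 : ((R \ P) ∪ P₀) \ P₀ = R \ P := by
    ext x
    have : x ∈ P₀ → x ∈ P := fun h => h1 h
    simp; tauto
  have e3 : (un ∅ {true} : Finset (ι ⊕ Bool)) = (un univ {false})ᶜ := by rw [un_compl, compl_univ]
  rw [tm, ← un_compl, mi_shell, e1, e3, SV_compl, (SV_tst hA X h0 h1).2,
    (SV_tst hA X h0 (h1.trans h2)).2, (SV_tst hA X h0 subset_union_right).1,
    (SV_tst hA X h0 (subset_univ _)).2, e2, ← compl_eq_univ_sdiff, SV_compl, mi_shell, mi_shell]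
  have hn := norm_nz h0
  have hδ' := (norm_sub_rev _ _).trans_le hδ
  have k1 := fannes hn hΩ (P \ P₀) hδ ((log_dim_mono (sdiff_subset.trans h2)).trans hL)
  have k2 := fannes hn hΩ (R \ P₀) hδ ((log_dim_mono sdiff_subset).trans hL)
  have k3 := fannes hΩ hn (R \ P) hδ' ((log_dim_mono sdiff_subset).trans hL)
  have k4 := fannes hΩ hn P₀ hδ' ((log_dim_mono (h1.trans h2)).trans hL)
  have k5 := araki_lieb_pure hΩ (disjoint_sdiff : Disjoint P₀ (P \ P₀))
  rw [union_sdiff_of_subset h1, ← SV_eq, ← SV_eq, ← SV_eq] at k5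
  linarith

end test

end Crest.Agent.N336.C.An
end

-- ▼ part N336/C/Anc
section

/-!
# Row 336, CORE: `anc : RigStmt → LscStmt → AncStmt` (helper44)
-/

set_option autoImplicit false
set_option linter.unusedSectionVars false

open Matrix Finset
open scoped ComplexOrder MatrixOrder Matrix.Norms.L2Operator InnerProductSpace

namespace Crest.Agent.N336.C

open Crest.Agent.N336.Q Crest.Agent.N336.Eng

namespace An

/-- the body of `RigStmt` -/
def RigAt (a : ℕ) (C : ℝ) : Prop :=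
  ∀ (ι : Type) [Fintype ι] [DecidableEq ι] (d : ι → Type)
    [∀ x, Fintype (d x)] [∀ x, DecidableEq (d x)] [∀ x, Nonempty (d x)] (V : Type) [Fintype V]
    [Nonempty V] (K w r b₁ b₂ N₀ Na T₁ : ℕ) (S : Scn ι V K w r b₁ b₂ N₀ Na) (h : V → Q.Op d)
    (J l s lam τ B E₀ α β : ℝ) (Ω : Q.Vec (Cfg d)) (O : Q.Op d) (ZO : Finset ι),
    (∀ v, (h v).PosSemidef ∧ Supp (S.Z v) (h v)) →
    (∀ v ∈ S.near, ‖h v‖ ≤ J ∧ Real.log (dim d (S.Z v)) ≤ l) →
    0 ≤ J → 1 ≤ l → 0 < s → C * l ^ a * s ≤ 1 → 0 < lam → 0 < τ → τ ≤ 1 / 4 → 1 ≤ T₁ →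
    ‖Ω‖ = 1 → ap (∑ v, h v) Ω = (E₀ : ℂ) • Ω → 0 ≤ β → 0 ≤ B →
    (∀ χ : Q.Vec (Cfg d), ‖χ‖ = 1 → α - β * qf χ (∑ v, h v) ≤ fn S.A₁ S.ini χ) →
    (∀ χ : Q.Vec (Cfg d), ‖χ‖ = 1 → -B ≤ fn S.A₁ S.ini χ) → fn S.A₁ S.fin Ω ≤ B →
    O.IsHermitian → O * O = O → Supp ZO O → (∀ g, ZO ⊆ (S.ini g).1) → Disjoint ZO S.A₁ →
    ap O Ω ≠ 0 →
    α - β * enB a C J l s lam τ B E₀ (pin K w r b₁ b₂ N₀ T₁) Na (Fintype.card V) T₁ ≤
      fn S.A₁ S.fin (((‖ap O Ω‖⁻¹ : ℝ) : ℂ) • ap O Ω) - Real.log (‖ap O Ω‖ ^ 2) / s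

lemma enB_mono {a : ℕ} {C C' J l s lam τ B E₀ p : ℝ} {Na NV T₁ : ℕ} (h : C ≤ C') (hJ : 0 ≤ J)
    (hl : 1 ≤ l) (hs : 0 < s) (hlam : 0 < lam) (hτ : 0 < τ) (hB : 0 ≤ B) :
    enB a C J l s lam τ B E₀ p Na NV T₁ ≤ enB a C' J l s lam τ B E₀ p Na NV T₁ := by
  unfold enB
  gcongr

/-- matrix units from a projector -/
lemma exists_mu {ι : Type} [Fintype ι] [DecidableEq ι] {d : ι → Type} [∀ x, Fintype (d x)]
    [∀ x, DecidableEq (d x)] [∀ x, Nonempty (d x)] {Ω : Q.Vec (Cfg d)} {X : Finset ι} {ρ ε : ℝ}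
    (h : Low Ω X ρ ε) : ∃ (T : Type) (_ : Fintype T) (_ : DecidableEq T) (A : T → T → Q.Op d),
      MU X A ∧ (Fintype.card T : ℝ) ≤ Real.exp ρ ∧ ‖ap (∑ α, A α α) Ω - Ω‖ ≤ ε := by
  classical
  obtain ⟨P, h1, h2, h3, h4⟩ := h
  have e1 : ∑ α : {i // ev P i = 1}, pj (evec P α) = P := by
    conv_rhs => rw [← sum_ev_smul_pj h1]
    rw [← Finset.sum_subtype (univ.filter fun i => ev P i = 1) (by simp) fun i => pj (evec P i),
      Finset.sum_filter]
    refine Finset.sum_congr rfl fun i _ => ?_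
    rcases ev_proj h1 h2 i with h | h <;> simp [h]
  refine ⟨{i // ev P i = 1}, inferInstance, inferInstance,
    fun α β => lift X (kb (evec P α) (evec P β)),
    ⟨fun α β => supp_lift _ _, fun α β γ δ => ?_, fun α β => ?_, fun α => ?_⟩, ?_, ?_⟩
  · rw [← map_mul, mul_kb, ap_kb, inner_evec, kb_smul_left]
    by_cases h : β = γ
    · simp [h]
    · simp [h, mt Subtype.ext h]
  · rw [← emb_conjTranspose, kb_conjTranspose]
  · rw [trace_lift, trace_pj, norm_evec]; simp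
  · refine le_trans (le_of_eq ?_) h3
    conv_rhs => rw [← e1]
    simp [trace_sum, trace_pj, norm_evec]
  · rw [← map_sum, e1]; exact h4

theorem core {a : ℕ} {C : ℝ} (hR : RigAt a C) (hC : 1 ≤ C) (hL : LscStmt) {ι : Type} [Fintype ι]
    [DecidableEq ι] {d : ι ⊕ Bool → Type} [∀ x, Fintype (d x)] [∀ x, DecidableEq (d x)]
    [∀ x, Nonempty (d x)] {V : Type} [Fintype V] [Nonempty V] {K w r b₁ b₂ N₀ Na T₁ : ℕ}
    (S : Scn ι V K w r b₁ b₂ N₀ Na) (h : V → Q.Op (sub (eL ι) d))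
    {J l s lam τ E₀ Δ ε ρ z : ℝ} {Ω Ω' : Q.Vec (Cfg (sub (eL ι) d))} {P₀ : Finset ι}
    (hh : ∀ v, (h v).PosSemidef ∧ Supp (S.Z v) (h v))
    (hn : ∀ v ∈ S.near, ‖h v‖ ≤ J ∧ Real.log (dim (sub (eL ι) d) (S.Z v)) ≤ l)
    (hJ : 0 ≤ J) (hl : 1 ≤ l) (hs : 0 < s) (hCs : (C + 300) * l ^ a * s ≤ 1) (hlam : 0 < lam)
    (hτ : 0 < τ) (hτ' : τ ≤ 1 / 4) (hT₁ : 1 ≤ T₁) (hgap : A.Gap (∑ v, h v) Ω' E₀ Δ)
    (hE : 0 ≤ E₀) (hΔ : 0 < Δ) (hΩ : ‖Ω‖ = 1) (hΩ' : ‖Ω' - Ω‖ ≤ ε) (hε : ε ≤ 1 / 10)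
    (hρ : 1 ≤ ρ) (hερ : ε * ρ ≤ 1) (hz : 0 < z) (hP₀ : ∀ g, P₀ ⊆ (S.ini g).1)
    (hg : ∀ g, Low Ω (S.ini g).1 ρ ε ∧ ε * Real.log (dim (sub (eL ι) d) (S.ini g).2) ≤ 1 ∧
      SV Ω (S.fin g).1 ≤ ρ)
    {T : Type} [Fintype T] [DecidableEq T] [Nonempty T] {A : T → T → Q.Op (sub (eL ι) d)}
    (hA : MU P₀ A) (hT : (Fintype.card T : ℝ) ≤ Real.exp ρ) (hAΩ : ‖ap (∑ α, A α α) Ω - Ω‖ ≤ ε)
    (X : Anc T (sub (eR ι) d)) :
    ∑ g, mi Ω P₀ (S.fin g).2ᶜ ≤
      ∑ g, (mi Ω (S.fin g).1 (S.fin g).2ᶜ - mi Ω (S.ini g).1 (S.ini g).2ᶜ) +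
        (C + 300) * K * (z * ρ + 1) + (C + 300) * ρ / s + (C + 300) * K * ρ / (Δ * z) *
          enB a (C + 300) J l s lam τ ((C + 300) * K * ρ) E₀ (pin K w r b₁ b₂ N₀ T₁) Na
            (Fintype.card V) T₁ := by
  obtain ⟨lo, hi, hlo, hhi⟩ := exists_lohi S
  have hε0 : 0 ≤ ε := (norm_nonneg _).trans hΩ'
  have hK : (0 : ℝ) ≤ K := Nat.cast_nonneg _
  have hT' : ∀ b, (dim (sub (eR ι) d) {b} : ℝ) ≤ Real.exp ρ := fun b => by rwa [X.dim]
  have hH : ∑ v, emb (eL ι) (h v) = emb (d := d) (eL ι) (∑ v, h v) := (map_sum _ _ _).symm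
  have hv : ‖ap (∑ α, A α α) Ω' - Ω‖ ≤ 2 * ε := by
    have k1 := norm_sub_le_norm_sub_add_norm_sub (ap (∑ α, A α α) Ω') (ap (∑ α, A α α) Ω) Ω
    have k2 := norm_ap_proj_le hA.proj.1 hA.proj.2 (Ω' - Ω)
    rw [map_sub] at k2
    linarith
  have hv0 := ne_zero_of_close hΩ hv (by linarith)
  have hn0 := norm_tst hA X Ω'
  have hc : (0 : ℝ) < Fintype.card T := by exact_mod_cast Fintype.card_pos
  have hB : 0 ≤ (C + 300) * K * ρ := by positivity
  have hβ : 0 ≤ (C + 300) * K * ρ / (Δ * z) := by positivity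
  have hLf : ∀ g, Real.log (dim (sub (eL ι) d) (S.fin g).2) ≤
      Real.log (dim (sub (eL ι) d) (S.ini g).2) := fun g => log_dim_mono (chain S g).2.2
  have main := hR _ d V K w r b₁ b₂ N₀ Na T₁ (ext S lo hi hlo hhi) (fun v => emb (eL ι) (h v))
    J l s lam τ ((C + 300) * K * ρ) E₀
    (∑ g, mi Ω (S.ini g).1 (S.ini g).2ᶜ - 200 * K * (z * ρ + 1)) ((C + 300) * K * ρ / (Δ * z))
    (pr (eL ι) (eR ι) Ω' X.ξ) (tst A X) (un P₀ {false})
    (fun v => ⟨emb_posSemidef _ (hh v).1, (hh v).2.emb _⟩)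
    (fun v hv => ⟨(norm_emb_le _ _).trans (hn v hv).1, by
      rw [show (ext S lo hi hlo hhi).Z v = (S.Z v).map (eL ι) from rfl, dim_map]
      exact (hn v hv).2⟩)
    hJ hl hs (le_trans (by gcongr; linarith) hCs) hlam hτ hτ' hT₁
    (by rw [norm_pr rg_eR, hgap.norm, X.norm, one_mul])
    (by rw [hH, ap_emb_pr rg_eR _ _ X.norm, hgap.eig, pr_smul_left]) hβ hB ?_ ?_ ?_
    (rk_tst hA X).herm (rk_tst hA X).idem (rk_tst hA X).supp
    (fun g => by
      rw [ext_ini]; exact union_subset_union_left (map_subset_map.2 (hP₀ g)))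
    (by
      refine disjoint_compl_right.mono_right ?_
      rw [un_compl]
      exact union_subset_union_left (map_subset_map.2 (empty_subset _)))
    (by rw [← norm_pos_iff, hn0]; have := norm_pos_iff.2 hv0; positivity)
  · have k1 := enB_mono (a := a) (E₀ := E₀) (p := pin K w r b₁ b₂ N₀ T₁) (Na := Na)
      (NV := Fintype.card V) (T₁ := T₁) (by linarith : C ≤ C + 300) hJ hl hs hlam hτ hB
    have k2 := mul_le_mul_of_nonneg_left k1 hβ
    have k3 : fn (ext S lo hi hlo hhi).A₁ (ext S lo hi hlo hhi).fin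
        (nz (ap (tst A X) (pr (eL ι) (eR ι) Ω' X.ξ))) ≤
        ∑ g, (mi Ω (S.fin g).1 (S.fin g).2ᶜ - mi Ω P₀ (S.fin g).2ᶜ + 60) := by
      refine (fn_un (ext_fin S hlo hhi) _).trans_le (Finset.sum_le_sum fun g _ => ?_)
      have k4 := tm_tst hA X hv0 hΩ ((hP₀ g).trans (chain S g).1) (chain S g).2.1
        ((norm_nz_sub hv0 hΩ).trans (by linarith : _ ≤ 4 * ε)) (hLf g)
      have k5 := (hg g).2.1
      linarith
    have k4 : -(3 * ρ) ≤ Real.log (‖ap (tst A X) (pr (eL ι) (eR ι) Ω' X.ξ)‖ ^ 2) := by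
      have k5 : 4 / 5 ≤ ‖ap (∑ α, A α α) Ω'‖ := by
        have := norm_sub_norm_le Ω (ap (∑ α, A α α) Ω')
        rw [norm_sub_rev, hΩ] at this
        linarith
      have k6 := Real.one_sub_inv_le_log_of_pos (norm_pos_iff.2 hv0)
      have k7 : ‖ap (∑ α, A α α) Ω'‖⁻¹ ≤ 5 / 4 := by
        rw [inv_le_comm₀ (norm_pos_iff.2 hv0) (by norm_num)]; linarith
      have k8 := (Real.log_le_iff_le_exp hc).2 hT
      rw [hn0, Real.log_pow, Real.log_mul (by positivity) (norm_ne_zero_iff.2 hv0), Real.log_inv]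
      push_cast
      linarith
    have k5 : -(Real.log (‖ap (tst A X) (pr (eL ι) (eR ι) Ω' X.ξ)‖ ^ 2) / s) ≤
        (C + 300) * ρ / s := by
      rw [← neg_div]; gcongr; nlinarith
    have k6 : 200 * K * (z * ρ + 1) + 60 * K ≤ (C + 300) * K * (z * ρ + 1) := by
      have : 0 ≤ K * (z * ρ) := by positivity
      have : 0 ≤ C * (K * (z * ρ + 1)) := by positivity
      nlinarith
    simp only [Finset.sum_add_distrib, Finset.sum_sub_distrib, Finset.sum_const, card_univ,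
      Fintype.card_fin, nsmul_eq_mul] at k3 ⊢
    unfold nz at k3
    linarith
  · intro χ hχ
    obtain ⟨ζ, hζ, k1⟩ := close hgap hE hΔ hz hχ X.norm
    rw [hH]
    set e := qf χ (emb (eL ι) (∑ v, h v)) with he
    have he0 : 0 ≤ e := re_inner_ap_nonneg
      (emb_posSemidef _ (posSemidef_sum _ fun v _ => (hh v).1)) χ
    have k2 : ‖χ - pr (eL ι) (eR ι) Ω ζ‖ ≤ z + e / (Δ * z) + ε := by
      have := norm_sub_le_norm_sub_add_norm_sub χ (pr (eL ι) (eR ι) Ω' ζ) (pr (eL ι) (eR ι) Ω ζ)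
      rw [pr_sub_left, norm_pr rg_eR, hζ, mul_one] at this
      linarith
    refine le_trans ?_ (fn_un (ext_ini S hlo hhi) _).ge
    have k3 : ∑ g, (mi Ω (S.ini g).1 (S.ini g).2ᶜ - (44 * (z + e / (Δ * z) + ε) * ρ + 150)) ≤
        ∑ g, tm χ (S.ini g).1 (S.ini g).2 := Finset.sum_le_sum fun g _ => by
      have := tm_lower hL hΩ (hg g).1 ((chain S g).1.trans ((chain S g).2.1.trans (chain S g).2.2))
        (hg g).2.1 hε hρ hερ hT' hχ hζ k2
      linarith
    refine le_trans ?_ k3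
    simp only [Finset.sum_sub_distrib, Finset.sum_const, card_univ, Fintype.card_fin,
      nsmul_eq_mul]
    have k4 : (C + 300) * K * ρ / (Δ * z) * e = (C + 300) * (K * (ρ * (e / (Δ * z)))) := by ring
    have k5 : 0 ≤ K * (ρ * (e / (Δ * z))) := by positivity
    have k6 : 0 ≤ K * (z * ρ) := by positivity
    have k7 : K * (ε * ρ) ≤ K * 1 := by gcongr
    have k8 : 0 ≤ C * (K * (ρ * (e / (Δ * z)))) := by positivity
    rw [k4]
    linarith
  · intro χ hχ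
    refine le_trans ?_ (fn_un (ext_ini S hlo hhi) _).ge
    refine le_trans ?_ (Finset.sum_le_sum fun g _ => tm_ge hT' hχ (S.ini g).1 (S.ini g).2)
    simp only [Finset.sum_const, card_univ, Fintype.card_fin, nsmul_eq_mul]
    have k2 : 0 ≤ K * ρ := by positivity
    have k3 : 0 ≤ C * (K * ρ) := by positivity
    linarith
  · refine (fn_un (ext_fin S hlo hhi) _).trans_le ?_
    have k1 : ∀ g, tm (pr (eL ι) (eR ι) Ω' X.ξ) (S.fin g).1 (S.fin g).2 ≤ 20 * ρ := fun g => by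
      rw [tm_pr hgap.norm X.norm]
      have k2 := mi_cont hgap.norm hΩ (chain S g).2.1 hΩ' (hLf g)
      have k3 := mi_le hΩ (disjoint_compl_right.mono_left (chain S g).2.1)
      have k4 := (hg g).2
      linarith [k4.1, k4.2]
    refine (Finset.sum_le_sum fun g _ => k1 g).trans ?_
    simp only [Finset.sum_const, card_univ, Fintype.card_fin, nsmul_eq_mul]
    have k2 : 0 ≤ K * ρ := by positivity
    have k3 : 0 ≤ C * (K * ρ) := by positivity
    linarith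

end An

/-- the ancillas are eliminated -/
theorem anc (hR : RigStmt) (hL : LscStmt) : AncStmt := by
  obtain ⟨a, C, ha, hC, hR⟩ := hR
  refine ⟨a, C + 300, ha, by linarith, ?_⟩
  intro ι _ _ d i1 i2 i3 V _ _ K w r b₁ b₂ N₀ Na T₁ S h J l s lam τ E₀ Δ ε ρ z Ω Ω' P₀ hh hn hJ hl
    hs hCs hlam hτ hτ' hT₁ hgap hE hΔ hΩ hΩ' hε hρ hερ hz hP₀ hlow hg
  obtain ⟨T, j1, j2, A, hA, hT, hAΩ⟩ := An.exists_mu hlow
  have j3 : Nonempty T := by
    by_contra h0
    rw [not_nonempty_iff] at h0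
    rw [Finset.sum_of_isEmpty, ap_zero, zero_sub, norm_neg, hΩ] at hAΩ
    linarith
  obtain ⟨X⟩ := An.exists_anc T
  exact @An.core a C hR hC hL ι _ _ (Sum.elim d fun _ => T)
    (fun x => match x with | .inl x => i1 x | .inr _ => j1)
    (fun x => match x with | .inl x => i2 x | .inr _ => j2)
    (fun x => match x with | .inl x => i3 x | .inr _ => j3)
    V _ _ K w r b₁ b₂ N₀ Na T₁ S h J l s lam τ E₀ Δ ε ρ z Ω Ω' P₀ hh hn hJ hl hs hCs hlam hτ hτ'
    hT₁ hgap hE hΔ hΩ hΩ' hε hρ hερ hz hP₀ hg T j1 j2 j3 A hA hT hAΩ X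

end Crest.Agent.N336.C
end

-- ▼ part N336/C/Boot1
section

/-!
# Row 336, CORE bootstrap: Whitney covers of chart regions by squares (helper51)
-/

set_option autoImplicit false

namespace Crest.Agent.N336.C.Boot

open Crest.Agent.N336.Area Crest.Agent.N336.A

variable {q R : ℕ} {J Δ : ℝ} {Λ : Type} [Fintype Λ] [DecidableEq Λ]

/-- The square bound with exponent `a` and constant `C` for one system. -/
def SqC (s : Sys q R J Δ Λ) (a C : ℝ) : Prop :=
  ∀ (U : Finset Λ) (x y : ℤ) (L : ℕ),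
    (∀ u v, s.G.Adj u v → u ∈ U → u ∈ box s (x - L) (y - L) (3 * L) → v ∈ U) →
    S s.Ω (U ∩ box s x y L) ≤ C * (L : ℝ) ^ a

/-- The entropy facts that are used. -/
structure EF (Ω : Vec Λ q) : Prop where
  cm : ∀ A : Finset Λ, S Ω Aᶜ = S Ω A
  bd : ∀ A : Finset Λ, 0 ≤ S Ω A ∧ S Ω A ≤ A.card * Real.log q
  sm : ∀ A B : Finset Λ, S Ω (A ∪ B) + S Ω (A ∩ B) ≤ S Ω A + S Ω B

theorem EF.of (hE : EntStmt) (s : Sys q R J Δ Λ) : EF s.Ω := by
  obtain ⟨h1, h2, h3, -⟩ := hE q Λ s.Ω s.gap.1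
  exact ⟨h1, h2, h3⟩

theorem EF.union {Ω : Vec Λ q} (h : EF Ω) (A B : Finset Λ) : S Ω (A ∪ B) ≤ S Ω A + S Ω B := by
  have := h.sm A B
  have := (h.bd (A ∩ B)).1
  linarith

theorem EF.biUnion {Ω : Vec Λ q} (h : EF Ω) {ι : Type} [DecidableEq ι] (I : Finset ι)
    (f : ι → Finset Λ) : S Ω (I.biUnion f) ≤ ∑ i ∈ I, S Ω (f i) := by
  induction I using Finset.induction_on with
  | empty => simpa using (h.bd ∅).2
  | insert i I hi ih =>
    rw [Finset.biUnion_insert, Finset.sum_insert hi]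
    linarith [h.union (f i) (I.biUnion f)]

theorem EF.sub {Ω : Vec Λ q} (h : EF Ω) {X Y : Finset Λ} (hY : Y ⊆ X) :
    S Ω Y ≤ S Ω X + S Ω (X \ Y) := by
  have e : Yᶜ = Xᶜ ∪ X \ Y := by
    ext x
    have := @hY x
    simp only [Finset.mem_compl, Finset.mem_union, Finset.mem_sdiff]; tauto
  rw [← h.cm Y, e, ← h.cm X]
  exact h.union _ _

theorem EF.mi_eq {Ω : Vec Λ q} (h : EF Ω) {X Y : Finset Λ} (hY : Y ⊆ X) :
    MI Ω Y Xᶜ = S Ω Y + S Ω X - S Ω (X \ Y) := by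
  have e : Y ∪ Xᶜ = (X \ Y)ᶜ := by
    ext x
    have := @hY x
    simp only [Finset.mem_compl, Finset.mem_union, Finset.mem_sdiff]; tauto
  unfold MI
  rw [e, h.cm, h.cm]

theorem tile_eq {r : ℤ} (hr : 0 < r) {τ z : ℤ × ℤ} (h1 : r * τ.1 ≤ z.1) (h2 : z.1 < r * τ.1 + r)
    (h3 : r * τ.2 ≤ z.2) (h4 : z.2 < r * τ.2 + r) : tile r z = τ := by
  have key : ∀ a t : ℤ, r * t ≤ a → a < r * t + r → a / r = t := fun a t a1 a2 => by
    rw [show a = (a - r * t) + t * r by ring, Int.add_mul_ediv_right _ _ hr.ne',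
      Int.ediv_eq_zero_of_lt (by omega) (by omega), zero_add]
  exact Prod.ext (key _ _ h1 h2) (key _ _ h3 h4)

/-- A saturated set is covered by its tiles. -/
theorem tiles (s : Sys q R J Δ Λ) (hS : EF s.Ω) {a C : ℝ} (hC : 0 ≤ C) (h : SqC s a C)
    (U : Finset Λ) {r : ℕ} (hr : 1 ≤ r) (E : ℤ × ℤ → Prop)
    (hsat : ∀ z z', tile r z = tile r z' → E z → E z') {N : ℝ}
    (hN : ∀ T : Finset (ℤ × ℤ), (∀ z ∈ T, E z) → (T.card : ℝ) ≤ N)
    (hcl : ∀ u v, s.G.Adj u v → u ∈ U → ∀ z, E z → Near (2 * r) z (s.pos u) → v ∈ U)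
    (X : Finset Λ) (hX : ∀ x, x ∈ X ↔ x ∈ U ∧ E (s.pos x)) :
    S s.Ω X ≤ C * N * (r : ℝ) ^ (a - 2) := by
  have hr' : (0 : ℤ) < r := by exact_mod_cast hr
  set I := X.image fun x => tile r (s.pos x) with hI
  have hE : ∀ τ ∈ I, ∀ z, tile r z = τ → E z := fun τ hτ z hz => by
    obtain ⟨x, hx, rfl⟩ := Finset.mem_image.1 hτ
    exact hsat _ _ hz.symm ((hX x).1 hx).2
  have e : X = I.biUnion fun τ => U ∩ box s (r * τ.1) (r * τ.2) r := by
    ext x
    simp only [Finset.mem_biUnion, Finset.mem_inter, box, Finset.mem_filter, Finset.mem_univ,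
      true_and]
    constructor
    · intro hx
      exact ⟨_, Finset.mem_image_of_mem _ hx, ((hX x).1 hx).1, tile_spec hr' _⟩
    · rintro ⟨τ, hτ, hx, a1, a2, a3, a4⟩
      exact (hX x).2 ⟨hx, hE τ hτ _ (tile_eq hr' a1 a2 a3 a4)⟩
  have h1 : S s.Ω X ≤ I.card • (C * (r : ℝ) ^ a) := by
    rw [e]
    refine (hS.biUnion _ _).trans (Finset.sum_le_card_nsmul _ _ _ fun τ hτ => h U _ _ r ?_)
    intro u v huv hu hb
    refine hcl u v huv hu (r * τ.1, r * τ.2) (hE τ hτ _ (tile_eq hr' le_rfl (by simp only; omega)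
      le_rfl (by simp only; omega))) ?_
    simp only [box, Finset.mem_filter, Finset.mem_univ, true_and] at hb
    unfold Near; simp only; omega
  have h2 : (I.card : ℝ) * r ^ 2 ≤ N := by
    set f : (ℤ × ℤ) × ℕ × ℕ → ℤ × ℤ := fun p => (r * p.1.1 + p.2.1, r * p.1.2 + p.2.2)
    have ht : ∀ p ∈ I ×ˢ (Finset.range r ×ˢ Finset.range r), tile r (f p) = p.1 := fun p hp => by
      simp only [Finset.mem_product, Finset.mem_range] at hp
      exact tile_eq hr' (by simp only [f]; omega) (by simp only [f]; omega)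
        (by simp only [f]; omega) (by simp only [f]; omega)
    have := hN ((I ×ˢ (Finset.range r ×ˢ Finset.range r)).image f) fun z hz => by
      obtain ⟨p, hp, rfl⟩ := Finset.mem_image.1 hz
      exact hE _ (Finset.mem_product.1 hp).1 _ (ht p hp)
    rw [Finset.card_image_of_injOn fun p hp p' hp' e => by
      have e1 : p.1 = p'.1 := by rw [← ht p hp, ← ht p' hp', e]
      simp only [f, Prod.mk.injEq, e1] at e
      exact Prod.ext e1 (Prod.ext (by omega) (by omega))] at this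
    simpa [Finset.card_product, sq] using this
  have hr0 : (0 : ℝ) < r := by exact_mod_cast hr
  rw [nsmul_eq_mul, show (r : ℝ) ^ a = r ^ 2 * (r : ℝ) ^ (a - 2) by
    rw [← Real.rpow_two, ← Real.rpow_add hr0]; ring_nf] at h1
  have h3 : 0 ≤ C * (r : ℝ) ^ (a - 2) := by positivity
  nlinarith [mul_le_mul_of_nonneg_right h2 h3]

theorem near_of_tile {r : ℤ} (hr : 0 < r) {z z' : ℤ × ℤ} (h : tile r z = tile r z') :
    Near r z z' := by
  have h1 := tile_spec hr z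
  have h2 := tile_spec hr z'
  rw [h] at h1
  unfold Near; omega

/-- Whitney cover. -/
theorem whit (s : Sys q R J Δ Λ) (hS : EF s.Ω) {a C : ℝ} (hC : 0 ≤ C) (h : SqC s a C)
    (U : Finset Λ) (D : ℤ × ℤ → Prop) (T : ℕ) {N N' : ℝ}
    (hN : ∀ t < T, ∀ F : Finset (ℤ × ℤ),
      (∀ z ∈ F, D z ∧ ∃ z', ¬ D z' ∧ Near (2 ^ (t + 1)) z z') → (F.card : ℝ) ≤ N * 2 ^ t)
    (hN' : ∀ F : Finset (ℤ × ℤ), (∀ z ∈ F, D z) → (F.card : ℝ) ≤ N')
    (hcl : ∀ u v, s.G.Adj u v → u ∈ U → ∀ z, D z → Near (2 * 2 ^ T) z (s.pos u) → v ∈ U)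
    (X : Finset Λ) (hX : ∀ x, x ∈ X ↔ x ∈ U ∧ D (s.pos x)) :
    S s.Ω X ≤
      C * N * ∑ t ∈ Finset.range T, ((2 : ℝ) ^ (a - 1)) ^ t + C * N' * ((2 : ℝ) ^ T) ^ (a - 2) := by
  classical
  set Dt : ℕ → ℤ × ℤ → Prop := fun t z => ∀ z', tile (2 ^ t) z' = tile (2 ^ t) z → D z' with hDt
  have hD : ∀ t z, Dt t z → D z := fun t z hz => hz z rfl
  have hcl' : ∀ t ≤ T, ∀ u v, s.G.Adj u v → u ∈ U → ∀ z, D z →
      Near (2 * (2 ^ t : ℕ)) z (s.pos u) → v ∈ U := fun t ht u v huv hu z hz hn =>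
    hcl u v huv hu z hz (by
      have : (2 : ℤ) ^ t ≤ 2 ^ T := pow_le_pow_right₀ (by norm_num) ht
      push_cast at hn
      unfold Near at *; omega)
  have key : ∀ j ≤ T, S s.Ω X ≤
      C * N * ∑ t ∈ Finset.range j, ((2 : ℝ) ^ (a - 1)) ^ t +
        S s.Ω (U.filter fun x => Dt j (s.pos x)) := by
    intro j
    induction j with
    | zero =>
      intro _
      have : (U.filter fun x => Dt 0 (s.pos x)) = X := by
        ext x
        rw [hX, Finset.mem_filter]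
        refine and_congr_right fun _ => ⟨hD 0 _, fun hx z' hz => ?_⟩
        have : z' = s.pos x := Prod.ext (by simpa [tile] using congrArg Prod.fst hz)
          (by simpa [tile] using congrArg Prod.snd hz)
        rwa [this]
      rw [this]; simp
    | succ j ih =>
      intro hj
      have e : (U.filter fun x => Dt j (s.pos x)) =
          (U.filter fun x => Dt j (s.pos x) ∧ ¬ Dt (j + 1) (s.pos x)) ∪
            U.filter fun x => Dt (j + 1) (s.pos x) := by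
        ext x
        have : Dt (j + 1) (s.pos x) → Dt j (s.pos x) := fun hx z' hz =>
          hx z' (tile_pow (Nat.le_succ j) hz)
        simp only [Finset.mem_filter, Finset.mem_union]; tauto
      have h1 := tiles s hS hC h U (r := 2 ^ j) Nat.one_le_two_pow
        (fun z => Dt j z ∧ ¬ Dt (j + 1) z) (fun z z' hz hE => by
          push_cast at hz
          refine ⟨fun w hw => hE.1 w (hw.trans hz.symm), fun hx => hE.2 fun w hw => hx w ?_⟩
          exact hw.trans (tile_pow (Nat.le_succ j) hz)) (N := N * 2 ^ j)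
        (fun F hF => hN j hj F fun z hz => by
          obtain ⟨a1, a2⟩ := hF z hz
          simp only [hDt, not_forall] at a2
          obtain ⟨z', a3, a4⟩ := a2
          exact ⟨hD _ _ a1, z', a4, near_of_tile (by positivity) a3.symm⟩)
        (fun u v huv hu z hz hn => hcl' j (by omega) u v huv hu z (hD _ _ hz.1) hn)
        (U.filter fun x => Dt j (s.pos x) ∧ ¬ Dt (j + 1) (s.pos x)) (fun _ => Finset.mem_filter)
      have h2 : N * 2 ^ j * ((2 ^ j : ℕ) : ℝ) ^ (a - 2) = N * ((2 : ℝ) ^ (a - 1)) ^ j := by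
        push_cast
        rw [mul_assoc, mul_comm ((2 : ℝ) ^ j), ← Real.rpow_add_one (by positivity),
          ← Real.rpow_natCast, ← Real.rpow_natCast, ← Real.rpow_mul (by norm_num),
          ← Real.rpow_mul (by norm_num)]
        congr 2; ring
      have h3 := ih (by omega)
      rw [e] at h3
      have h4 := hS.union (U.filter fun x => Dt j (s.pos x) ∧ ¬ Dt (j + 1) (s.pos x))
        (U.filter fun x => Dt (j + 1) (s.pos x))
      rw [mul_assoc C, h2] at h1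
      rw [Finset.sum_range_succ]
      linarith
  have h1 := tiles s hS hC h U (r := 2 ^ T) Nat.one_le_two_pow (Dt T) (fun z z' hz hE w hw => by
    push_cast at hz
    exact hE w (hw.trans hz.symm)) (N := N') (fun F hF => hN' F fun z hz => hD _ _ (hF z hz))
    (fun u v huv hu z hz hn => hcl' T le_rfl u v huv hu z (hD _ _ hz) hn)
    (U.filter fun x => Dt T (s.pos x)) (fun _ => Finset.mem_filter)
  push_cast at h1
  linarith [key T le_rfl]

variable {s : Sys q R J Δ Λ} {n M : ℕ}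

theorem chart_lip (c : Chart s n M) (d : ℕ) : ∀ z z' : ℤ × ℤ, Near d z z' → c.ψ z ≤ c.ψ z' + d := by
  induction d with
  | zero =>
    intro z z' h
    have : z = z' := Prod.ext (by unfold Near at h; omega) (by unfold Near at h; omega)
    simp [this]
  | succ d ih =>
    intro z z' h
    have h1 := ih (max (z.1 - 1) (min (z.1 + 1) z'.1), max (z.2 - 1) (min (z.2 + 1) z'.2)) z'
      (by unfold Near at *; simp only; omega)
    have h2 := c.lip z (max (z.1 - 1) (min (z.1 + 1) z'.1), max (z.2 - 1) (min (z.2 + 1) z'.2))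
      (by rw [abs_le]; simp only; omega) (by rw [abs_le]; simp only; omega)
    omega

theorem card_lev (c : Chart s n M) (I : Finset ℤ) (hI : ∀ k ∈ I, 0 ≤ k ∧ k ≤ M)
    (F : Finset (ℤ × ℤ)) (hF : ∀ z ∈ F, c.ψ z ∈ I) : F.card ≤ n * I.card :=
  Finset.card_le_mul_card_image_of_maps_to hF n fun k hk =>
    c.lev k (hI k hk).1 (hI k hk).2 _ fun _ hz => (Finset.mem_filter.1 hz).2

/-- Bands and sublevel sets of a chart. -/
theorem chart_bound {a C : ℝ} (ha : 1 < a) (ha2 : a ≤ 2) (hC : 0 ≤ C) : ∃ K : ℝ, 1 ≤ K ∧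
    ∀ (Λ : Type) [Fintype Λ] [DecidableEq Λ] (s : Sys q R J Δ Λ), EF s.Ω → SqC s a C →
    ∀ (n M m : ℕ) (c : Chart s n M), 1 ≤ m → 3 * m ≤ M → ∀ k : ℤ, 0 ≤ k → k ≤ m →
      S s.Ω (c.P m \ c.P k) ≤ K * (n * (m : ℝ) ^ (a - 1)) ∧
      S s.Ω (c.P k) ≤ K * (n * (m : ℝ) ^ (a - 1) + n ^ 2 * (m : ℝ) ^ (a - 2)) := by
  classical
  set x : ℝ := 2 ^ (a - 1) with hx
  have hx1 : 1 < x := Real.one_lt_rpow (by norm_num) (by linarith)
  set K := 4 * C / (x - 1) + 2 * C with hK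
  have hK0 : 0 ≤ 4 * C / (x - 1) := div_nonneg (by positivity) (by linarith)
  refine ⟨2 * K + 1, by linarith, fun Λ _ _ s hS h n M m c hm hM k hk0 hk => ?_⟩
  obtain ⟨T, hT1, hT2⟩ : ∃ T, 2 ^ T ≤ m ∧ m < 2 ^ (T + 1) :=
    ⟨Nat.log 2 m, Nat.pow_log_le_self 2 (by omega), Nat.lt_pow_succ_log_self (by norm_num) m⟩
  have hm0 : (0 : ℝ) < m := by exact_mod_cast hm
  have hT1' : (2 : ℝ) ^ T ≤ m := by exact_mod_cast hT1
  have hT2' : (m : ℝ) ≤ 2 * 2 ^ T := by rw [← pow_succ']; exact_mod_cast hT2.le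
  have hT3 : (2 : ℤ) ^ T ≤ m := by exact_mod_cast hT1
  have g1 : ∑ t ∈ Finset.range T, x ^ t ≤ (m : ℝ) ^ (a - 1) / (x - 1) := by
    rw [geom_sum_eq hx1.ne', div_le_div_iff_of_pos_right (by linarith)]
    have : x ^ T ≤ (m : ℝ) ^ (a - 1) := by
      rw [hx, ← Real.rpow_natCast, ← Real.rpow_mul (by norm_num), mul_comm,
        Real.rpow_mul (by norm_num), Real.rpow_natCast]
      exact Real.rpow_le_rpow (by positivity) hT1' (by linarith)
    linarith
  have g2 : ((2 : ℝ) ^ T) ^ (a - 2) ≤ 2 * (m : ℝ) ^ (a - 2) := by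
    calc ((2 : ℝ) ^ T) ^ (a - 2) ≤ (m / 2) ^ (a - 2) :=
          Real.rpow_le_rpow_of_nonpos (by positivity) (by linarith) (by linarith)
      _ = (m : ℝ) ^ (a - 2) * 2 ^ (2 - a) := by
          rw [Real.div_rpow hm0.le (by norm_num), div_eq_mul_inv, ← Real.rpow_neg (by norm_num)]
          ring_nf
      _ ≤ (m : ℝ) ^ (a - 2) * 2 ^ (1 : ℝ) := mul_le_mul_of_nonneg_left
          (Real.rpow_le_rpow_of_exponent_le (by norm_num) (by linarith)) (by positivity)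
      _ = _ := by rw [Real.rpow_one]; ring
  have gen : ∀ (σ : Prop) (N' : ℝ), 0 ≤ N' →
      (∀ F : Finset (ℤ × ℤ), (∀ z ∈ F, (σ ∨ k < c.ψ z) ∧ c.ψ z ≤ m) → (F.card : ℝ) ≤ N') →
      ∀ X : Finset Λ, (∀ u, u ∈ X ↔ u ∈ c.U ∧ (σ ∨ k < c.ψ (s.pos u)) ∧ c.ψ (s.pos u) ≤ m) →
      S s.Ω X ≤ 4 * C / (x - 1) * (n * (m : ℝ) ^ (a - 1)) + 2 * C * (N' * (m : ℝ) ^ (a - 2)) := by
    intro σ N' hN0 hN' X hX
    have := whit s hS hC h c.U (fun z => (σ ∨ k < c.ψ z) ∧ c.ψ z ≤ m) T (N := 4 * n) (N' := N')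
      (fun t ht F hF => by
        have p1 : (2 : ℤ) ^ (t + 1) ≤ 2 ^ T := pow_le_pow_right₀ (by norm_num) ht
        have p2 : (0 : ℤ) < 2 ^ (t + 1) := by positivity
        have b1 := card_lev c (Finset.Ioc k (k + 2 ^ (t + 1)) ∪ Finset.Ioc (m - 2 ^ (t + 1)) m)
          (fun j hj => by simp only [Finset.mem_union, Finset.mem_Ioc] at hj; omega) F
          fun z hz => by
            obtain ⟨a1, z', a2, a3⟩ := hF z hz
            have l1 := chart_lip c (2 ^ (t + 1)) z z' (by exact_mod_cast a3)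
            have l2 := chart_lip c (2 ^ (t + 1)) z' z (by
              push_cast; unfold Near at *; omega)
            push_cast at l1 l2
            simp only [Finset.mem_union, Finset.mem_Ioc]
            by_cases hσ : σ
            · simp only [hσ, true_or, true_and] at a1 a2; omega
            · simp only [hσ, false_or] at a1 a2; omega
        have b2 := Finset.card_union_le (Finset.Ioc k (k + 2 ^ (t + 1)))
          (Finset.Ioc ((m : ℤ) - 2 ^ (t + 1)) m)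
        rw [Int.card_Ioc, Int.card_Ioc, show k + 2 ^ (t + 1) - k = ((2 ^ (t + 1) : ℕ) : ℤ) by
          push_cast; ring, show (m : ℤ) - (m - 2 ^ (t + 1)) = ((2 ^ (t + 1) : ℕ) : ℤ) by
          push_cast; ring, Int.toNat_natCast] at b2
        have b3 : F.card ≤ 4 * n * 2 ^ t :=
          b1.trans ((Nat.mul_le_mul_left _ b2).trans (le_of_eq (by ring)))
        exact_mod_cast b3) hN'
      (fun u v huv hu z hz hn => by
        by_contra hv
        have b1 := c.closed u v huv hu hv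
        have b2 := chart_lip c (2 * 2 ^ T) (s.pos u) z (by push_cast; unfold Near at *; omega)
        push_cast at b2
        omega) X hX
    have b1 := mul_le_mul_of_nonneg_left g1 (by positivity : 0 ≤ C * (4 * n))
    have b2 := mul_le_mul_of_nonneg_left g2 (by positivity : 0 ≤ C * N')
    have b3 : C * (4 * n) * ((m : ℝ) ^ (a - 1) / (x - 1)) =
      4 * C / (x - 1) * (n * (m : ℝ) ^ (a - 1)) := by ring
    linarith
  have p1 : 0 ≤ n * (m : ℝ) ^ (a - 1) := by positivity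
  have p2 : 0 ≤ n ^ 2 * (m : ℝ) ^ (a - 2) := by positivity
  have h1 : S s.Ω (c.P m \ c.P k) ≤ K * (n * (m : ℝ) ^ (a - 1)) := by
    have := gen False (n * m) (by positivity) (fun F hF => by
      have b1 := card_lev c (Finset.Ioc 0 m) (fun j hj => by
        simp only [Finset.mem_Ioc] at hj; omega) F fun z hz => by
          have := hF z hz
          simp only [Finset.mem_Ioc, false_or] at this ⊢; omega
      simp only [Int.card_Ioc, sub_zero, Int.toNat_natCast] at b1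
      exact_mod_cast b1) (c.P m \ c.P k) fun u => by
        simp only [Finset.mem_sdiff, Chart.mem_P, false_or]
        constructor
        · rintro ⟨⟨a1, a2⟩, a3⟩
          exact ⟨a1, not_le.1 fun a4 => a3 ⟨a1, a4⟩, a2⟩
        · rintro ⟨a1, a2, a3⟩
          exact ⟨⟨a1, a3⟩, fun a4 => by omega⟩
    rw [mul_assoc (n : ℝ), ← Real.rpow_one_add' hm0.le (by linarith),
      show 1 + (a - 2) = a - 1 by ring] at this
    rw [hK]; linarith
  have h2 : S s.Ω (c.P m) ≤ 4 * C / (x - 1) * (n * (m : ℝ) ^ (a - 1)) +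
      2 * C * (n ^ 2 * (m : ℝ) ^ (a - 2)) := by
    exact gen True (n ^ 2) (by positivity) (fun F hF => by
      exact_mod_cast c.tot F fun z hz => by have := (hF z hz).2; omega) _ fun u => by
        simp only [Chart.mem_P, true_or, true_and]
  have h3 := hS.sub (c.P_mono hk)
  have hK1 : 0 ≤ K := by linarith
  constructor <;> nlinarith

end Crest.Agent.N336.C.Boot
end

-- ▼ part N336/C/Boot

/-!
# Row 336, CORE bootstrap: `boot : EntStmt → SubStmt → StepStmt → CoreStmt` (helper51)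
-/

set_option autoImplicit false

namespace Crest.Agent.N336.C.Boot

open Crest.Agent.N336.Area Crest.Agent.N336.A Filter

/-- The square bound with exponent `a`. -/
def Sq (q R : ℕ) (J Δ a : ℝ) : Prop :=
  ∃ C : ℝ, 0 ≤ C ∧ ∀ (Λ : Type) [Fintype Λ] [DecidableEq Λ] (s : Sys q R J Δ Λ), SqC s a C

/-- The conclusion of `StepStmt` with fixed constants. -/
def St (q R : ℕ) (J Δ η c C : ℝ) : Prop :=
  ∀ (Λ : Type) [Fintype Λ] [DecidableEq Λ] (s : Sys q R J Δ Λ) (n m : ℕ) (ch : Chart s n m)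
    (B : ℝ), 1 ≤ n → (n : ℝ) ^ (1 - c) ≤ m → (n : ℝ) ≤ B → B ≤ (n : ℝ) ^ (2 - η) →
    (∀ k : ℤ, 0 ≤ k → k ≤ m → S s.Ω (ch.P k) ≤ B) →
    MI s.Ω (ch.P 0) (ch.P m)ᶜ ≤ C * (n : ℝ) ^ (-c) * B

variable {q R : ℕ} {J Δ : ℝ}

theorem card_box' {Λ : Type} [Fintype Λ] [DecidableEq Λ] (s : Sys q R J Δ Λ) (U : Finset Λ)
    (x y : ℤ) (L : ℕ) : (U ∩ box s x y L).card ≤ L ^ 2 := by
  have : (U ∩ box s x y L).card ≤ (Finset.Ico x (x + L) ×ˢ Finset.Ico y (y + L)).card := by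
    refine Finset.card_le_card_of_injOn s.pos (fun u hu => ?_) s.inj.injOn
    simp only [Finset.coe_inter, box, Finset.coe_filter, Finset.mem_univ, true_and,
      Set.mem_inter_iff, Set.mem_ofPred_eq] at hu
    simp only [Finset.coe_product, Finset.coe_Ico, Set.mem_prod, Set.mem_Ico]
    omega
  simpa [Finset.card_product, sq] using this

/-- It is enough to prove the square bound for large squares. -/
theorem sq_of_large (hE : EntStmt) {a C : ℝ} (ha : 1 ≤ a) (hC : 0 ≤ C) (L₀ : ℕ)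
    (h : ∀ (Λ : Type) [Fintype Λ] [DecidableEq Λ] (s : Sys q R J Δ Λ) (U : Finset Λ) (x y : ℤ)
      (L : ℕ), L₀ ≤ L → 1 ≤ L →
      (∀ u v, s.G.Adj u v → u ∈ U → u ∈ box s (x - L) (y - L) (3 * L) → v ∈ U) →
      S s.Ω (U ∩ box s x y L) ≤ C * (L : ℝ) ^ a) : Sq q R J Δ a := by
  have hl : 0 ≤ Real.log q := Real.log_natCast_nonneg q
  refine ⟨C + L₀ * Real.log q, by positivity, fun Λ _ _ s U x y L hcl => ?_⟩
  have p : 0 ≤ (L : ℝ) ^ a := by positivity
  by_cases hL : L₀ ≤ L ∧ 1 ≤ L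
  · have := h Λ s U x y L hL.1 hL.2 hcl
    have : 0 ≤ L₀ * Real.log q * (L : ℝ) ^ a := by positivity
    nlinarith
  · have h1 := ((EF.of hE s).bd (U ∩ box s x y L)).2
    have h2 : ((U ∩ box s x y L).card : ℝ) ≤ L ^ 2 := by exact_mod_cast card_box' s U x y L
    have h3 : (L : ℝ) ^ 2 ≤ L₀ * (L : ℝ) ^ a := by
      rcases Nat.eq_zero_or_pos L with rfl | hL1
      · simp only [Nat.cast_zero]
        rw [zero_pow two_ne_zero]; positivity
      · have a1 : (L : ℝ) ≤ L₀ := by exact_mod_cast (by omega : L ≤ L₀)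
        have a2 : (L : ℝ) ≤ (L : ℝ) ^ a := by
          simpa using Real.rpow_le_rpow_of_exponent_le (by exact_mod_cast hL1 : (1 : ℝ) ≤ L) ha
        rw [sq]; gcongr
    nlinarith [mul_le_mul_of_nonneg_right (h2.trans h3) hl, mul_nonneg hC p]

theorem sq_start (hE : EntStmt) (hS : SubStmt) (hq : 1 ≤ q) (hJ : 0 < J) (hΔ : 0 < Δ) :
    ∃ η : ℝ, 0 < η ∧ η ≤ 1 / 2 ∧ Sq q R J Δ (2 - η) := by
  obtain ⟨η, C, h0, h1, hC, H⟩ := hS q R J Δ hq hJ hΔ
  refine ⟨η / 2, by linarith, by linarith, sq_of_large hE (by linarith) hC.le R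
    fun Λ _ _ s U x y L hR hL hcl => (H Λ s U x y L fun u v huv hu hb => hcl u v huv hu ?_).trans
      (mul_le_mul_of_nonneg_left (Real.rpow_le_rpow_of_exponent_le (by exact_mod_cast hL)
        (by linarith)) hC.le)⟩
  simp only [box, Finset.mem_filter, Finset.mem_univ, true_and] at hb ⊢
  omega

/-- One application of the step to a chart, the budget coming from the Whitney cover. -/
theorem mi_bound (hE : EntStmt) {η c C a γ : ℝ} (hη : 0 < η) (hC : 0 ≤ C)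
    (hs : St q R J Δ (η / 4) c C) (hq : Sq q R J Δ a) (ha : 1 < a) (ha2 : a ≤ 2) (hγ : 0 ≤ γ)
    (hγ1 : γ ≤ 1) (he : 2 - (1 - γ) * (2 - a) ≤ 2 - η / 2) :
    ∃ (K : ℝ) (n₀ : ℕ), 0 ≤ K ∧ ∀ (Λ : Type) [Fintype Λ] [DecidableEq Λ] (s : Sys q R J Δ Λ)
      (n M m : ℕ) (ch : Chart s n M), n₀ ≤ n → 1 ≤ n → 3 * m ≤ M → (n : ℝ) ^ (1 - c) ≤ m →
      (n : ℝ) ^ (1 - γ) ≤ 6 * m → m ≤ 2 * (n : ℝ) ^ (1 - γ) →
      MI s.Ω (ch.P 0) (ch.P m)ᶜ ≤ K * (n : ℝ) ^ (2 - (1 - γ) * (2 - a) - c) ∧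
      S s.Ω (ch.P m \ ch.P 0) ≤ K * (n : ℝ) ^ (1 + (1 - γ) * (a - 1)) := by
  obtain ⟨C₀, hC₀, H₀⟩ := hq
  obtain ⟨K, hK, HK⟩ := chart_bound (q := q) (R := R) (J := J) (Δ := Δ) ha ha2 hC₀
  obtain ⟨n₀, hn₀⟩ := eventually_atTop.1
    (ev_rpow_le (a := 2 - η / 2) (b := 2 - η / 4) (K := 8 * K) (by linarith) one_pos)
  refine ⟨(C + 1) * (8 * K), n₀, by positivity, fun Λ _ _ s n M m ch hn hn1 hM h1 h2 h3 => ?_⟩
  set e := 2 - (1 - γ) * (2 - a) with he'
  have n1 : (1 : ℝ) ≤ n := by exact_mod_cast hn1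
  have n0 : (0 : ℝ) < n := by linarith
  have p0 : (0 : ℝ) < (n : ℝ) ^ (1 - γ) := by positivity
  have m0 : (0 : ℝ) < m := by linarith
  have mono : ∀ {u v : ℝ}, u ≤ v → (n : ℝ) ^ u ≤ (n : ℝ) ^ v := fun h =>
    Real.rpow_le_rpow_of_exponent_le n1 h
  have b1 : n * (m : ℝ) ^ (a - 1) ≤ 2 * (n : ℝ) ^ (1 + (1 - γ) * (a - 1)) := by
    have c1 : (m : ℝ) ^ (a - 1) ≤ (2 * (n : ℝ) ^ (1 - γ)) ^ (a - 1) :=
      Real.rpow_le_rpow m0.le h3 (by linarith)
    have c2 : (2 : ℝ) ^ (a - 1) ≤ 2 := by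
      simpa using Real.rpow_le_rpow_of_exponent_le (by norm_num : (1 : ℝ) ≤ 2)
        (by linarith : a - 1 ≤ 1)
    rw [Real.mul_rpow (by norm_num) p0.le, ← Real.rpow_mul n0.le] at c1
    rw [Real.rpow_add n0, Real.rpow_one]
    have c3 : 0 ≤ (n : ℝ) ^ ((1 - γ) * (a - 1)) := by positivity
    nlinarith [mul_le_mul_of_nonneg_left (c1.trans (mul_le_mul_of_nonneg_right c2 c3)) n0.le]
  have b2 : n ^ 2 * (m : ℝ) ^ (a - 2) ≤ 6 * (n : ℝ) ^ e := by
    have c1 : (6 * m : ℝ) ^ (a - 2) ≤ ((n : ℝ) ^ (1 - γ)) ^ (a - 2) :=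
      Real.rpow_le_rpow_of_nonpos p0 h2 (by linarith)
    have c2 : (6 : ℝ) ^ (-1 : ℝ) ≤ 6 ^ (a - 2) :=
      Real.rpow_le_rpow_of_exponent_le (by norm_num) (by linarith)
    rw [Real.rpow_neg_one] at c2
    rw [Real.mul_rpow (by norm_num) m0.le, ← Real.rpow_mul n0.le] at c1
    rw [show e = 2 + (1 - γ) * (a - 2) by rw [he']; ring, Real.rpow_add n0, Real.rpow_two]
    have c3 : 0 ≤ (m : ℝ) ^ (a - 2) := by positivity
    have c4 := (mul_le_mul_of_nonneg_right c2 c3).trans c1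
    nlinarith [mul_le_mul_of_nonneg_left c4 (by positivity : (0 : ℝ) ≤ n ^ 2)]
  have e1 : 1 + (1 - γ) * (a - 1) ≤ e := by rw [he']; nlinarith
  have b3 := mono e1
  have b4 : (n : ℝ) ≤ (n : ℝ) ^ e := by
    simpa using mono (show 1 ≤ e by nlinarith)
  have hb := HK Λ s (EF.of hE s) (H₀ Λ s) n M m ch (by exact_mod_cast m0) hM
  have hP : ∀ k, (ch.shift 0 m (by omega)).P k = ch.P k := fun k => by
    rw [Chart.shift_P]; simp
  have := hs Λ s n m (ch.shift 0 m (by omega)) (8 * K * (n : ℝ) ^ e) hn1 h1 (by nlinarith)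
    (by
      have := hn₀ n hn
      nlinarith [mono he]) fun k k0 k1 => by
      rw [hP]
      nlinarith [(hb k k0 k1).2]
  rw [hP, hP] at this
  have p1 : 0 ≤ K * (n : ℝ) ^ (e - c) := by positivity
  have p2 : 0 ≤ K * (n : ℝ) ^ (1 + (1 - γ) * (a - 1)) := by positivity
  constructor
  · rw [show C * (n : ℝ) ^ (-c) * (8 * K * (n : ℝ) ^ e) = C * (8 * K) * (n : ℝ) ^ (e - c) by
      rw [sub_eq_add_neg, Real.rpow_add n0]; ring] at this
    nlinarith
  · nlinarith [(hb 0 le_rfl (by positivity)).1, mul_nonneg hC p2]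

/-- The chart of a square. -/
noncomputable def sqChart {Λ : Type} [Fintype Λ] [DecidableEq Λ] (s : Sys q R J Δ Λ) (U : Finset Λ) (x y : ℤ)
    (L : ℕ) (hL : 1 ≤ L)
    (hcl : ∀ u v, s.G.Adj u v → u ∈ U → u ∈ box s (x - L) (y - L) (3 * L) → v ∈ U) :
    Chart s (12 * L) L where
  U := U
  ψ z := sd L (0, 0) (z.1 - x, z.2 - y)
  lip z w h1 h2 := by rw [abs_le] at h1 h2; unfold sd; simp only; omega
  lev k h0 hk T hT := by
    have h1 := card_ring L (0, 0) k (by omega) h0 hk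
    have h2 : T.card ≤ ((tileBox L (0, 0) k).filter fun z => sd L (0, 0) z = k).card :=
      Finset.card_le_card_of_injOn (fun z => (z.1 - x, z.2 - y))
        (fun z hz => Finset.mem_coe.2 (Finset.mem_filter.2
          ⟨(mem_tileBox _ _ _ _).2 (hT z hz).le, hT z hz⟩))
        fun z _ w _ h => by
          simp only [Prod.mk.injEq] at h
          exact Prod.ext (by omega) (by omega)
    omega
  tot T hT := by
    have h1 := card_tileBox L (0, 0) L (by omega)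
    have h2 : T.card ≤ (tileBox L (0, 0) L).card :=
      Finset.card_le_card_of_injOn (fun z => (z.1 - x, z.2 - y))
        (fun z hz => Finset.mem_coe.2 ((mem_tileBox _ _ _ _).2 (hT z hz)))
        fun z _ w _ h => by
          simp only [Prod.mk.injEq] at h
          exact Prod.ext (by omega) (by omega)
    have h3 : (T.card : ℤ) ≤ (12 * L) ^ 2 := by nlinarith
    exact_mod_cast h3
  closed u v huv hu hv := by
    by_contra h
    refine hv (hcl u v huv hu ?_)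
    simp only [box, Finset.mem_filter, Finset.mem_univ, true_and]
    unfold sd at h
    simp only at h
    omega

theorem ceil_spec {x : ℝ} (hx : 1 ≤ x) : x ≤ (⌈x⌉₊ : ℝ) ∧ (⌈x⌉₊ : ℝ) ≤ 2 * x :=
  ⟨Nat.le_ceil x, by linarith [Nat.ceil_lt_add_one (by linarith : 0 ≤ x)]⟩

theorem sq_step (hE : EntStmt) {η c C a : ℝ} (hη : 0 < η) (hC : 0 ≤ C) (hc : 0 < c)
    (hc2 : c ≤ 1 / 2) (hs : St q R J Δ (η / 4) c C) (hq : Sq q R J Δ a) (ha : 1 < a)
    (ha2 : a ≤ 2 - η) : Sq q R J Δ (1 + (1 - c) * (a - 1)) := by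
  obtain ⟨K, n₀, hK, H⟩ := mi_bound hE hη hC hs hq ha (by linarith) hc.le (by linarith)
    (by nlinarith)
  obtain ⟨n₁, hn₁⟩ := eventually_atTop.1
    (ev_rpow_le (a := 1 - c) (b := 1) (K := 72) (by linarith) one_pos)
  set a' := 1 + (1 - c) * (a - 1) with ha'
  have a1 : 1 ≤ a' := by nlinarith
  refine sq_of_large hE (C := 2 * K * 12 ^ a') a1 (by positivity) (n₀ + n₁)
    fun Λ _ _ s U x y L hL hL1 hcl => ?_
  have n1 : (1 : ℝ) ≤ ((12 * L : ℕ) : ℝ) := by exact_mod_cast (by omega : 1 ≤ 12 * L)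
  obtain ⟨c1, c2⟩ := ceil_spec (Real.one_le_rpow n1 (by linarith : 0 ≤ 1 - c))
  have c3 := hn₁ (12 * L) (by omega)
  rw [Real.rpow_one, one_mul] at c3
  set m := ⌈((12 * L : ℕ) : ℝ) ^ (1 - c)⌉₊
  have c4 : 3 * m ≤ L := by
    have : (3 * m : ℝ) ≤ L := by push_cast at c2 c3; linarith
    exact_mod_cast this
  obtain ⟨h1, h2⟩ := H Λ s (12 * L) L m (sqChart s U x y L hL1 hcl) (by omega) (by omega) c4 c1
    (by linarith [(Nat.cast_nonneg m : (0 : ℝ) ≤ m)]) c2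
  have hS := EF.of hE s
  have hsub := (sqChart s U x y L hL1 hcl).P_mono (by positivity : (0 : ℤ) ≤ m)
  rw [hS.mi_eq hsub, show 2 - (1 - c) * (2 - a) - c = a' by rw [ha']; ring] at h1
  have h3 := hS.sub hsub
  have e : (sqChart s U x y L hL1 hcl).P 0 = U ∩ box s x y L := by
    ext u
    simp only [Chart.mem_P, sqChart, sd, box, Finset.mem_inter, Finset.mem_filter,
      Finset.mem_univ, true_and]
    exact and_congr_right fun _ => by omega
  rw [← e]
  push_cast at h1 h2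
  rw [Real.mul_rpow (by norm_num) (by positivity)] at h1 h2
  have : 0 ≤ K * (12 ^ a' * (L : ℝ) ^ a') := by positivity
  nlinarith

end Crest.Agent.N336.C.Boot

namespace Crest.Agent.N336.C

open Boot Filter Crest.Agent.N336.Area

/-- The bootstrap. -/
theorem boot (hE : EntStmt) (hS : A.SubStmt) (hT : StepStmt) : CoreStmt := by
  intro q R J Δ hq hJ hΔ
  obtain ⟨η, hη, hη2, h0⟩ := sq_start (R := R) hE hS hq hJ hΔ
  obtain ⟨c, C, hc, hc2, hC, hs⟩ := hT q R J Δ (η / 4) hq hJ hΔ (by linarith) (by linarith)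
  have it : ∀ j : ℕ, Sq q R J Δ (1 + (1 - c) ^ j * (1 - η)) := by
    intro j
    induction j with
    | zero => convert h0 using 1; ring
    | succ j ih =>
      have p1 : 0 < (1 - c) ^ j := pow_pos (by linarith) j
      have p2 : (1 - c) ^ j ≤ 1 := pow_le_one₀ (by linarith) (by linarith)
      convert sq_step hE hη hC.le hc hc2 hs ih (by nlinarith) (by nlinarith) using 1
      ring
  obtain ⟨j, hj⟩ := exists_pow_lt_of_lt_one (by linarith : 0 < c / 8) (by linarith : 1 - c < 1)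
  have p1 : 0 < (1 - c) ^ j := pow_pos (by linarith) j
  set a := 1 + (1 - c) ^ j * (1 - η) with ha
  have a1 : 1 < a := by nlinarith
  have a2 : a ≤ 1 + c / 8 := by nlinarith
  obtain ⟨K, n₀, hK, H⟩ := mi_bound (γ := c / 8) hE hη hC.le hs (it j) a1 (by linarith)
    (by linarith) (by linarith) (by nlinarith)
  obtain ⟨n₁, hn₁⟩ := eventually_atTop.1
    ((ev_rpow_le (a := 1 - c) (b := 1 - c / 8) (K := 6) (by linarith) one_pos).and
      (ev_rpow_le (a := 0) (b := 1 - c / 8) (K := 6) (by linarith) one_pos))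
  have hl : 0 ≤ Real.log q := Real.log_natCast_nonneg q
  refine ⟨c / 8, K + 2 * ((n₀ + n₁ : ℕ) : ℝ) ^ 2 * Real.log q + 1, by linarith, by linarith,
    by positivity, fun Λ _ _ s n M ch hn hM => ?_⟩
  have hS := EF.of hE s
  have n1 : (1 : ℝ) ≤ n := by exact_mod_cast hn
  have p2 : 1 ≤ (n : ℝ) ^ (1 - 2 * (c / 8)) := Real.one_le_rpow n1 (by linarith)
  have p3 : 0 ≤ 2 * ((n₀ + n₁ : ℕ) : ℝ) ^ 2 * Real.log q := by positivity
  by_cases hlarge : n₀ + n₁ ≤ n
  · obtain ⟨b1, b2⟩ := hn₁ n (by omega)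
    rw [Real.rpow_zero] at b2
    set x := (n : ℝ) ^ (1 - c / 8)
    have c1 := Nat.floor_le (by linarith : 0 ≤ x / 3)
    have c2 := Nat.lt_floor_add_one (x / 3)
    set m := ⌊x / 3⌋₊
    have c4 : 3 * m ≤ M := by
      have : (3 * m : ℝ) ≤ M := by linarith
      exact_mod_cast this
    have h1 := (H Λ s n M m ch (by omega) hn c4 (by linarith) (by linarith) (by linarith)).1
    have h2 : MI s.Ω (ch.P 0) (ch.P M)ᶜ ≤ MI s.Ω (ch.P 0) (ch.P m)ᶜ :=
      MI_mono_right hS.sm (Finset.compl_subset_compl.2 (ch.P_mono (by omega)))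
        (Finset.disjoint_left.2 fun u hu hu' =>
          Finset.mem_compl.1 hu' (ch.P_mono (by positivity) hu))
    have h3 : (n : ℝ) ^ (2 - (1 - c / 8) * (2 - a) - c) ≤ (n : ℝ) ^ (1 - 2 * (c / 8)) :=
      Real.rpow_le_rpow_of_exponent_le n1 (by nlinarith)
    nlinarith [mul_le_mul_of_nonneg_left h3 hK]
  · have hsub := ch.P_mono (by positivity : (0 : ℤ) ≤ M)
    have h1 := hS.union (ch.P 0) (ch.P M \ ch.P 0)
    rw [Finset.union_sdiff_of_subset hsub] at h1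
    have h2 := (hS.bd (ch.P 0)).2
    have h3 : ((ch.P 0).card : ℝ) ≤ ((n₀ + n₁ : ℕ) : ℝ) ^ 2 := by
      exact_mod_cast (ch.card_P (by positivity)).trans (Nat.pow_le_pow_left (by omega) 2)
    rw [hS.mi_eq hsub]
    nlinarith [mul_le_mul_of_nonneg_right h3 hl]

end Crest.Agent.N336.C
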