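import Crest.Agent.N336.C.Inst2_Mg

/-!
# Row 336, CORE: the step from the ancilla-free rigidity theorem (helper17)
-/

set_option autoImplicit false
set_option linter.unusedSectionVars false

open Matrix Finset Filter
open scoped ComplexOrder MatrixOrder Matrix.Norms.L2Operator InnerProductSpace

namespace Crest.Agent.N336.C

open Crest.Agent.N336.Q Crest.Agent.N336.Eng Crest.Agent.N336.A

/-- the size of `u = ⌊n^c⌋` -/
lemma ev_floor {c c₀ D : ℝ} (hc : 0 < c) (hc₀ : 0 < c₀) : ∀ᶠ n : ℕ in atTop,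
    D ≤ (⌊(n : ℝ) ^ c⌋₊ : ℝ) ∧ (n : ℝ) ^ c ≤ 2 * ⌊(n : ℝ) ^ c⌋₊ ∧
      (n : ℝ) ^ 6 ≤ Real.exp (c₀ * ⌊(n : ℝ) ^ c⌋₊) := by
  have h1 : Tendsto (fun n : ℕ => (n : ℝ) ^ c) atTop atTop :=
    (tendsto_rpow_atTop hc).comp tendsto_natCast_atTop_atTop
  filter_upwards [h1.eventually_ge_atTop (D + 1), h1.eventually_ge_atTop 2,
    ev_rpow_le (K := 12 / c) (half_lt_self hc) (half_pos hc₀), eventually_ge_atTop 1]
    with n h2 h3 h4 h5
  have hn : (0 : ℝ) < n := by exact_mod_cast h5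
  have h6 := Nat.lt_floor_add_one ((n : ℝ) ^ c)
  have h7 : (n : ℝ) ^ c ≤ 2 * ⌊(n : ℝ) ^ c⌋₊ := by linarith
  refine ⟨by linarith, h7, ?_⟩
  have h8 := Real.log_le_rpow_div hn.le (half_pos hc)
  rw [← Real.exp_log (pow_pos hn 6), Real.log_pow]
  refine Real.exp_le_exp.2 ?_
  have e : (n : ℝ) ^ (c / 2) / (c / 2) * 6 = 12 / c * (n : ℝ) ^ (c / 2) := by field_simp; ring
  push_cast
  nlinarith

lemma exp_neg_le {x y c₀ c u : ℝ} (hx : 1 ≤ x) (h : x ^ 6 ≤ Real.exp (c₀ * u)) (hc : c₀ ≤ c)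
    (hu : u ≤ y) (hc₀ : 0 ≤ c₀) (hu0 : 0 ≤ u) : Real.exp (-(c * y)) ≤ (x ^ 6)⁻¹ := by
  rw [Real.exp_neg]
  refine inv_anti₀ (by positivity) (h.trans (Real.exp_le_exp.2 ?_))
  exact mul_le_mul hc hu hu0 (hc₀.trans hc)

variable {q R : ℕ} {J Δ : ℝ} {Λ : Type} [Fintype Λ] [DecidableEq Λ] {s : Sys q R J Δ Λ} {n m : ℕ}

/-- the sublevel sets have small rank -/
lemma low_P [NeZero q] {cP CP c₀ B : ℝ} {u : ℕ}
    (hP : ∀ (m nb : ℕ) (A : Fin m → Finset Λ) (s₀ t : ℝ), 1 ≤ m → m ≤ nb → 0 ≤ s₀ → 1 ≤ t →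
      (∀ i j, i ≤ j → A j ⊆ A i) →
      (∀ X : Finset Λ, s.h X ≠ 0 → ∀ i j, i < j → (∃ x ∈ X, x ∈ A j) → X ⊆ A i) →
      (∀ j, s.cross (A j) ≤ nb) → (∀ j, S s.Ω (A j) ≤ s₀) →
      ∃ (B : ℕ) (j : Fin B → Fin m) (a : ∀ α, (↥(A (j α)) → Fin q) → ℂ),
        (B : ℝ) ≤ m * Real.exp (CP * (s₀ + t)) ∧
        (∀ α, ∑ σ, ‖a α σ‖ ^ 2 = 1) ∧
        (∀ α β, α ≠ β → rk1 (A (j α)) (a α) (a α) * rk1 (A (j β)) (a β) (a β) = 0) ∧
        ‖act (∑ α, rk1 (A (j α)) (a α) (a α)) s.Ω - s.Ω‖ ≤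
          Real.exp (-(cP * t * Real.sqrt ((m : ℝ) / nb))))
    (ch : Chart s n m) (hCP : 0 < CP) (hc₀ : 0 < c₀) (hc : c₀ ≤ cP) (hn : 1 ≤ n)
    (hB : (n : ℝ) ≤ B) (hexp : (n : ℝ) ^ 6 ≤ Real.exp (c₀ * u))
    (hu : u ^ 2 * (R * 2 ^ ((2 * R + 1) ^ 2) + 1) ≤ n) {k : ℤ} (h0 : 0 ≤ k) (hk : k + R ≤ m)
    (hS : S s.Ω (ch.P k) ≤ B) :
    Low (d := fun _ => Fin q) s.Ω (ch.P k) ((2 * CP + 1) * B) ((n : ℝ) ^ 3)⁻¹ := by
  have hn' : (1 : ℝ) ≤ n := by exact_mod_cast hn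
  obtain ⟨N, j, a, h1, h2, h3, h4⟩ := hP 1 ((R * 2 ^ ((2 * R + 1) ^ 2) + 1) * n)
    (fun _ => ch.P k) B n le_rfl (Nat.mul_pos (Nat.succ_pos _) hn) (by linarith) hn'
    (fun _ _ _ => Subset.rfl) (fun _ _ i j h => absurd h (by omega))
    (fun _ => (cross_le ch h0 hk).trans (by gcongr; omega)) fun _ => hS
  refine low_of_patch a h2 h3 (h1.trans ?_) (h4.trans ?_)
  · rw [Nat.cast_one, one_mul]
    exact Real.exp_le_exp.2 (by nlinarith)
  · rw [mul_assoc]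
    refine (exp_neg_le hn' hexp hc ?_ hc₀.le (Nat.cast_nonneg _)).trans
      (inv_anti₀ (by positivity) (pow_le_pow_right₀ hn' (by norm_num)))
    have hL : 0 < R * 2 ^ ((2 * R + 1) ^ 2) + 1 := Nat.succ_pos _
    generalize R * 2 ^ ((2 * R + 1) ^ 2) + 1 = L at hu hL ⊢
    have hu' : (u : ℝ) ^ 2 * L ≤ n := by exact_mod_cast hu
    have hL' : (0 : ℝ) < L := by exact_mod_cast hL
    rw [← div_le_iff₀' (by positivity)]
    refine Real.le_sqrt_of_sq_le ?_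
    push_cast
    rw [div_pow, div_le_div_iff₀ (by positivity) (by positivity)]
    nlinarith

/-- the widths -/
lemma widths {u K n m : ℕ} (hu : 1000 ≤ u) (hK : 1 ≤ K) (hG : u ^ 9 * K ≤ n)
    (hm : n ≤ 2 * u * m) : ∃ T, 1 ≤ T ∧ n ≤ u ^ 9 * K * T ∧
      2 * u + K * (2 * u * (2 * u ^ 6 * T) + 2 * (2 * u)) ≤ m := by
  have h7 : u ≤ u ^ 7 := Nat.le_self_pow (by norm_num) u
  have hD : 0 < 10 * u ^ 7 * K := by positivity
  have h1 : 10 * u ^ 7 * K ≤ m := by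
    refine Nat.le_of_mul_le_mul_left (c := 2 * u) (le_trans ?_ (hG.trans hm)) (by omega)
    calc _ = 20 * (u ^ 8 * K) := by ring
      _ ≤ u * (u ^ 8 * K) := by gcongr; omega
      _ = _ := by ring
  have hT := Nat.div_pos h1 hD
  have h2 := Nat.div_mul_le_self m (10 * u ^ 7 * K)
  have h3 := Nat.lt_mul_div_succ m hD
  refine ⟨m / (10 * u ^ 7 * K), hT, ?_, le_trans ?_ h2⟩
  all_goals generalize m / (10 * u ^ 7 * K) = T at *
  · calc n ≤ 2 * u * (10 * u ^ 7 * K * (T + T)) := hm.trans (by gcongr; exact h3.le.trans (by gcongr; exact hT))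
      _ = 40 * (u ^ 8 * K * T) := by ring
      _ ≤ u * (u ^ 8 * K * T) := by gcongr; omega
      _ = _ := by ring
  · have h4 : u * K ≤ u ^ 7 * K * T := (Nat.mul_le_mul_right K h7).trans (Nat.le_mul_of_pos_right _ hT)
    have h5 : u ≤ u * K := Nat.le_mul_of_pos_right _ hK
    nlinarith

/-- the final bookkeeping -/
lemma final_le {K u B I D C C₃ s Δ e : ℝ} (hK : 0 < K) (hu : 1 ≤ u) (hB : u ≤ B) (hC : 0 ≤ C)
    (hC₃ : 0 ≤ C₃) (hΔ : 0 < Δ) (hs : 0 < s) (hsK : s * K = u) (hD : D ≤ K * (2 * B) / u)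
    (he : e ≤ 4 / u ^ 3)
    (h : K * I ≤ D + C * K * (u⁻¹ * (C₃ * B) + 1) + C * (C₃ * B) / s +
      C * K * (C₃ * B) / (Δ / 2 * u⁻¹) * e) :
    I ≤ (2 + 2 * C * C₃ + C + 8 * C * C₃ / Δ) * (B / u) := by
  have hu0 : 0 < u := by linarith
  have hB0 : 0 < B := by linarith
  refine le_of_mul_le_mul_left (h.trans ?_) hK
  have h1 : C * K * (u⁻¹ * (C₃ * B) + 1) ≤ C * K * (u⁻¹ * (C₃ * B) + B / u) := by
    gcongr; exact (one_le_div hu0).2 hB
  have h2 : C * (C₃ * B) / s = K * (C * C₃ * (B / u)) := by rw [← hsK]; field_simp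
  have h3 : C * K * (C₃ * B) / (Δ / 2 * u⁻¹) * e ≤ C * K * (C₃ * B) / (Δ / 2 * u⁻¹) * (4 / u ^ 2) := by
    gcongr
    exact he.trans (by gcongr; norm_num)
  refine (add_le_add (add_le_add (add_le_add hD h1) h2.le) h3).trans_eq ?_
  field_simp
  ring

set_option maxHeartbeats 1600000 in
theorem step (hA : AncStmt) (hF : FFStmt) (hP : PatchStmt) (hE : EntStmt) : StepStmt := by
  intro q R J Δ η hq hJ hΔ hη hη1
  have : NeZero q := ⟨by omega⟩
  obtain ⟨a, C, ha, hC, hA⟩ := hA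
  obtain ⟨cF, CF, hcF, hCF, hF⟩ := hF q R J Δ hq hJ hΔ
  obtain ⟨cP, CP, hcP, hCP, hP⟩ := hP q R J Δ hq hJ hΔ
  obtain ⟨p, hp⟩ : ∃ p, p = 6 * a + 24 := ⟨_, rfl⟩
  obtain ⟨G, hG⟩ : ∃ G, G = 6 * a + p * a + p * a * a + 25 := ⟨_, rfl⟩
  have hG2 : (2 : ℝ) ≤ G := by exact_mod_cast (by omega : 2 ≤ G)
  have hc : 0 < η / G := by positivity
  have hq1 : 0 ≤ Real.log q := Real.log_natCast_nonneg q
  have hc₀ : 0 < min (min cF cP) 1 := by positivity
  obtain ⟨n₀, hn₀⟩ := eventually_atTop.1 (ev_floor (D := 1000 + 32 * C * C * (CF + 1) * (2 * CP + 1)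
    + (R * 2 ^ ((2 * R + 1) ^ 2) + 1 : ℕ) + R + 9 * Real.log q + 2 * CF + C + (2 * CP + 1)) hc hc₀)
  have hC₁ : 0 < 2 + 2 * C * (2 * CP + 1) + C + 8 * C * (2 * CP + 1) / Δ := by positivity
  refine ⟨η / G, 2 * (2 + 2 * C * (2 * CP + 1) + C + 8 * C * (2 * CP + 1) / Δ) +
    2 * (n₀ : ℝ) ^ (η / G), hc, ?_, by positivity, ?_⟩
  · rw [div_le_iff₀ (by positivity)]; linarith
  intro Λ _ _ s n m ch B hn hm hB1 hB2 hS
  have hn' : (1 : ℝ) ≤ n := by exact_mod_cast hn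
  have hn0 : (0 : ℝ) < n := by linarith
  have hB0 : 0 ≤ B := by linarith
  have hΩ : ‖s.Ω‖ = 1 := s.gap.1
  have hnc : 0 < (n : ℝ) ^ (η / G) := by positivity
  rw [Real.rpow_neg hn0.le]
  rcases lt_or_ge n n₀ with hsm | hbig
  · have h1 := MI_le_two hE hΩ (ch.P_mono (Int.natCast_nonneg m))
    have h2 := hS 0 le_rfl (Int.natCast_nonneg m)
    have h3 : (n : ℝ) ^ (η / G) ≤ (n₀ : ℝ) ^ (η / G) := by gcongr
    have h4 : 1 ≤ (n₀ : ℝ) ^ (η / G) * ((n : ℝ) ^ (η / G))⁻¹ := by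
      rw [← div_eq_mul_inv]; exact (one_le_div hnc).2 h3
    calc _ ≤ 2 * 1 * B := by linarith
      _ ≤ 2 * ((n₀ : ℝ) ^ (η / G) * ((n : ℝ) ^ (η / G))⁻¹) * B := by gcongr
      _ = (2 * (n₀ : ℝ) ^ (η / G)) * ((n : ℝ) ^ (η / G))⁻¹ * B := by ring
      _ ≤ _ := by gcongr; linarith
  obtain ⟨hD, hu2, hexp⟩ := hn₀ n hbig
  have hu1 := Nat.floor_le hnc.le
  generalize ⌊(n : ℝ) ^ (η / G)⌋₊ = u at hD hu2 hexp hu1
  suffices h : MI s.Ω (ch.P 0) (ch.P m)ᶜ ≤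
      (2 + 2 * C * (2 * CP + 1) + C + 8 * C * (2 * CP + 1) / Δ) * (B / u) by
    have hu0 : (0 : ℝ) < u := by linarith
    have h1 : B / u ≤ 2 * ((n : ℝ) ^ (η / G))⁻¹ * B := by
      rw [div_le_iff₀ hu0]
      calc B = (n : ℝ) ^ (η / G) * ((n : ℝ) ^ (η / G))⁻¹ * B := by field_simp
        _ ≤ 2 * u * ((n : ℝ) ^ (η / G))⁻¹ * B := by gcongr
        _ = _ := by ring
    generalize 2 + 2 * C * (2 * CP + 1) + C + 8 * C * (2 * CP + 1) / Δ = C₁ at *
    calc _ ≤ C₁ * (2 * ((n : ℝ) ^ (η / G))⁻¹ * B) := h.trans (by gcongr)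
      _ = 2 * C₁ * ((n : ℝ) ^ (η / G))⁻¹ * B := by ring
      _ ≤ _ := by gcongr; exact le_add_of_nonneg_right (by positivity)
  -- numerical facts
  have hGη : ((u : ℝ)) ^ G ≤ (n : ℝ) ^ η := by
    calc _ ≤ ((n : ℝ) ^ (η / G)) ^ G := by gcongr
      _ = _ := by rw [← Real.rpow_mul_natCast hn0.le]; congr 1; field_simp
  have hun : u ^ G ≤ n := by
    have : (n : ℝ) ^ η ≤ (n : ℝ) ^ (1 : ℝ) := by gcongr
    rw [Real.rpow_one] at this
    exact_mod_cast hGη.trans this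
  have hBG : B * (u : ℝ) ^ G ≤ (n : ℝ) ^ 2 := by
    calc _ ≤ (n : ℝ) ^ (2 - η) * (n : ℝ) ^ η := by gcongr
      _ = _ := by rw [← Real.rpow_add hn0]; simp
  have hnm : n ≤ 2 * u * m := by
    have : (n : ℝ) ≤ 2 * u * m := by
      calc (n : ℝ) = (n : ℝ) ^ (η / G) * (n : ℝ) ^ (1 - η / G) := by
            rw [← Real.rpow_add hn0]; simp
        _ ≤ _ := by gcongr
    exact_mod_cast this
  clear hu1 hu2 hm hB2 hGη hn₀ hbig hnc
  have p1 : 0 ≤ 32 * C * C * (CF + 1) * (2 * CP + 1) := by positivity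
  have p2 : (0 : ℝ) ≤ (R * 2 ^ ((2 * R + 1) ^ 2) + 1 : ℕ) := by positivity
  have p3 : (0 : ℝ) ≤ R := by positivity
  have hu : 1000 ≤ u := by exact_mod_cast (by linarith : (1000 : ℝ) ≤ u)
  have hux : (1000 : ℝ) ≤ u := by exact_mod_cast hu
  have hR : R ≤ u := by exact_mod_cast (by linarith : (R : ℝ) ≤ u)
  have hL : R * 2 ^ ((2 * R + 1) ^ 2) + 1 ≤ u := by
    exact_mod_cast (by linarith : ((R * 2 ^ ((2 * R + 1) ^ 2) + 1 : ℕ) : ℝ) ≤ u)
  have hupow : ∀ k ≤ G, u ^ k ≤ n := fun k hk => (Nat.pow_le_pow_right (by omega) hk).trans hun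
  have hun1 : (u : ℝ) ≤ n := by exact_mod_cast (pow_one u).symm.trans_le (hupow 1 (by omega))
  have hB2 : B ≤ (n : ℝ) ^ 2 :=
    (le_mul_of_one_le_right hB0 (one_le_pow₀ (by linarith))).trans hBG
  obtain ⟨K, hK⟩ : ∃ K, K = u ^ (p * a * a + 1) := ⟨_, rfl⟩
  have hK1 : 1 ≤ K := hK ▸ Nat.one_le_pow _ _ (by omega)
  obtain ⟨T, hT, hnT, hW⟩ := widths hu hK1
    (by rw [hK, ← pow_add]; exact hupow _ (by omega)) hnm
  obtain ⟨w, hw⟩ : ∃ w, w = 2 * u ^ 6 * T := ⟨_, rfl⟩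
  rw [← hw] at hW
  obtain ⟨W, hWd⟩ : ∃ W, W = 2 * u * w + 2 * (2 * u) := ⟨_, rfl⟩
  rw [← hWd] at hW
  have hgW : ∀ g : Fin K, (2 * u + (g * W + W) : ℤ) ≤ m := fun g => by
    have : (g + 1) * W ≤ K * W := Nat.mul_le_mul_right _ g.2
    have : 2 * u + (g * W + W) ≤ m := by nlinarith
    exact_mod_cast this
  have hWz : (W : ℤ) = 2 * (u * w) + 4 * u := by rw [hWd]; push_cast; ring
  have hg0 : ∀ g : Fin K, (0 : ℤ) ≤ g * W := fun g => by positivity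
  have huw : (0 : ℤ) ≤ u * w := by positivity
  -- the pigeonhole
  obtain ⟨j, hj, hI⟩ := exists_step_le (u := u) (M := K * (2 * B))
    (f := fun j => ∑ g : Fin K, MI s.Ω (ch.P (2 * u + g * W + j * w)) (ch.P (g * W + W - j * w))ᶜ)
    (by omega) (sum_nonneg fun g _ => MI_nonneg' hE hΩ _ _) (by
      refine (sum_le_card_nsmul _ _ (2 * B) fun g _ => ?_).trans_eq (by simp)
      have := hgW g; have := hg0 g
      refine (MI_le_two hE hΩ (ch.P_mono (by omega))).trans ?_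
      linarith [hS (2 * u + g * W + u * w) (by positivity) (by omega)])
  have hjw : (j * w + w : ℤ) ≤ u * w := by
    have : j * w + w ≤ u * w := by nlinarith
    exact_mod_cast this
  have hj0 : (0 : ℤ) ≤ j * w := by positivity
  have hw0 : (0 : ℤ) ≤ w := by positivity
  -- the positive terms
  have hexp' : (n : ℝ) ^ 6 ≤ Real.exp u := hexp.trans (Real.exp_le_exp.2
    (mul_le_of_le_one_left (by positivity) (min_le_right _ _)))
  have hN : (ch.P (m - u)).card ≤ n ^ 2 := ch.card_P (by omega)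
  have hε1 : ((n : ℝ) ^ 3)⁻¹ ≤ 1 / 10 := by
    rw [one_div]
    exact inv_anti₀ (by norm_num) (le_trans (by linarith) (le_self_pow₀ hn' (by norm_num)))
  obtain ⟨g, gf, Ω', E', hg, hgf1, hgf2, hgap, hE0, hE1, hΩ'⟩ := hF Λ s (ch.P (m - u)) u
    ((n : ℝ) ^ 3)⁻¹ (by
      have h1 := exp_neg_le hn' hexp ((min_le_left _ _).trans (min_le_left _ _)) le_rfl hc₀.le
        (Nat.cast_nonneg _)
      have h2 : ((ch.P (m - u)).card : ℝ) ≤ (n : ℝ) ^ 2 := by exact_mod_cast hN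
      calc _ ≤ CF * (2 * (n : ℝ) ^ 2) * ((n : ℝ) ^ 6)⁻¹ := by
            gcongr; linarith [one_le_pow₀ (n := 2) hn']
        _ = 2 * CF * ((n : ℝ) ^ 4)⁻¹ := by field_simp
        _ ≤ n * ((n : ℝ) ^ 4)⁻¹ := by gcongr; linarith
        _ = _ := by field_simp) (by linarith)
  have hlow : ∀ k : ℤ, 0 ≤ k → k + u ≤ m →
      Low (d := fun _ => Fin q) s.Ω (ch.P k) ((2 * CP + 1) * B) ((n : ℝ) ^ 3)⁻¹ := fun k h0 hk =>
    low_P (hP Λ s) ch hCP hc₀ ((min_le_left _ _).trans (min_le_right _ _)) hn hB1 hexp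
      (le_trans (Nat.mul_le_mul_left _ hL) ((pow_succ u 2).symm.trans_le (hupow 3 (by omega))))
      h0 (by omega) (hS k h0 (by omega))
  obtain ⟨τ, hτ⟩ : ∃ τ : ℝ, τ = ((u : ℝ) ^ p)⁻¹ := ⟨_, rfl⟩
  have hτ0 : 0 < τ := by rw [hτ]; positivity
  have hsK : (τ ^ a) ^ a * K = u := by
    rw [hτ, hK, inv_pow, inv_pow, ← pow_mul, ← pow_mul, pow_succ, ← mul_assoc p]
    push_cast; field_simp
  let Sc := scn ch u K w (fun g => 2 * u + g * W + j * w) (fun g => g * W + W - j * w) (by omega)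
    (fun g => by push_cast; omega)
    (fun g g' h => by
      have : ((g : ℕ) + 1) * W ≤ g' * W := Nat.mul_le_mul_right _ h
      have : (g * W + W : ℤ) ≤ g' * W := by
        have : g * W + W ≤ g' * W := by nlinarith
        exact_mod_cast this
      push_cast; omega)
    (fun g => by have := hg0 g; push_cast; omega)
    (fun g => by have := hgW g; push_cast; omega)
  have i1 : ∀ g, (Sc.ini g).1 = ch.P (2 * u + g * W + j * w) := fun g =>
    scn_sl ch (k := 2 * u + g * W + j * w) (by have := hgW g; omega)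
  have i2 : ∀ g, (Sc.ini g).2 = ch.P (g * W + W - j * w) := fun g =>
    scn_sl ch (k := g * W + W - j * w) (by have := hgW g; omega)
  have f1 : ∀ g, (Sc.fin g).1 = ch.P (2 * u + g * W + j * w + w) := fun g =>
    scn_sl ch (k := 2 * u + g * W + j * w + w) (by have := hgW g; omega)
  have f2 : ∀ g, (Sc.fin g).2 = ch.P (g * W + W - j * w - w) := fun g =>
    scn_sl ch (k := g * W + W - j * w - w) (by have := hgW g; omega)
  have key := hA Λ (fun _ => Fin q) (Option (ch.P (m - u))) K w (2 * u) (9 * u ^ 2) (9 * u ^ 2)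
    (2 * u * n) (n ^ 2) T Sc (fun o => o.elim gf fun v => g v) (CF + 1) ((u : ℝ) ^ 3)
    ((τ ^ a) ^ a) (τ ^ a) τ E' (Δ / 2) ((n : ℝ) ^ 3)⁻¹ ((2 * CP + 1) * B) (u : ℝ)⁻¹ s.Ω Ω' (ch.P 0)
    (fun v => by
      obtain _ | v := v
      · exact ⟨hgf1, hgf2⟩
      · exact ⟨(hg v).1, (hg v).2.1⟩)
    (fun v hv => by
      obtain _ | v := v
      · exact absurd hv (notMem_erase _ _)
      refine ⟨(hg v).2.2.trans (by linarith), (log_dim_eq _).trans_le ?_⟩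
      have : ((Sc.Z (some v)).card : ℝ) ≤ (9 * u ^ 2 : ℕ) := by exact_mod_cast Sc.size _ hv
      calc _ ≤ ((9 * u ^ 2 : ℕ) : ℝ) * Real.log q := by gcongr
        _ = (u : ℝ) ^ 2 * (9 * Real.log q) := by push_cast; ring
        _ ≤ (u : ℝ) ^ 2 * u := by gcongr; linarith
        _ = _ := by ring)
    (by linarith) (one_le_pow₀ (by linarith)) (by positivity)
    (by
      rw [hτ, inv_pow, inv_pow, ← pow_mul, ← pow_mul, ← pow_mul, ← div_eq_mul_inv,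
        div_le_one (by positivity)]
      calc _ ≤ (u : ℝ) * u ^ (3 * a) := by gcongr; linarith
        _ = u ^ (3 * a + 1) := by ring
        _ ≤ _ := pow_le_pow_right₀ (by linarith) (by nlinarith [Nat.mul_le_mul ha ha]))
    (by positivity) hτ0
    (by
      rw [hτ, one_div]
      exact inv_anti₀ (by norm_num) (le_trans (by linarith) (le_self_pow₀ (by linarith) (by omega))))
    hT
    (by
      rw [Fintype.sum_option, add_comm]
      exact (sum_coe_sort (ch.P (m - u)) g).symm ▸ hgap)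
    hE0 (half_pos hΔ) hΩ hΩ' hε1 (by nlinarith)
    (by
      rw [inv_mul_le_iff₀ (by positivity), mul_one]
      calc _ ≤ (n : ℝ) * n ^ 2 := by gcongr; linarith
        _ = _ := by ring)
    (by positivity)
    (fun g => by rw [i1]; exact ch.P_mono (by have := hg0 g; omega))
    (hlow 0 le_rfl (by omega))
    (fun g => by
      have := hgW g; have := hg0 g
      rw [i1, i2, f1, SV_eq_S, log_dim_eq]
      refine ⟨hlow _ (by omega) (by omega), ?_, (hS _ (by omega) (by omega)).trans (by nlinarith)⟩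
      have : ((ch.P (g * W + W - j * w)).card : ℝ) ≤ (n : ℝ) ^ 2 := by
        exact_mod_cast ch.card_P (k := g * W + W - j * w) (by omega)
      rw [inv_mul_le_iff₀ (by positivity), mul_one]
      calc _ ≤ (n : ℝ) ^ 2 * n := by gcongr; linarith
        _ = _ := by ring)
  simp only [i1, i2, f1, f2, mi_eq_MI, sum_sub_distrib] at key
  refine final_le (K := K) (by exact_mod_cast hK1) (by linarith) (by linarith) (by linarith)
    (by linarith) hΔ (by positivity) hsK ?_ ?_ (le_trans ?_ key)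
  · refine le_trans (le_of_eq ?_) hI
    simp only [Nat.cast_add, Nat.cast_one, add_mul, one_mul, add_assoc, sub_sub]
  · rw [hw]
    exact enB_le ha hp hG hτ rfl rfl hK hC (by linarith) (by linarith) hu (by linarith) hT hnT hB0
      hBG hun (by rw [Fintype.card_option, Fintype.card_coe]; omega) hexp' hE1
  · refine le_trans (le_of_eq (by rw [card_univ, Fintype.card_fin, nsmul_eq_mul]))
      (card_nsmul_le_sum _ _ (MI s.Ω (ch.P 0) (ch.P m)ᶜ) fun g _ => ?_)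
    have := hgW g; have := hg0 g
    exact Area.MI_mono_right (hE q Λ s.Ω hΩ).2.2.1 (compl_subset_compl.2 (ch.P_mono (by omega)))
      (disjoint_compl_right.mono_left (ch.P_mono (by omega)))

end Crest.Agent.N336.C
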