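import Crest.Agent.N336.C.Defs
import Crest.Agent.N336.A.Geo
import Crest.Agent.N336.TB
import Crest.Agent.N336.Area.Step
import Crest.Agent.N336.Q.EntMain

-- ▼ part N336/C/Inst1
section

/-!
# Row 336, CORE: geometry of the instantiation (helper17)
-/

set_option autoImplicit false
set_option linter.unusedSectionVars false

open Matrix Finset
open scoped ComplexOrder MatrixOrder Matrix.Norms.L2Operator InnerProductSpace

namespace Crest.Agent.N336.C

open Crest.Agent.N336.Q Crest.Agent.N336.Eng Crest.Agent.N336.A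

variable {q R : ℕ} {J Δ : ℝ} {Λ : Type} [Fintype Λ] [DecidableEq Λ] {s : Sys q R J Δ Λ} {n m : ℕ}

/-- the level function of a chart -/
noncomputable def lvl (c : Chart s n m) (x : Λ) : ℤ :=
  if x ∈ c.P m then c.ψ (s.pos x) else m + 1

lemma lvl_le_iff (c : Chart s n m) {k : ℤ} (hk : k ≤ m) {x : Λ} : lvl c x ≤ k ↔ x ∈ c.P k := by
  unfold lvl
  split_ifs with h
  · rw [c.mem_P] at h ⊢; simp [h.1]
  · exact ⟨fun h' => by omega, fun h' => absurd (c.P_mono hk h') h⟩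

lemma lvl_le (c : Chart s n m) (x : Λ) : lvl c x ≤ m + 1 := by
  unfold lvl
  split_ifs with h
  · have := (c.mem_P.1 h).2; omega
  · rfl

lemma lvl_ball (c : Chart s n m) {x y : Λ} {j : ℕ} (h : y ∈ ball s x j) :
    lvl c y ≤ lvl c x + j := by
  have := lvl_le c y
  by_cases h1 : lvl c x + j ≤ m
  · exact (lvl_le_iff c h1).2
      (c.edist_mem (by omega) ((lvl_le_iff c (by omega)).1 le_rfl) (mem_ball.1 h))
  · omega

lemma card_level (c : Chart s n m) {k : ℤ} (h0 : 0 ≤ k) (hk : k ≤ m) :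
    (univ.filter fun x => lvl c x = k).card ≤ n := by
  rw [← card_image_of_injective _ s.inj]
  refine c.lev k h0 hk _ fun z hz => ?_
  obtain ⟨x, hx, rfl⟩ := mem_image.1 hz
  have h := (mem_filter.1 hx).2
  unfold lvl at h
  split_ifs at h
  · exact h
  · omega

lemma card_layer (c : Chart s n m) {a b : ℤ} {r : ℕ} (h0 : 0 ≤ a) (hb : b ≤ m) (h : b ≤ a + r) :
    (univ.filter fun x => a < lvl c x ∧ lvl c x ≤ b).card ≤ r * n := by
  refine (card_le_card (t := (Ioc a b).biUnion fun k => univ.filter fun x => lvl c x = k)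
    fun x hx => ?_).trans ((card_biUnion_le_card_mul _ _ n fun k hk => ?_).trans ?_)
  · simpa using hx
  · rw [mem_Ioc] at hk; exact card_level c (by omega) (by omega)
  · rw [Int.card_Ioc]; gcongr; omega

lemma cross_le (c : Chart s n m) {k : ℤ} (h0 : 0 ≤ k) (hk : k + R ≤ m) :
    s.cross (c.P k) ≤ R * 2 ^ ((2 * R + 1) ^ 2) * n := by
  unfold Sys.cross
  refine (card_le_card (t := (univ.filter fun x => k < lvl c x ∧ lvl c x ≤ k + R).biUnion
    fun y => (ball s y R).powerset) fun X hX => ?_).trans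
    ((card_biUnion_le_card_mul _ _ (2 ^ ((2 * R + 1) ^ 2)) fun y _ => ?_).trans ?_)
  · obtain ⟨h, ⟨x, hx, hx'⟩, y, hy, hy'⟩ := (mem_filter.1 hX).2
    rw [← lvl_le_iff c (by omega)] at hx' hy'
    have := lvl_ball c (sub_ball h hx hy)
    exact mem_biUnion.2 ⟨y, mem_filter.2 ⟨mem_univ _, by omega, by omega⟩,
      mem_powerset.2 (sub_ball h hy)⟩
  · rw [card_powerset]
    exact Nat.pow_le_pow_right two_pos (card_ball_le s y R)
  · rw [mul_right_comm]
    exact Nat.mul_le_mul_right _ (card_layer c h0 hk le_rfl)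

/-- the supports of the terms -/
noncomputable def zz (s : Sys q R J Δ Λ) (N : Finset Λ) (u : ℕ) : Option N → Finset Λ
  | none => nbhd s Nᶜ u
  | some v => ball s v u

lemma card_near (N : Finset Λ) : ((univ : Finset (Option N)).erase none).card = N.card := by
  simp [card_erase_of_mem]

/-- the scanner geometry of a chart -/
noncomputable def scn (c : Chart s n m) (u K w : ℕ) (a b : Fin K → ℤ) (hu : 1 ≤ u)
    (h1 : ∀ g, a g + w + (2 * u : ℕ) ≤ b g - w)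
    (h2 : ∀ g g', g < g' → b g + (2 * u : ℕ) ≤ a g')
    (h3 : ∀ g, ((2 * u : ℕ) : ℤ) ≤ a g) (h4 : ∀ g, b g + (2 * u : ℕ) ≤ m) :
    Scn Λ (Option (c.P (m - u))) K w (2 * u) (9 * u ^ 2) (9 * u ^ 2) (2 * u * n) (n ^ 2) where
  lv := lvl c
  A₁ := ∅
  Z := zz s (c.P (m - u)) u
  near := univ.erase none
  a := a
  b := b
  r_pos := by omega
  sep := h1
  sep' := h2
  far v hv x hx g := by
    obtain rfl : v = none := by simpa using hv
    obtain ⟨y, hy, hx⟩ := mem_nbhd.1 hx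
    rw [mem_compl, ← lvl_le_iff c (by omega)] at hy
    have := lvl_ball c (ball_symm hx)
    have := h4 g
    omega
  top x hx := by simp at hx
  disj v := disjoint_empty_right _
  spread v hv x hx y hy := by
    obtain _ | v := v
    · simp at hv
    · have := lvl_ball c (ball_trans (ball_symm hy) hx)
      omega
  size v hv := by
    obtain _ | v := v
    · simp at hv
    · exact (card_ball_le s _ u).trans (by nlinarith)
  deg x := by
    refine le_trans (card_le_card_of_injOn (t := ball s x u) (fun o => o.elim x (·.1))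
      (fun v hv => ?_) fun v hv v' hv' h => ?_) ((card_ball_le s _ u).trans (by nlinarith))
    · obtain _ | v := v
      · simp at hv
      · exact ball_symm (mem_filter.1 hv).2
    · obtain _ | v := v
      · simp at hv
      obtain _ | v' := v'
      · simp at hv'
      exact congrArg some (Subtype.ext h)
  lay g := by
    have := h1 g; have := h3 g; have := h4 g
    exact ⟨card_layer c (by omega) (by omega) (by omega), card_layer c (by omega) (h4 g) le_rfl⟩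
  cnt := (card_filter_le _ _).trans ((card_near _).trans_le (c.card_P (by omega)))

lemma scn_sl (c : Chart s n m) {u K w : ℕ} {a b : Fin K → ℤ} {hu h1 h2 h3 h4} {k : ℤ}
    (hk : k ≤ m) : (scn c u K w a b hu h1 h2 h3 h4).sl k = c.P k := by
  ext x
  rw [Scn.sl, mem_filter, ← lvl_le_iff c hk]
  exact ⟨fun h => h.2, fun h => ⟨mem_univ _, h⟩⟩

lemma SV_eq_S (Ω : N336.Vec Λ q) (A : Finset Λ) : SV (d := fun _ => Fin q) Ω A = S Ω A :=
  (S_eq Ω A).symm

lemma mi_eq_MI (Ω : N336.Vec Λ q) (A F : Finset Λ) : mi (d := fun _ => Fin q) Ω A F = MI Ω A F := by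
  simp only [mi, MI, SV_eq_S]

lemma log_dim_eq (A : Finset Λ) :
    Real.log (dim (fun _ : Λ => Fin q) A) = A.card * Real.log q := by
  rw [dim_const, Fintype.card_fin, Nat.cast_pow, Real.log_pow]

lemma MI_nonneg' (hE : EntStmt) {Ω : N336.Vec Λ q} (h : ‖Ω‖ = 1) (A F : Finset Λ) :
    0 ≤ MI Ω A F := by
  obtain ⟨-, h2, h3, -⟩ := hE q Λ Ω h
  have := h3 A F
  have := (h2 (A ∩ F)).1
  unfold MI; linarith

lemma MI_le_two (hE : EntStmt) {Ω : N336.Vec Λ q} (h : ‖Ω‖ = 1) {A A' : Finset Λ} (hA : A ⊆ A') :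
    MI Ω A A'ᶜ ≤ 2 * S Ω A := by
  obtain ⟨h1, h2, h3, -⟩ := hE q Λ Ω h
  refine (Area.MI_mono_right h3 (compl_subset_compl.2 hA) disjoint_compl_right).trans ?_
  have := (h2 (A ∪ Aᶜ)).1
  unfold MI; rw [h1]; linarith

/-- the output of the patch lemma with one region is a projector of small rank -/
lemma low_of_patch [NeZero q] {Ω : N336.Vec Λ q} {X : Finset Λ} {B : ℕ}
    (a : Fin B → (X → Fin q) → ℂ) (h1 : ∀ α, ∑ σ, ‖a α σ‖ ^ 2 = 1)
    (h2 : ∀ α β, α ≠ β → rk1 X (a α) (a α) * rk1 X (a β) (a β) = 0) {ρ ε : ℝ}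
    (hB : (B : ℝ) ≤ Real.exp ρ) (h3 : ‖act (∑ α, rk1 X (a α) (a α)) Ω - Ω‖ ≤ ε) :
    Low (d := fun _ => Fin q) Ω X ρ ε := by
  let v : Fin B → Q.Vec (Cfg (sub (sb X) fun _ : Λ => Fin q)) := fun α => WithLp.toLp 2 (a α)
  have hv : ∀ α, ‖v α‖ ^ 2 = 1 := fun α => by rw [EuclideanSpace.norm_sq_eq]; exact h1 α
  have e : ∀ α, rk1 X (a α) (a α) = lift (d := fun _ => Fin q) X (pj (v α)) := fun α =>
    localOp_eq X _
  refine ⟨∑ α, pj (v α), isSelfAdjoint_sum univ fun α _ => (pj_isHermitian _).isSelfAdjoint,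
    ?_, ?_, ?_⟩
  · rw [sum_mul]
    refine sum_congr rfl fun α _ => ?_
    rw [mul_sum, sum_eq_single α (fun β _ hβ => ?_) (by simp)]
    · rw [mul_kb, ap_kb, inner_self_eq_norm_sq_to_K, ← RCLike.ofReal_pow, hv]; simp
    · refine emb_injective (d := fun _ => Fin q) (sb X) ?_
      rw [map_mul, map_zero, ← e, ← e]
      exact h2 α β (Ne.symm hβ)
  · simpa [trace_sum, trace_pj, hv] using hB
  · rw [map_sum]
    simp only [← e]
    exact h3

lemma exists_step_le {f : ℕ → ℝ} {u : ℕ} {M : ℝ} (hu : 1 ≤ u) (h0 : 0 ≤ f 0) (h1 : f u ≤ M) :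
    ∃ j < u, f (j + 1) - f j ≤ M / u := by
  have hu' : (0 : ℝ) < u := by exact_mod_cast hu
  obtain ⟨j, hj, h⟩ := exists_le_of_sum_le (s := range u) (f := fun j => f (j + 1) - f j)
    (g := fun _ => M / u) ⟨0, mem_range.2 hu⟩ (by
      rw [sum_range_sub, sum_const, card_range, nsmul_eq_mul, mul_div_cancel₀ _ hu'.ne']
      linarith)
  exact ⟨j, mem_range.1 hj, h⟩

end Crest.Agent.N336.C
end

-- ▼ part N336/C/Inst2

/-!
# Row 336, CORE: arithmetic of the instantiation (helper17)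
-/

set_option autoImplicit false

namespace Crest.Agent.N336.C

theorem pin_nonneg (K w r b₁ b₂ N₀ T : ℕ) : 0 ≤ pin K w r b₁ b₂ N₀ T := by unfold pin; positivity

theorem pin_le {u K N₀ T : ℕ} (hu : 1000 ≤ u) (hT : 1 ≤ T) :
    pin K (2 * u ^ 6 * T) (2 * u) (9 * u ^ 2) (9 * u ^ 2) N₀ T ≤ 2 * K * N₀ * Real.exp (-u) := by
  unfold pin
  have hx : (1000 : ℝ) ≤ u := by exact_mod_cast hu
  have hT' : (1 : ℝ) ≤ T := by exact_mod_cast hT
  gcongr
  push_cast
  have e : (2 * (u : ℝ) ^ 6 * T) / (2 * u) = u * (u ^ 4 * T) := by field_simp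
  have h1 : (u : ℝ) ≤ u ^ 4 * T :=
    (le_self_pow₀ (by linarith) (by norm_num)).trans (le_mul_of_one_le_right (by positivity) hT')
  rw [e]
  nlinarith

set_option maxHeartbeats 1000000 in
/-- The energy bound for the chosen parameters. -/
theorem enB_le {a p G u K n T NV : ℕ} {C J C₃ B E τ lam s : ℝ} (ha : 1 ≤ a) (hp : p = 6 * a + 24)
    (hG : G = 6 * a + p * a + p * a * a + 25) (hτ : τ = ((u : ℝ) ^ p)⁻¹) (hlam : lam = τ ^ a)
    (hs : s = lam ^ a) (hK : K = u ^ (p * a * a + 1)) (hC : 1 ≤ C) (hJ : 1 ≤ J) (hC₃ : 1 ≤ C₃)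
    (hu : 1000 ≤ u) (hD : 32 * C * C * J * C₃ ≤ u) (hT : 1 ≤ T) (hnT : n ≤ u ^ 9 * K * T)
    (hB0 : 0 ≤ B) (hB : B * (u : ℝ) ^ G ≤ (n : ℝ) ^ 2) (hun : u ^ G ≤ n) (hNV : NV ≤ n ^ 2 + 1)
    (hexp : (n : ℝ) ^ 6 ≤ Real.exp u) (hE : E ≤ (((n : ℝ) ^ 3)⁻¹) ^ 2) :
    enB a C J ((u : ℝ) ^ 3) s lam τ (C * K * (C₃ * B)) E
      (pin K (2 * u ^ 6 * T) (2 * u) (9 * u ^ 2) (9 * u ^ 2) (2 * u * n) T) (n ^ 2) NV T ≤
      4 / (u : ℝ) ^ 3 := by
  have hpin := pin_le (K := K) (N₀ := 2 * u * n) hu hT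
  have hpin0 := pin_nonneg K (2 * u ^ 6 * T) (2 * u) (9 * u ^ 2) (9 * u ^ 2) (2 * u * n) T
  generalize pin K (2 * u ^ 6 * T) (2 * u) (9 * u ^ 2) (9 * u ^ 2) (2 * u * n) T = P at hpin hpin0
  have hKx : (K : ℝ) = (u : ℝ) ^ (p * a * a + 1) := by rw [hK]; push_cast; rfl
  have hnT' : (n : ℝ) ≤ (u : ℝ) ^ 9 * K * T := by exact_mod_cast hnT
  have hun' : (u : ℝ) ^ G ≤ n := by exact_mod_cast hun
  have hNV' : (NV : ℝ) ≤ (n : ℝ) ^ 2 + 1 := by exact_mod_cast hNV
  have hT' : (1 : ℝ) ≤ T := by exact_mod_cast hT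
  have hx : (1000 : ℝ) ≤ u := by exact_mod_cast hu
  push_cast at hpin
  generalize (u : ℝ) = x at *
  have hx0 : 0 < x := by linarith
  have hx1 : 1 ≤ x := by linarith
  have hτ0 : 0 < τ := by rw [hτ]; positivity
  have hl0 : 0 < lam := by rw [hlam]; positivity
  have hK0 : (0 : ℝ) < K := by rw [hKx]; positivity
  have hn1 : (1 : ℝ) ≤ n := (one_le_pow₀ hx1).trans hun'
  have ha0 : a ≠ 0 := by omega
  have r1 : lam ^ ((1 : ℝ) / a) = τ := by
    rw [hlam, one_div, Real.pow_rpow_inv_natCast hτ0.le ha0]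
  have r2 : s ^ ((1 : ℝ) / a) = lam := by
    rw [hs, one_div, Real.pow_rpow_inv_natCast hl0.le ha0]
  have r3 : lam ^ ((1 : ℝ) / a - 1) = τ / lam := by rw [Real.rpow_sub_one hl0.ne', r1]
  have hsK : s * K = x := by
    rw [hs, hlam, hτ, hKx, inv_pow, inv_pow, ← pow_mul, ← pow_mul, pow_succ, ← mul_assoc p]
    field_simp
  have hs0 : 0 < s := by rw [hs]; positivity
  have hq : (n : ℝ) ^ 2 / T ^ 2 ≤ x ^ 18 * K ^ 2 := by
    rw [div_le_iff₀ (by positivity)]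
    calc _ ≤ (x ^ 9 * K * T) ^ 2 := by gcongr
      _ = _ := by ring
  have hCJ : 1 ≤ C * J := one_le_mul_of_one_le_of_one_le hC hJ
  have hCC : 1 ≤ C * C₃ := one_le_mul_of_one_le_of_one_le hC hC₃
  have hD0 : C * J * (C * C₃) * 32 ≤ x := by linarith [show C * J * (C * C₃) * 32 = 32 * C * C * J * C₃ by ring]
  have hD1 : 32 * (C * J) ≤ x := by
    linarith [le_mul_of_one_le_right (by linarith : 0 ≤ C * J) hCC]
  have hD2 : C * J * (C * C₃) ≤ x := by
    linarith [one_le_mul_of_one_le_of_one_le hCJ hCC]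
  have l1 : (x ^ 3) ^ (2 * a) = x ^ (6 * a) := by rw [← pow_mul]; congr 1; ring
  have t0 : 4 * E ≤ 1 / x ^ 3 := by
    have h1 : x ^ 4 ≤ n := (pow_le_pow_right₀ hx1 (by omega)).trans hun'
    have h2 : (n : ℝ) ≤ (n ^ 3) ^ 2 := by
      rw [← pow_mul]; exact le_self_pow₀ hn1 (by norm_num)
    rw [inv_pow] at hE
    have h3 : (((n : ℝ) ^ 3) ^ 2)⁻¹ ≤ (x ^ 4)⁻¹ := inv_anti₀ (by positivity) (h1.trans h2)
    calc 4 * E ≤ 4 * (x ^ 4)⁻¹ := by linarith
      _ ≤ x * (x ^ 4)⁻¹ := by gcongr; linarith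
      _ = _ := by field_simp
  have t1 : C * J * s ^ 2 * x ^ (6 * a) * ((n : ℝ) ^ 2 / T ^ 2 * (3 * τ)) ≤ 1 / x ^ 3 := by
    calc _ ≤ C * J * s ^ 2 * x ^ (6 * a) * (x ^ 18 * K ^ 2 * (3 * τ)) := by gcongr
      _ = 3 * (C * J) * (s * K) ^ 2 * (x ^ (6 * a) * x ^ 18 * τ) := by ring
      _ = 3 * (C * J) / x ^ 4 := by rw [hsK, hτ, hp, pow_add]; field_simp
      _ ≤ x / x ^ 4 := by gcongr; linarith
      _ = _ := by field_simp
  have t2 : C * J * s ^ 2 * x ^ (6 * a) * (τ / lam * (C * K * (C₃ * B)) / (T ^ 2 * τ)) ≤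
      1 / x ^ 3 := by
    have hB' : B / T ^ 2 ≤ x ^ 18 * K ^ 2 / x ^ G := by
      rw [le_div_iff₀ (by positivity), div_mul_eq_mul_div]
      exact le_trans (by gcongr) hq
    calc _ = C * J * (C * C₃) * s ^ 2 * x ^ (6 * a) * (K / lam) * (B / T ^ 2) := by field_simp
      _ ≤ C * J * (C * C₃) * s ^ 2 * x ^ (6 * a) * (K / lam) * (x ^ 18 * K ^ 2 / x ^ G) := by
          gcongr
      _ = C * J * (C * C₃) * (s * K) ^ 2 * (x ^ (6 * a) * x ^ 18 * K / lam / x ^ G) := by ring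
      _ = C * J * (C * C₃) / x ^ 4 := by
          rw [hsK, hKx, hlam, hτ, hG, inv_pow, ← pow_mul]
          simp only [pow_add]; field_simp
      _ ≤ x / x ^ 4 := by gcongr
      _ = _ := by field_simp
  have t3 : C * J * s ^ 2 * x ^ (6 * a) * (NV * P ^ 2) ≤ 1 / x ^ 3 := by
    have h1 : x ^ (6 * a + 8) ≤ n := (pow_le_pow_right₀ hx1 (by omega)).trans hun'
    have h2 : (NV : ℝ) ≤ 2 * n ^ 2 := by linarith [one_le_pow₀ (n := 2) hn1]
    have h3 : Real.exp (-x) ≤ ((n : ℝ) ^ 6)⁻¹ := by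
      rw [Real.exp_neg]; exact inv_anti₀ (by positivity) hexp
    calc _ ≤ C * J * s ^ 2 * x ^ (6 * a) * (2 * n ^ 2 * (2 * K * (2 * x * n) * ((n : ℝ) ^ 6)⁻¹) ^ 2) := by
          gcongr; exact hpin.trans (by gcongr)
      _ = 32 * (C * J) * (s * K) ^ 2 * x ^ (6 * a) * x ^ 2 / n ^ 8 := by field_simp; ring
      _ ≤ x * x ^ 2 * x ^ (6 * a) * x ^ 2 / n := by
          rw [hsK]; gcongr; exact le_self_pow₀ hn1 (by norm_num)
      _ ≤ x * x ^ 2 * x ^ (6 * a) * x ^ 2 / x ^ (6 * a + 8) := by gcongr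
      _ = _ := by rw [pow_add]; field_simp
  unfold enB
  rw [r1, r2, r3, l1, div_mul_cancel₀ _ hl0.ne']
  push_cast
  have e : (4 : ℝ) / x ^ 3 = 1 / x ^ 3 + (1 / x ^ 3 + 1 / x ^ 3 + 1 / x ^ 3) := by ring
  rw [e, mul_add, mul_add, show τ + τ + τ = 3 * τ by ring]
  linarith

end Crest.Agent.N336.C
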