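import Crest.Agent.N336.T.Energy_Mg
import Crest.Agent.N336.T.SubGeo_Mg
import Crest.Agent.N336.C.Boot_Mg
import Crest.Agent.N336.C.Inst
import Crest.Agent.N336.P.Asm_Mg
import Crest.Agent.N336.P.Sound.Main_Mg
import Crest.Agent.N336.P.Geo.Routes_Mg
import Crest.Agent.N336.Q.EntMain
import Crest.Agent.N336.TB
import Crest.Agent.N336.P.Geo.Small
import Crest.Agent.N336.P.Geo.Rect
import Crest.Agent.N336.R.Met
import Crest.Agent.N336.R.Ineq1
import Crest.Agent.N336.R.LD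
import Crest.Agent.N336.C.SV
import Crest.Agent.N336.C.Defs
import Crest.Agent.N336.R.Mat

-- ▼ part N336/T/SubMain
section

/-!
# Row 336: the sub-volume law (helper87)
-/

namespace Crest.Agent.N336

theorem subvol : A.SubStmt := T.sub_of (T.tiltSub T.eng T.energy)

end Crest.Agent.N336
end

-- ▼ part N336/Glue
section

/-!
# Row 336: everything from the rigidity theorem (helper88)
-/

set_option autoImplicit false

namespace Crest.Agent.N336

theorem core_of (h : C.RigStmt) : CoreStmt :=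
  C.boot ent subvol (C.step (C.anc h C.lsc) A.ff patch ent)

theorem area_of (h : C.RigStmt) : AreaStmt := area ent (tb ent (core_of h) amp)

theorem vw_of (h : C.RigStmt) : P.VWStmt := P.vw ent (core_of h) amp (area_of h)

theorem pt_of (h : C.RigStmt) : P.PtStmt := P.pt patch (area_of h)

theorem geo_all : P.GeoStmt :=
  P.Geo.geo (P.Geo.small P.Geo.rect) (P.Geo.macro_ P.Geo.rect) P.Geo.routes

end Crest.Agent.N336
end

-- ▼ part N336/R/Ineq2
section

/-! # Row 336, replica package: the asymptotic inequalities, second half (helper43) -/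

set_option autoImplicit false
set_option linter.unusedSectionVars false

open Matrix Finset MeasureTheory Filter
open scoped ComplexOrder MatrixOrder Matrix.Norms.L2Operator InnerProductSpace Topology

namespace Crest.Agent.N336.R

open Crest.Agent.N336.Q Crest.Agent.N336.Eng Crest.Agent.N336.C

namespace I2

section gen

variable {n : Type} [Fintype n] [DecidableEq n]

lemma qf_rsm (c : ℝ) (M : Matrix n n ℂ) (v : Q.Vec n) : qf v (c • M) = c * qf v M := by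
  rw [← Complex.coe_smul, qf_smul]

lemma inv_le_of_le {A B B' : Matrix n n ℂ} (hB : B.PosDef) (hB' : B' * B = 1) {c : ℝ}
    (h : Real.exp (-c) • B ≤ A) : A⁻¹ ≤ Real.exp c • B' := by
  have h1 := inv_anti (hB.smul (Real.exp_pos _)) h
  rwa [Matrix.inv_eq_left_inv (A := Real.exp (-c) • B) (B := Real.exp c • B') (by
    rw [smul_mul_smul_comm, ← Real.exp_add, add_neg_cancel, Real.exp_zero, one_smul, hB'])] at h1

/-- the linear functional `G ↦ ⟨u, G X v⟩` -/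
noncomputable def phiL (X : Matrix n n ℂ) (u v : Q.Vec n) : Matrix n n ℂ →L[ℂ] ℂ :=
  (innerSL ℂ u).comp ((ContinuousLinearMap.apply ℂ (Q.Vec n) (ap X v)).comp (SB.apL n))

lemma phiL_apply (X G : Matrix n n ℂ) (u v : Q.Vec n) :
    phiL X u v G = ⟪u, ap (G * X) v⟫_ℂ := by rw [ap_mul]; rfl

/-- Berezin-Lieb for a small power -/
lemma lg_le_of_pw [Nonempty n] {k : ℕ} {N : Ms k n} (hN : N.PosDef) {α δ : ℝ} (hα : 0 < α)
    {g : Sph n → ℝ} (hg : Continuous g)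
    (h : ∀ χ : Sph n, qf (cv k χ.1) (pw N α) ≤ Real.exp (α * k * (g χ + δ)))
    (hd : (dk k n : ℝ) ≤ Real.exp (α * δ * k)) :
    lg N ≤ (k : ℝ) • Tr k g + (2 * δ * k) • (1 : Ms k n) := by
  have h1 := bl (pw_posDef hN α) (g := fun χ => α * k * (g χ + δ)) (by fun_prop) fun χ => by
    rcases (re_inner_ap_nonneg (pw_posDef hN α).posSemidef (cv k χ.1)).eq_or_lt with h0 | h0
    · have h2 := ev_pos (pw_posDef hN α)
      have h3 := sum_sq_inner_evec (pw N α) (cv k χ.1)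
      rw [norm_cv, norm_eq_of_mem_sphere χ, one_pow, one_pow] at h3
      have h4 := qf_self (pw_posDef hN α).1 (cv k χ.1)
      rw [qf, ← h0] at h4
      have h5 := (Finset.sum_eq_zero_iff_of_nonneg fun i _ =>
        mul_nonneg (h2 i).le (sq_nonneg _)).1 h4.symm
      rw [Finset.sum_eq_zero fun i hi => (mul_eq_zero.1 (h5 i hi)).resolve_left (h2 i).ne'] at h3
      norm_num at h3
    · exact (Real.log_le_iff_le_exp h0).2 (h χ)
  have h2 : Tr k (fun χ => α * k * (g χ + δ)) =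
      (α * k) • Tr k g + (α * k * δ) • (1 : Ms k n) := by
    have e : (fun χ : Sph n => ((α * k * (g χ + δ) : ℝ) : ℂ)) =
        fun χ => ((α * k : ℝ) : ℂ) * (g χ : ℂ) + ((α * k * δ : ℝ) : ℂ) := by
      funext χ; push_cast; ring
    rw [Tr, e, Tc_add k (by fun_prop) continuous_const, Tc_smul, Tc_const, Complex.coe_smul,
      Complex.coe_smul]
  have h3 : Real.log (dk k n) ≤ α * δ * k :=
    (Real.log_le_iff_le_exp (by exact_mod_cast dk_pos k)).2 hd
  rw [lg_pw hN, h2, Complex.coe_smul] at h1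
  have h4 := h1.trans (add_le_add_right (smul_le_smul_of_nonneg_right h3 zero_le_one) _)
  refine le_of_smul_le_smul_left (h4.trans (le_of_eq ?_)) hα
  rw [smul_add, smul_smul, smul_smul, add_assoc, ← add_smul]
  congr 2
  ring

end gen

variable {ι : Type} [Fintype ι] [DecidableEq ι] {d : ι → Type} [∀ x, Fintype (d x)]
  [∀ x, DecidableEq (d x)] [∀ x, Nonempty (d x)]

variable {s δ : ℝ}

lemma one_le_dim (A : Finset ι) : (1 : ℝ) ≤ dim d A := by exact_mod_cast dim_pos A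

lemma dim_le_univ (A : Finset ι) : (dim d A : ℝ) ≤ dim d univ := by
  rw [← dim_mul_compl A]
  push_cast
  exact le_mul_of_one_le_right (dim_pos_real A).le (one_le_dim _)

lemma W_posDef {ε : ℝ} (hε : 0 < ε) (hε1 : ε ≤ 1) (s : ℝ) (k : ℕ) (b : Bool) (A : Finset ι) :
    (W d s ε k b A).PosDef := Wm_posDef _ _ _ _ (MM_pos (one_le_dim _) hε hε1)

lemma sy_W (s ε : ℝ) (k : ℕ) (b : Bool) (A : Finset ι) : Sy (W d s ε k b A) := sy_Wm _ _ _ _ _

lemma lw_eq {ε : ℝ} (hε : 0 < ε) (hε1 : ε ≤ 1) (s : ℝ) (k : ℕ) (b : Bool) (A : Finset ι) :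
    lw d s ε k b A = lg (cmp (W d s ε k b A)) :=
  cmp_fc (sy_W _ _ _ _ _) (W_posDef hε hε1 _ _ _ _).1 _

lemma W_commute_rq {e : ℝ} (he : 0 < e) (s ε : ℝ) (k : ℕ) (b : Bool) {A Z : Finset ι}
    (h : Z ⊆ A ∨ Disjoint Z A) (χ : Q.Vec (Cfg d)) (t : ℝ) :
    Commute (W d s ε k b A) (tp k (pw (rq χ Z e) t)) :=
  Wm_commute_tp (supp_pw (supp_rq _ _ _) (rq_isHermitian _ _ _) _)
    (pw_posDef (rq_posDef _ _ he) _).posSemidef h _ _ _ _

lemma tp_pw_neg_mul {e : ℝ} (he : 0 < e) (k : ℕ) (χ : Q.Vec (Cfg d)) (A : Finset ι) (t : ℝ) :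
    tp k (pw (rq χ A e) (-t)) * tp k (pw (rq χ A e) t) = 1 := by
  rw [← tp_mul, pw_neg_mul (rq_posDef _ _ he), tp_one]

/-- the lower bound at a pure state -/
lemma ev_le_W' (hs : 0 < s) (hs1 : s ≤ 1) (hδ : 0 < δ) :
    Ev fun ε k => ∀ (b : Bool) (A : Finset ι) (χ : Q.Vec (Cfg d)), ‖χ‖ = 1 →
      Real.exp (-(δ * k)) • tp k (pw (rq χ A ε) s) ≤ W d s ε k b A :=
  (ev_le_W hs hs1 hδ).mono fun _ _ h b A χ hχ => h b true A (pj χ) (dens_pj hχ)

/-- the upper bound at a pure state -/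
lemma ev_key (hs : 0 < s) (hs1 : s ≤ 1) (hδ : 0 < δ) :
    Ev fun ε k => ∀ (b : Bool) (A : Finset ι) (χ : Q.Vec (Cfg d)) (e : ℝ), ‖χ‖ = 1 → 0 < e →
      qf (tv k χ) (W d s ε k b A * tp k (pw (rq χ A e) (-s))) ≤ Real.exp (δ * k) :=
  (ev_norm_map_W hs hδ).mono fun ε k h b A χ e hχ he => by
    have := h b A ℂ (phiL (tp k (pw (rq χ A e) (-s))) (tv k χ) (tv k χ)) 1 fun ω h1 h2 => by
      rw [phiL_apply, ← tp_mul, ap_tp_tv, inner_tv, norm_pow]
      exact pow_le_one₀ (norm_nonneg _) (key_le A h1 h2 hχ hs.le hs1 he)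
    rw [phiL_apply, mul_one] at this
    exact (Complex.re_le_norm _).trans this

lemma qf_lg_tp {e : ℝ} (he : 0 < e) (k : ℕ) {χ : Q.Vec (Cfg d)} (hχ : ‖χ‖ = 1) (A : Finset ι)
    (t : ℝ) : qf (tv k χ) (lg (tp k (pw (rq χ A e) t))) = k * (t * qf χ (lg (rq χ A e))) := by
  rw [lg_tp k (pw_posDef (rq_posDef _ _ he) _), qf, inner_tv_dG k _ hχ, ← Complex.ofReal_natCast,
    Complex.re_ofReal_mul, lg_pw (rq_posDef _ _ he), ← qf, qf_smul]

theorem ev_compl (hs : 0 < s) (hs1 : s ≤ 1 / 2) (hδ : 0 < δ) :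
    Ev fun ε k => ∀ A : Finset ι, ee ((2 : ℝ) • lw d s ε k true A) ≤
      Real.exp (δ * k) • ee ((2 : ℝ) • lw d s ε k true Aᶜ) := by
  have hδ' : 0 < δ / 6 := by positivity
  have hk : Ev fun _ k => (dk k (Cfg d) : ℝ) ≤ Real.exp (δ / 6 * k) :=
    Eventually.of_forall fun _ => dk_le_exp hδ'
  refine ((((ev_small one_pos 0).and (ev_le_W' (d := d) hs (by linarith) hδ')).and
    (ev_key (d := d) hs (by linarith) hδ')).and hk).mono ?_
  rintro ε k ⟨⟨⟨⟨hε, hε1, -⟩, h1⟩, h2⟩, h3⟩ A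
  have pa := W_posDef (d := d) hε hε1 s k true A
  have pb := W_posDef (d := d) hε hε1 s k true Aᶜ
  have hc : Commute (W d s ε k true A) (W d s ε k true Aᶜ) :=
    Wm_commute_Wf (Or.inr disjoint_compl_left) _ _ _ _ _ _ _ _
  have hc' := cmp_commute (sy_W _ _ _ _ _) (sy_W _ _ _ _ _) hc
  have pa' := cmp_posDef pa
  have pb' := cmp_posDef pb
  have h4 := le_dk_smul (cmp_posDef (posDef_mul_inv pa pb hc)).posSemidef
    (c := Real.exp (δ / 6 * k) * Real.exp (δ / 6 * k)) fun χ => by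
      have hχ := norm_eq_of_mem_sphere χ
      have c1 := W_commute_rq hε s ε k true (A := A) (Or.inr disjoint_compl_left) χ.1 (-s)
      have a1 := mul_le_mul_comm (inv_le_of_le (tp_posDef k (pw_posDef (rq_posDef _ _ hε) _))
        (tp_pw_neg_mul hε k χ.1 Aᶜ s) (h1 true Aᶜ χ hχ)) pa.posSemidef (commute_inv pb hc).symm
        (c1.symm.smul_left _)
      have a2 := re_inner_ap_mono a1 (tv k χ.1)
      rw [← (commute_inv pb hc).eq, Matrix.smul_mul, ← c1.eq] at a2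
      rw [qf_cv_cmp]
      refine a2.trans ?_
      have a3 := h2 true A χ ε hχ hε
      rw [← qf, qf_rsm]
      refine mul_le_mul_of_nonneg_left (le_trans (le_of_eq ?_) a3) (Real.exp_pos _).le
      simp only [qf, ap_mul, ap_tp_tv, pw, fr, ap_fc_rq_compl _ A]
  rw [cmp_mul _ ((sy_W _ _ _ _ _).inv pb), cmp_inv (sy_W _ _ _ _ _) pb] at h4
  have h0 : (dk k (Cfg d) : ℝ) * (Real.exp (δ / 6 * k) * Real.exp (δ / 6 * k)) ≤
      Real.exp (δ / 2 * k) := by
    refine (mul_le_mul_of_nonneg_right h3 (by positivity)).trans (le_of_eq ?_)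
    rw [← Real.exp_add, ← Real.exp_add]; congr 1; ring
  have h5 := mul_le_mul_comm (h4.trans (smul_le_smul_of_nonneg_right h0 zero_le_one)) pb'.posSemidef
    (hc'.mul_left (commute_inv pb' (Commute.refl _)).symm) ((Commute.one_left _).smul_left _)
  rw [Matrix.mul_assoc, Matrix.nonsing_inv_mul _ ((isUnit_iff_isUnit_det _).1 pb'.isUnit),
    Matrix.mul_one, Matrix.smul_mul, Matrix.one_mul] at h5
  have h6 := sq_le_sq_comm pa'.posSemidef h5 (hc'.smul_right _)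
  have e : ∀ {M : Ms k (Cfg d)}, M.PosDef → ee ((2 : ℝ) • lg M) = M * M := fun hM => by
    rw [ee_smul_lg hM, ← one_add_one_eq_two, pw_add hM, pw_one hM.1]
  rw [lw_eq hε hε1, lw_eq hε hε1, e pa', e pb']
  refine h6.trans (le_of_eq ?_)
  rw [smul_mul_smul_comm, ← Real.exp_add]
  congr 2
  ring

theorem ev_lo (hs : 0 < s) (hs1 : s ≤ 1 / 2) (hδ : 0 < δ) :
    Ev fun ε k => ∀ (b : Bool) (A : Finset ι) (χ : Q.Vec (Cfg d)), ‖χ‖ = 1 →
      |qf (cv k χ) (lw d s ε k b A) + s * k * SV χ A| ≤ δ * k := by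
  have hδ' : 0 < δ / 2 := by positivity
  have hD := dim_pos_real (d := d) univ
  refine ((((ev_small one_pos 0).and (ev_small (div_pos hδ hD) 0)).and
    (ev_le_W' (d := d) hs (by linarith) hδ')).and (ev_key (d := d) hs (by linarith) hδ')).mono ?_
  rintro ε k ⟨⟨⟨⟨hε, hε1, -⟩, -, hε2, -⟩, h1⟩, h2⟩ b A χ hχ
  have pa := W_posDef (d := d) hε hε1 s k b A
  have pr := fun t => tp_posDef k (pw_posDef (rq_posDef χ A hε) t)
  have hc := W_commute_rq hε s ε k b (A := A) (Or.inl Subset.rfl) χ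
  have hv : ‖tv k χ‖ = 1 := by rw [norm_tv, hχ, one_pow]
  obtain ⟨l1, l2⟩ := qf_lg_rq χ A hε
  have l3 : ε * dim d A ≤ δ :=
    (mul_le_mul_of_nonneg_left (dim_le_univ A) hε.le).trans ((le_div_iff₀ hD).1 hε2)
  have hk : (0 : ℝ) ≤ k := Nat.cast_nonneg k
  have a1 := re_inner_ap_mono (lg_mono ((pr s).smul (Real.exp_pos _)) (h1 b A χ hχ)) (tv k χ)
  rw [lg_smul (pr s) (Real.exp_pos _), Real.log_exp, ← qf, ← qf, qf_add, qf_rsm, qf_one, hv,
    qf_lg_tp hε k hχ] at a1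
  have pX := posDef_mul pa (pr (-s)) (hc _)
  have a2 := qf_lg_le pX hv
  have a3 := Real.log_le_log (by
    have := exp_qf_le (fr_isHermitian Real.log (W d s ε k b A * tp k (pw (rq χ A ε) (-s)))) hv
    rw [ee_lg pX] at this
    exact (Real.exp_pos _).trans_le this) (h2 b A χ ε hχ hε)
  rw [lg_mul pa (pr (-s)) (hc _), qf_add, qf_lg_tp hε k hχ] at a2
  rw [Real.log_exp] at a3
  have b1 := mul_le_mul_of_nonneg_left l1 (mul_nonneg hk hs.le)
  have b2 := mul_le_mul_of_nonneg_left (l2.trans (add_le_add_right l3 _)) (mul_nonneg hk hs.le)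
  have b3 : k * s * δ ≤ k * (1 / 2) * δ := by gcongr
  have b4 : 0 ≤ δ * k := by positivity
  rw [lw, qf_cv_cmp, abs_le]
  constructor <;> nlinarith

theorem ev_up (hs : 0 < s) (hs1 : s ≤ 1 / 2) (hδ : 0 < δ) :
    Ev fun ε k => ∀ (b : Bool) (A : Finset ι) (g : Sph (Cfg d) → ℝ), Continuous g →
      (∀ χ : Sph (Cfg d), -(s * SV χ.1 A) ≤ g χ) →
      lw d s ε k b A ≤ (k : ℝ) • Tr k g + (δ * k) • (1 : Ms k (Cfg d)) := by
  have hδ' : 0 < δ / 6 := by positivity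
  have hD := dim_pos_real (d := d) univ
  filter_upwards [((ev_small one_pos 0).and (ev_small (div_pos hδ' hD) 0)).and
    (ev_key (d := d) hs (by linarith) hδ')] with ε hE
  obtain ⟨-, ⟨⟨hε, hε1, -⟩, -, hε2, -⟩, -⟩ := hE.exists
  obtain ⟨C, hC, hq⟩ := qf_pw_rq_le (d := d) hε hε1
  obtain ⟨α, hα, hα1, hα2⟩ : ∃ α : ℝ, 0 < α ∧ α ≤ 1 / 2 ∧ C * α ≤ δ / 6 :=
    ⟨min (1 / 2) (δ / 6 / (C + 1)), by positivity, min_le_left _ _, by
      have := (le_div_iff₀ (by positivity : 0 < C + 1)).1 (min_le_right (1 / 2) (δ / 6 / (C + 1)))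
      have h0 : 0 ≤ min (1 / 2) (δ / 6 / (C + 1)) := by positivity
      nlinarith⟩
  filter_upwards [hE, dk_le_exp (n := Cfg d) (mul_pos hα (half_pos hδ))] with k ⟨_, h2⟩ h3 b A g
    hg hS
  have pa := W_posDef (d := d) hε hε1 s k b A
  have hk : (0 : ℝ) ≤ k := Nat.cast_nonneg k
  have := lg_le_of_pw (cmp_posDef pa) hα hg (δ := δ / 2) (fun χ => ?_) h3
  · rwa [← lw_eq hε hε1, mul_div_cancel₀ _ two_ne_zero] at this
  have hχ := norm_eq_of_mem_sphere χ
  have pq := rq_posDef χ.1 A hε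
  have pr := fun t => tp_posDef k (pw_posDef pq t)
  have hc := W_commute_rq hε s ε k b (A := A) (Or.inl Subset.rfl) χ.1
  have hv : ‖tv k χ.1‖ = 1 := by rw [norm_tv, hχ, one_pow]
  have pX := posDef_mul pa (pr (-s)) (hc _)
  set X := W d s ε k b A * tp k (pw (rq χ.1 A ε) (-s)) with hX
  have e1 : W d s ε k b A = X * tp k (pw (rq χ.1 A ε) s) := by
    rw [hX, Matrix.mul_assoc, tp_pw_neg_mul hε, Matrix.mul_one]
  have e2 : pw (W d s ε k b A) α = pw X α * tp k (pw (rq χ.1 A ε) (α * s)) := by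
    rw [e1, pw_mul pX (pr s) ((hc s).mul_left (tp_commute k (fc_commute _ _ _))),
      pw_tp k (pw_posDef pq s), pw_pw pq]
  have a1 : ‖ap (pw X α) (tv k χ.1)‖ ≤ Real.exp (α * (δ / 6 * k)) := by
    rw [← sq_le_sq₀ (norm_nonneg _) (Real.exp_pos _).le, norm_ap_pw_sq pX, ← Real.exp_nat_mul]
    refine (qf_pw_le pX.posSemidef hv (by positivity) (by linarith)).trans
      ((Real.rpow_le_rpow (re_inner_ap_nonneg pX.posSemidef _) (h2 b A χ ε hχ hε)
        (by positivity)).trans (le_of_eq ?_))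
    rw [← Real.exp_mul]; congr 1; push_cast; ring
  have a2 : ‖ap (pw (rq χ.1 A ε) (α * s)) χ.1‖ ≤ Real.exp (α * (g χ + δ / 3)) := by
    rw [← sq_le_sq₀ (norm_nonneg _) (Real.exp_pos _).le, norm_ap_pw_sq pq, ← Real.exp_nat_mul]
    have hs2 : α * s ≤ 1 / 2 * (1 / 2) := by gcongr
    refine (hq A χ _ hχ (by rw [abs_of_pos (by positivity)]; linarith)).trans
      (Real.exp_le_exp.2 ?_)
    have l2 := (qf_lg_rq χ.1 A hε).2
    have l3 : ε * dim d A ≤ δ / 6 :=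
      (mul_le_mul_of_nonneg_left (dim_le_univ A) hε.le).trans ((le_div_iff₀ hD).1 hε2)
    have b1 := mul_le_mul_of_nonneg_left (l2.trans (add_le_add_right l3 _)) hs.le
    have b2 : s * (δ / 6) ≤ 1 / 2 * (δ / 6) := by gcongr
    have b3 : s * qf χ.1 (lg (rq χ.1 A ε)) ≤ g χ + δ / 6 := by nlinarith [hS χ]
    have b4 : C * α * s ^ 2 ≤ δ / 6 * (1 / 2) ^ 2 := by gcongr
    have b5 := mul_le_mul_of_nonneg_left b3 hα.le
    have b6 := mul_le_mul_of_nonneg_left b4 hα.le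
    have b7 : 0 < α * δ := by positivity
    push_cast
    nlinarith
  rw [pw, fr, ← cmp_fc (sy_W _ _ _ _ _) pa.1, qf_cv_cmp, ← fr, ← pw, e2, qf, ap_mul,
    inner_ap_right, pw_conjTranspose, ap_tp_tv]
  refine (Complex.re_le_norm _).trans ((norm_inner_le_norm _ _).trans ?_)
  rw [norm_tv]
  refine (mul_le_mul a1 (pow_le_pow_left₀ (norm_nonneg _) a2 k) (by positivity)
    (Real.exp_pos _).le).trans (le_of_eq ?_)
  rw [← Real.exp_nat_mul, ← Real.exp_add]
  congr 1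
  ring

theorem ev_up' (hs : 0 < s) (hs1 : s ≤ 1 / 2) (hδ : 0 < δ) :
    Ev fun ε k => ∀ (b : Bool) (A : Finset ι) (g : Sph (Cfg d) → ℝ), Continuous g →
      (∀ χ : Sph (Cfg d), s * SV χ.1 A ≤ g χ) →
      -lw d s ε k b A ≤ (k : ℝ) • Tr k g + (δ * k) • (1 : Ms k (Cfg d)) := by
  have hδ' : 0 < δ / 4 := by positivity
  filter_upwards [(ev_small one_pos 0).and (ev_le_W' (d := d) hs (by linarith) hδ')] with ε hE
  obtain ⟨-, ⟨hε, hε1, -⟩, -⟩ := hE.exists
  obtain ⟨C, hC, hq⟩ := qf_pw_rq_le (d := d) hε hε1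
  obtain ⟨α, hα, hα1, hα2⟩ : ∃ α : ℝ, 0 < α ∧ α ≤ 1 / 2 ∧ C * α ≤ δ / 4 :=
    ⟨min (1 / 2) (δ / 4 / (C + 1)), by positivity, min_le_left _ _, by
      have := (le_div_iff₀ (by positivity : 0 < C + 1)).1 (min_le_right (1 / 2) (δ / 4 / (C + 1)))
      have h0 : 0 ≤ min (1 / 2) (δ / 4 / (C + 1)) := by positivity
      nlinarith⟩
  filter_upwards [hE, dk_le_exp (n := Cfg d) (mul_pos hα (half_pos hδ))] with k ⟨_, h1⟩ h3 b A g
    hg hS
  have pa := W_posDef (d := d) hε hε1 s k b A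
  have hk : (0 : ℝ) ≤ k := Nat.cast_nonneg k
  have := lg_le_of_pw (cmp_posDef pa).inv hα hg (δ := δ / 2) (fun χ => ?_) h3
  · rwa [lg_inv (cmp_posDef pa), ← lw_eq hε hε1, mul_div_cancel₀ _ two_ne_zero] at this
  have hχ := norm_eq_of_mem_sphere χ
  have pq := rq_posDef χ.1 A hε
  have pr := fun t => tp_posDef k (pw_posDef pq t)
  have a1 := pw_mono pa.inv.posSemidef (inv_le_of_le (pr s) (tp_pw_neg_mul hε k χ.1 A s)
    (h1 b A χ hχ)) hα.le (by linarith)
  rw [pw_smul (pr _) (Real.exp_pos _), pw_tp k (pw_posDef pq _), pw_pw pq] at a1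
  have a2 : qf χ.1 (pw (rq χ.1 A ε) (α * -s)) ≤ Real.exp (α * (g χ + δ / 4)) := by
    have hs2 : α * s ≤ 1 / 2 * (1 / 2) := by gcongr
    refine (hq A χ _ hχ (by rw [mul_neg, abs_neg, abs_of_pos (by positivity)]; linarith)).trans
      (Real.exp_le_exp.2 ?_)
    have b1 := mul_le_mul_of_nonneg_left (qf_lg_rq χ.1 A hε).1 hs.le
    have b3 : -(s * qf χ.1 (lg (rq χ.1 A ε))) ≤ g χ := by nlinarith [hS χ]
    have b4 : C * α * s ^ 2 ≤ δ / 4 * (1 / 2) ^ 2 := by gcongr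
    have b5 := mul_le_mul_of_nonneg_left b3 hα.le
    have b6 := mul_le_mul_of_nonneg_left b4 hα.le
    have b7 : 0 < α * δ := by positivity
    nlinarith
  rw [← cmp_inv (sy_W _ _ _ _ _) pa, pw, fr, ← cmp_fc ((sy_W _ _ _ _ _).inv pa) pa.inv.1,
    qf_cv_cmp]
  refine (re_inner_ap_mono a1 _).trans ?_
  rw [← qf, qf_rsm, qf_tv_tp k (pw_isHermitian _ _), ← Real.exp_mul]
  refine (mul_le_mul_of_nonneg_left (pow_le_pow_left₀
    (re_inner_ap_nonneg (pw_posDef pq _).posSemidef _) a2 k) (Real.exp_pos _).le).trans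
    (le_of_eq ?_)
  rw [← Real.exp_nat_mul, ← Real.exp_add]
  congr 1
  ring

end I2

variable {ι : Type} [Fintype ι] [DecidableEq ι] {d : ι → Type} [∀ x, Fintype (d x)]
  [∀ x, DecidableEq (d x)] [∀ x, Nonempty (d x)]

variable {s δ : ℝ}

theorem ev_compl (hs : 0 < s) (hs1 : s ≤ 1 / 2) (hδ : 0 < δ) :
    Ev fun ε k => ∀ A : Finset ι, ee ((2 : ℝ) • lw d s ε k true A) ≤
      Real.exp (δ * k) • ee ((2 : ℝ) • lw d s ε k true Aᶜ) :=
  I2.ev_compl hs hs1 hδ

theorem ev_lo (hs : 0 < s) (hs1 : s ≤ 1 / 2) (hδ : 0 < δ) :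
    Ev fun ε k => ∀ (b : Bool) (A : Finset ι) (χ : Q.Vec (Cfg d)), ‖χ‖ = 1 →
      |qf (cv k χ) (lw d s ε k b A) + s * k * SV χ A| ≤ δ * k :=
  I2.ev_lo hs hs1 hδ

theorem ev_up (hs : 0 < s) (hs1 : s ≤ 1 / 2) (hδ : 0 < δ) :
    Ev fun ε k => ∀ (b : Bool) (A : Finset ι) (g : Sph (Cfg d) → ℝ), Continuous g →
      (∀ χ : Sph (Cfg d), -(s * SV χ.1 A) ≤ g χ) →
      lw d s ε k b A ≤ (k : ℝ) • Tr k g + (δ * k) • (1 : Ms k (Cfg d)) :=
  I2.ev_up hs hs1 hδ

theorem ev_up' (hs : 0 < s) (hs1 : s ≤ 1 / 2) (hδ : 0 < δ) :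
    Ev fun ε k => ∀ (b : Bool) (A : Finset ι) (g : Sph (Cfg d) → ℝ), Continuous g →
      (∀ χ : Sph (Cfg d), s * SV χ.1 A ≤ g χ) →
      -lw d s ε k b A ≤ (k : ℝ) • Tr k g + (δ * k) • (1 : Ms k (Cfg d)) :=
  I2.ev_up' hs hs1 hδ

end Crest.Agent.N336.R
end

-- ▼ part N336/R/Ineq
section

/-! # Row 336, replica package: the asymptotic inequalities

`ev_mono`, `ev_gain` are in `R/Ineq1`; `ev_compl`, `ev_lo`, `ev_up`, `ev_up'` in `R/Ineq2`. -/
end

-- ▼ part N336/R/Main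
section

/-! # Row 336, replica package: assembly -/

set_option autoImplicit false
set_option linter.unusedSectionVars false

open Matrix Finset MeasureTheory Filter
open scoped ComplexOrder MatrixOrder Matrix.Norms.L2Operator InnerProductSpace Topology

namespace Crest.Agent.N336.R

open Crest.Agent.N336.Q Crest.Agent.N336.Eng Crest.Agent.N336.C

namespace Mn

section gen

variable {n : Type} [Fintype n] [DecidableEq n]

lemma conj_add_le {V : Matrix n n ℂ} (hV : V.PosSemidef) (a b : Matrix n n ℂ) :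
    (a + b)ᴴ * V * (a + b) ≤ (2 : ℝ) • (aᴴ * V * a) + (2 : ℝ) • (bᴴ * V * b) := by
  rw [Matrix.le_iff]
  have : (2 : ℝ) • (aᴴ * V * a) + (2 : ℝ) • (bᴴ * V * b) - (a + b)ᴴ * V * (a + b) =
      (a - b)ᴴ * V * (a - b) := by
    simp only [two_smul, conjTranspose_add, conjTranspose_sub, Matrix.add_mul, Matrix.mul_add,
      Matrix.sub_mul, Matrix.mul_sub]
    abel
  rw [this]
  exact hV.conjTranspose_mul_mul_same _

lemma smul_one_mono {c c' : ℝ} (h : c ≤ c') :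
    c • (1 : Matrix n n ℂ) ≤ c' • (1 : Matrix n n ℂ) := by
  rw [Matrix.le_iff, ← sub_smul]; exact PosSemidef.one.smul (sub_nonneg.2 h)

lemma rsmul_mono {c : ℝ} (hc : 0 ≤ c) {A B : Matrix n n ℂ} (h : A ≤ B) : c • A ≤ c • B := by
  rw [Matrix.le_iff, ← smul_sub]; exact (Matrix.le_iff.1 h).smul hc

lemma conj_inv_le {V : Matrix n n ℂ} {t : ℝ} (ht : 0 < t) (h : t • (1 : Matrix n n ℂ) ≤ V)
    (b : Matrix n n ℂ) : bᴴ * V⁻¹ * b ≤ (t⁻¹ * ‖b‖ ^ 2) • (1 : Matrix n n ℂ) := by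
  have h1 := inv_anti (PosDef.one.smul ht) h
  have h2 : (t • (1 : Matrix n n ℂ))⁻¹ = t⁻¹ • (1 : Matrix n n ℂ) :=
    Matrix.inv_eq_left_inv (by rw [smul_mul_smul_comm, inv_mul_cancel₀ ht.ne', one_smul, mul_one])
  rw [h2] at h1
  refine (conj_mono h1 b).trans ?_
  rw [Matrix.mul_smul, Matrix.mul_one, Matrix.smul_mul, mul_smul]
  refine rsmul_mono (inv_nonneg.2 ht.le) ?_
  refine (le_norm_smul_one (isHermitian_conjTranspose_mul_self b)).trans (smul_one_mono ?_)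
  rw [l2_opNorm_conjTranspose_mul_self, sq]

variable [Nonempty n]

lemma Tr_lin (k : ℕ) {g : Sph n → ℝ} (hg : Continuous g) (a b : ℝ) :
    Tr k (fun χ => a * g χ + b) = a • Tr k g + b • (1 : Ms k n) := by
  have h1 : Continuous fun χ => (a : ℂ) * (g χ : ℂ) :=
    continuous_const.mul (Complex.continuous_ofReal.comp hg)
  have := Tc_add k h1 (continuous_const (y := (b : ℂ)))
  rw [Tc_smul, Tc_const, Complex.coe_smul, Complex.coe_smul] at this
  rw [← this, Tr]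
  simp only [Complex.ofReal_add, Complex.ofReal_mul]

/-- the defect bound from the symbol -/
lemma dfc_core (k : ℕ) {c : Sph n → ℂ} {h g : Sph n → ℝ} (hc : Continuous c) (hh : Continuous h)
    (hg : Continuous g) (h0 : ∀ χ, 0 ≤ h χ) (g0 : ∀ χ, 0 ≤ g χ)
    (H : ∀ χ, ‖c χ - h χ‖ ^ 2 ≤ g χ / 8 * (h χ + g χ / 8)) {δ : ℝ} (hδ : 0 < δ) {X : Ms k n}
    (hX : ‖X - Tc k c‖ ≤ δ / 6) :
    ∃ W : Ms k n, W.PosDef ∧ (X - W)ᴴ * W⁻¹ * (X - W) ≤ Tr k g + δ • (1 : Ms k n) := by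
  set v : Sph n → ℝ := fun χ => h χ + g χ / 8 + δ / 8 with hv
  have cv' : Continuous v := (hh.add (hg.div_const 8)).add continuous_const
  have vp : ∀ χ, 0 < v χ := fun χ => by
    have := h0 χ; have := g0 χ; simp only [hv]; positivity
  obtain ⟨hW, h1⟩ := Tc_defect k hc cv' vp
  refine ⟨Tr k v, hW, ?_⟩
  have h2 : (Tr k fun χ => ‖c χ - v χ‖ ^ 2 / v χ) ≤ Tr k fun χ => 1 / 2 * g χ + δ / 4 := by
    refine Tr_mono k (Continuous.div
      ((hc.sub (Complex.continuous_ofReal.comp cv')).norm.pow 2) cv' fun χ => (vp χ).ne')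
      ((continuous_const.mul hg).add continuous_const) fun χ => ?_
    rw [div_le_iff₀ (vp χ)]
    have e : c χ - v χ = (c χ - h χ) - ((g χ / 8 + δ / 8 : ℝ) : ℂ) := by
      simp only [hv]; push_cast; ring
    have a0 := h0 χ
    have a1 := g0 χ
    have a2 : ‖c χ - v χ‖ ≤ ‖c χ - h χ‖ + (g χ / 8 + δ / 8) := by
      rw [e]
      refine (norm_sub_le _ _).trans ?_
      rw [Complex.norm_real, Real.norm_of_nonneg (by positivity)]
    have a3 := H χ
    have a4 := pow_le_pow_left₀ (norm_nonneg _) a2 2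
    simp only [hv] at a4 ⊢
    nlinarith [sq_nonneg (‖c χ - h χ‖ - (g χ / 8 + δ / 8)), mul_nonneg a0 a1, mul_nonneg a0 hδ.le,
      mul_nonneg a1 hδ.le]
  rw [Tr_lin k hg] at h2
  have h3 : (δ / 8) • (1 : Ms k n) ≤ Tr k v := by
    have := Tr_mono k (f := fun χ => 0 * g χ + δ / 8) (by fun_prop) cv' fun χ => by
      have := h0 χ; have := g0 χ; simp only [hv]; linarith
    rwa [Tr_lin k hg, zero_smul, zero_add] at this
  have h4 := conj_inv_le (by positivity) h3 (X - Tc k c)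
  have h5 := conj_add_le hW.inv.posSemidef (Tc k c - Tr k v) (X - Tc k c)
  rw [show Tc k c - Tr k v + (X - Tc k c) = X - Tr k v by abel] at h5
  refine h5.trans ((add_le_add (rsmul_mono zero_le_two (h1.trans h2))
    (rsmul_mono zero_le_two h4)).trans ?_)
  rw [smul_add, smul_smul, smul_smul, smul_smul, add_assoc, ← add_smul]
  rw [show (2 : ℝ) * (1 / 2) = 1 by norm_num, one_smul]
  refine add_le_add le_rfl (smul_one_mono ?_)
  have a4 := pow_le_pow_left₀ (norm_nonneg _) hX 2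
  have : (δ / 8)⁻¹ * ‖X - Tc k c‖ ^ 2 ≤ δ / 4 := by
    rw [inv_mul_le_iff₀ (by positivity)]; nlinarith
  linarith

end gen

variable {ι : Type} [Fintype ι] [DecidableEq ι] {d : ι → Type} [∀ x, Fintype (d x)]
  [∀ x, DecidableEq (d x)] [∀ x, Nonempty (d x)]

/-- the one-body map -/
noncomputable def hhL (k : ℕ) (n : Type) [Fintype n] [DecidableEq n] :
    Matrix n n ℂ →ₗ[ℂ] Ms k n where
  toFun h := (k : ℂ)⁻¹ • cmp (dG k h)
  map_add' A B := by rw [dG_add, cmp_add, smul_add]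
  map_smul' c A := by rw [dG_smul, cmp_smul, smul_comm, RingHom.id_apply]

/-- the replica data -/
noncomputable def rp (d : ι → Type) [∀ x, Fintype (d x)] [∀ x, DecidableEq (d x)]
    [∀ x, Nonempty (d x)] (s ε : ℝ) (k : ℕ) : Rp d (Sym (Cfg d) k) :=
  ⟨k, lw d s ε k, hhL k (Cfg d), fun O => cmp (tp k O), cv k, TL k (Cfg d)⟩

lemma one_le_dim : (1 : ℝ) ≤ dim d univ := by exact_mod_cast dim_pos (d := d) univ

variable {s ε : ℝ} {k : ℕ}

lemma W_pd (hε : 0 < ε) (hε1 : ε ≤ 1) (b : Bool) (A : Finset ι) : (W d s ε k b A).PosDef :=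
  Wm_posDef _ _ _ _ (MM_pos one_le_dim hε hε1)

lemma sy_W (b : Bool) (A : Finset ι) : Sy (W d s ε k b A) := sy_Wm _ _ _ _ _

lemma sy_lgW (hε : 0 < ε) (hε1 : ε ≤ 1) (b : Bool) (A : Finset ι) : Sy (lg (W d s ε k b A)) :=
  (sy_W b A).fc (W_pd hε hε1 b A).1 _

lemma rp_alg (hε : 0 < ε) (hε1 : ε ≤ 1) (hk : 1 ≤ k) : (rp d s ε k).Alg where
  k_pos := hk
  herm _ _ := cmp_isHermitian (fr_isHermitian _ _)
  comm b b' A A' h := cmp_commute (sy_lgW hε hε1 b A) (sy_lgW hε hε1 b' A')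
    (commute_fc_fc (W_pd hε hε1 b A).1 (W_pd hε hε1 b' A').1
      (Wm_commute_Wf h k _ _ _ _ _ _ _).symm)
  comm_hh b A _ h hs hZ := (cmp_commute (sy_lgW hε hε1 b A) (sy_dG k h)
    (commute_fc_left _ (W_pd hε hε1 b A).1 (Wm_commute_dG hs hZ k _ _ _))).smul_right _
  comm_tp b A _ O hs hO hZ := cmp_commute (sy_lgW hε hε1 b A) (sy_tp k O)
    (commute_fc_left _ (W_pd hε hε1 b A).1 (Wm_commute_tp hs hO hZ k _ _ _))
  hh_pos _ h := (cmp_posSemidef (dG_posSemidef k h)).smul (by positivity)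
  hh_cv H Ω E h := by
    change ap ((k : ℂ)⁻¹ • cmp (dG k H)) (cv k Ω) = E • cv k Ω
    have : (k : ℂ) ≠ 0 := by exact_mod_cast (by omega : k ≠ 0)
    rw [ap_smul, ap_cmp_dG k h, smul_smul, inv_mul_cancel_left₀ this]
  tp_cv O χ := ap_cmp_tp k O χ
  tp_proj O h h' := ⟨cmp_isHermitian (tp_isHermitian k h), by
    change cmp (tp k O) * cmp (tp k O) = cmp (tp k O)
    rw [← cmp_mul _ (sy_tp k O), ← tp_mul, h']⟩
  cv_norm χ h := by
    change ‖cv k χ‖ = 1
    rw [norm_cv, h, one_pow]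
  cv_smul c χ := cv_smul k c χ
  T_one := Tc_one k
  T_mono f g h := Tr_mono k f.continuous g.continuous h

lemma ee_lw (hε : 0 < ε) (hε1 : ε ≤ 1) (b : Bool) (A : Finset ι) :
    ee (lw d s ε k b A) = cmp (W d s ε k b A) :=
  (cmp_fc (sy_lgW hε hε1 b A) (fr_isHermitian _ _) _).symm.trans
    (congrArg cmp (ee_lg (W_pd hε hε1 b A)))

lemma ee_neg_lw (hε : 0 < ε) (hε1 : ε ≤ 1) (b : Bool) (A : Finset ι) :
    ee (-lw d s ε k b A) = cmp (W d s ε k b A)⁻¹ := by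
  rw [cmp_inv (sy_W b A) (W_pd hε hε1 b A), ← ee_lw hε hε1]
  exact ee_neg (cmp_isHermitian (fr_isHermitian _ _))

lemma rp_X (hε : 0 < ε) (hε1 : ε ≤ 1) (A Y : Finset ι) (h : Q.Op d) :
    (rp d s ε k).X A Y h = cmp ((W d s ε k true A)⁻¹ * W d s ε k false Y * ((k : ℂ)⁻¹ • dG k h) *
      (W d s ε k false Y)⁻¹ * W d s ε k true A) := by
  rw [cmp_mul _ (sy_W true A), cmp_mul _ ((sy_W false Y).inv (W_pd hε hε1 false Y)),
    cmp_mul _ ((sy_dG k h).smul _), cmp_mul _ (sy_W false Y), cmp_smul]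
  change ee (-lw d s ε k true A) * ee (lw d s ε k false Y) * ((k : ℂ)⁻¹ • cmp (dG k h)) *
    ee (-lw d s ε k false Y) * ee (lw d s ε k true A) = _
  rw [ee_lw hε hε1, ee_lw hε hε1, ee_neg_lw hε hε1, ee_neg_lw hε hε1]

lemma sym_eq {P Y A : Finset ι} (hd : Disjoint Y P) (hA : A = P ∨ A = Pᶜ) (χ : Q.Vec (Cfg d))
    (s ε ε' : ℝ) (h : Q.Op d) :
    ⟪χ, ap (pw (rq χ A ε) (-s) * pw (rq χ Y ε') s * h * pw (rq χ Y ε') (-s) *
      pw (rq χ A ε) s) χ⟫_ℂ = sym χ P Y s ε ε' h := by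
  have hc : ∀ t t' : ℝ, Commute (pw (rq χ Y ε') t) (pw (rq χ P ε) t') := fun t t' =>
    commute_fc_fc (rq_isHermitian _ _ _) (rq_isHermitian _ _ _)
      ((supp_rq _ _ _).commute (supp_rq _ _ _) hd)
  have h1 : ⟪χ, ap (pw (rq χ P ε) (-s) * pw (rq χ Y ε') s * h * pw (rq χ Y ε') (-s) *
      pw (rq χ P ε) s) χ⟫_ℂ = sym χ P Y s ε ε' h := by
    rw [sym, (hc _ _).eq, Matrix.mul_assoc _ (pw (rq χ Y ε') (-s)), (hc _ _).eq,
      ← Matrix.mul_assoc]
  rcases hA with rfl | rfl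
  · exact h1
  · rw [← h1]
    simp only [Matrix.mul_assoc]
    rw [ap_mul, inner_ap_right, ap_mul (pw (rq χ P ε) (-s)), inner_ap_right (pw (rq χ P ε) (-s)),
      pw_conjTranspose, pw_conjTranspose]
    simp only [ap_mul]
    rw [ap_fc_rq_compl _ P χ ε, ap_fc_rq_compl _ P χ ε]

lemma adm_Ls (A : Finset ι) (hs : 0 < s) (hs1 : s ≤ 1) (hε : 0 < ε) (hε1 : ε ≤ 1) (b : Bool)
    (χ : Q.Vec (Cfg d)) (hχ : ‖χ‖ = 1) :
    Adm A (MM (dim d univ) ε) (Ls A s (eb (dim d univ) ε b) χ) := by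
  have h := div_le_self hε.le (one_le_dim (d := d))
  refine (adm_reg A hs hs1 hε hε1 (dens_pj hχ) (e := eb (dim d univ) ε b) ?_ ?_ le_rfl hε.le).1
  all_goals cases b <;> simp [eb, h]

lemma ev_of {p : ℝ → ℕ → Prop} (h : ∀ ε, 0 < ε → ε ≤ 1 → ∀ᶠ k in atTop, p ε k) : Ev p :=
  Filter.mem_of_superset (Ioc_mem_nhdsGT (zero_lt_one' ℝ)) fun ε hε => h ε hε.1 hε.2

/-- the conjugated term has the symbol `sym` -/
lemma hasSym_rp {P Y A : Finset ι} (hd : Disjoint Y P) (hA : A = P ∨ A = Pᶜ) (hs : 0 < s)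
    (hs1 : s ≤ 1) (hε : 0 < ε) (hε1 : ε ≤ 1) (h : Q.Op d) :
    HasSym (fun k => (rp d s ε k).X A Y h) fun χ => sym χ.1 P Y s ε (ε / dim d univ) h := by
  have hA' : Y ⊆ A ∨ Disjoint Y A := by
    rcases hA with rfl | rfl
    · exact Or.inr hd
    · exact Or.inl (subset_compl_iff_disjoint_right.2 hd)
  exact (hasSym_X hA' hs hε (div_pos hε (dim_pos_real univ)) (MM_pos one_le_dim hε hε1)
    (adm_Ls A hs hs1 hε hε1 true) (adm_Ls Y hs hs1 hε hε1 false) h).congr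
    (Eventually.of_forall fun k => (rp_X hε hε1 A Y h).symm) fun χ => sym_eq hd hA _ _ _ _ _

lemma rpow_aux {x y l : ℝ} {a a' : ℕ} (ha : 1 ≤ a) (haa : a ≤ a') (hx : 0 ≤ x) (hxy : x ≤ y)
    (hl : 1 ≤ l) (hxl : x ≤ 3 * l) : x ^ ((1 : ℝ) / a) ≤ 3 * l * y ^ ((1 : ℝ) / a') := by
  have a0 : (1 : ℝ) ≤ a := by exact_mod_cast ha
  have a1 : (a : ℝ) ≤ a' := by exact_mod_cast haa
  have p0 : 0 ≤ (1 : ℝ) / a' := by positivity
  have h1 : x ^ ((1 : ℝ) / a') ≤ y ^ ((1 : ℝ) / a') := Real.rpow_le_rpow hx hxy p0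
  rcases le_total x 1 with h | h
  · have h2 : x ^ ((1 : ℝ) / a) ≤ x ^ ((1 : ℝ) / a') :=
      Real.rpow_le_rpow_of_exponent_ge' hx h p0 (one_div_le_one_div_of_le (by linarith) a1)
    have h3 : 0 ≤ y ^ ((1 : ℝ) / a') := Real.rpow_nonneg (hx.trans hxy) _
    nlinarith
  · have h2 : x ^ ((1 : ℝ) / a) ≤ x := by
      conv_rhs => rw [← Real.rpow_one x]
      exact Real.rpow_le_rpow_of_exponent_le h ((div_le_one (by linarith)).2 a0)
    have h3 : 1 ≤ y ^ ((1 : ℝ) / a') := Real.one_le_rpow (h.trans hxy) p0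
    nlinarith

theorem rep0 (hK : KStmt) (hG : GStmt) : RepStmt := by
  obtain ⟨aK, CK, haK, hCK, hK⟩ := hK
  obtain ⟨aG, CG, haG, hCG, hG⟩ := hG
  refine ⟨aK + aG, 24 * CK + CG + 2, by omega, by linarith, ?_⟩
  intro ι _ _ d _ _ _ V _ h Z J l s δ hh hJ hl hs hC hδ
  have l0 : 0 ≤ l := by linarith
  have lK : l ^ aK * l ≤ l ^ (aK + aG) := by
    rw [← pow_succ]; exact pow_le_pow_right₀ hl (by omega)
  have lK' : l ^ aK ≤ l ^ (aK + aG) := pow_le_pow_right₀ hl (by omega)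
  have lG : l ^ aG ≤ l ^ (aK + aG) := pow_le_pow_right₀ hl (by omega)
  have l1 : 1 ≤ l ^ (aK + aG) := one_le_pow₀ hl
  have q0 : 0 ≤ l ^ (aK + aG) * s := by positivity
  have hs2 : s ≤ 1 / 2 := by nlinarith
  have hs1 : s ≤ 1 := by linarith
  have cK : CK * l ^ aK * s ≤ 1 := by
    have : CK * l ^ aK * s ≤ CK * l ^ (aK + aG) * s := by gcongr
    nlinarith
  have cG : CG * l ^ aG * s ≤ 1 := by
    have : CG * l ^ aG * s ≤ CG * l ^ (aK + aG) * s := by gcongr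
    nlinarith
  have hD := dim_pos_real (d := d) univ
  have hD1 := one_le_dim (d := d)
  have e1 : Ev fun ε k => ∀ q : V × Finset ι × Finset ι × Finset ι, Disjoint q.2.2.1 q.2.1 →
      q.2.2.2 = q.2.1 ∨ q.2.2.2 = q.2.1ᶜ → ‖(rp d s ε k).X q.2.2.2 q.2.2.1 (h q.1) -
        Tc k fun χ => sym χ.1 q.2.1 q.2.2.1 s ε (ε / dim d univ) (h q.1)‖ ≤ δ / 6 :=
    Ev.all fun q => ev_of fun ε hε hε1 => by
      by_cases h1 : Disjoint q.2.2.1 q.2.1 ∧ (q.2.2.2 = q.2.1 ∨ q.2.2.2 = q.2.1ᶜ)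
      · exact ((hasSym_rp h1.1 h1.2 hs hs1 hε hε1 (h q.1)).lim.eventually
          (ge_mem_nhds (by positivity : (0 : ℝ) < δ / 6))).mono fun k hk _ _ => hk
      · exact Eventually.of_forall fun k h2 h3 => (h1 ⟨h2, h3⟩).elim
  have e2 : Ev fun _ k => (dk k (Cfg d) : ℝ) ≤ Real.exp (δ * k) ∧
      ‖(k : ℂ)⁻¹ • cmp (dG k (∑ v, h v)) - Tc k fun χ => ⟪χ.1, ap (∑ v, h v) χ.1⟫_ℂ‖ ≤ δ :=
    ev_of fun ε _ _ => (dk_le_exp hδ).and ((hasSym_dG _).lim.eventually (ge_mem_nhds hδ))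
  obtain ⟨ε, k, ⟨hε, hεc, hk⟩, e1, ⟨e2, e3⟩, m1, m2, m3, m4, m5, m6⟩ :=
    ((ev_small (c := min δ 1 / (2 * dim d univ)) (by positivity) 1).and (e1.and (e2.and
      ((ev_mono (d := d) hs hs2 hδ).and ((ev_compl (d := d) hs hs2 hδ).and
      ((ev_gain (d := d) hs hs2 hδ).and ((ev_lo (d := d) hs hs2 hδ).and
      ((ev_up (d := d) hs hs2 hδ).and (ev_up' (d := d) hs hs2 hδ))))))))).exists
  rw [le_div_iff₀ (by positivity)] at hεc
  have c1 : 2 * ε * dim d univ ≤ δ := by linarith [min_le_left δ 1]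
  have c2 : 2 * ε * dim d univ ≤ 1 := by linarith [min_le_right δ 1]
  have c0 : 0 ≤ ε * dim d univ := by positivity
  have c3 : ε * dim d univ ≤ 1 := by linarith
  have hε1 : ε ≤ 1 := by nlinarith
  refine ⟨Sym (Cfg d) k, inferInstance, inferInstance, rp d s ε k, rp_alg hε hε1 hk,
    ⟨fun M g hM H => ?_, m1, m2, fun P y Y h1 h2 h3 hy χ hχ => ?_,
      fun v P y Y A h1 h2 h3 h4 h5 hA hv hZ g H => ?_, fun b A g H => m5 b A g g.continuous H,
      fun b A g H => m6 b A g g.continuous H, m4, fun g H => ?_⟩⟩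
  · have b1 := bl hM (g := fun χ => k * g χ + 0) (by fun_prop) fun χ => by
      rw [add_zero]; exact H χ
    rw [Tr_lin k g.continuous, zero_smul, add_zero] at b1
    refine b1.trans (add_le_add le_rfl (smul_one_mono ?_))
    exact (Real.log_le_iff_le_exp (by exact_mod_cast dk_pos k)).2 e2
  · refine (m3 P y Y χ _ h1 h2 h3 hχ fun ω ω' w1 w2 w3 w4 =>
      hG ι d P y Y ω ω' χ l s ε h1 h2 h3 w1 w2 w3 w4 hl hy hs cG hχ hε c3).trans ?_
    have b1 : s ^ (1 + (1 : ℝ) / aG) ≤ s ^ (1 + (1 : ℝ) / (aK + aG : ℕ)) :=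
      Real.rpow_le_rpow_of_exponent_ge hs hs1 (add_le_add le_rfl (one_div_le_one_div_of_le
        (by exact_mod_cast haG) (by exact_mod_cast Nat.le_add_left _ _)))
    change _ ≤ Real.exp (k * _)
    gcongr
    linarith
  · have hd : Disjoint (Y ∪ y) P := disjoint_union_left.2 ⟨h2.symm, h1.symm⟩
    have key : ∀ χ : Sph (Cfg d), ∃ e : ℝ, 0 ≤ e ∧ e ≤ g χ / 8 ∧
        ‖sym χ.1 P (Y ∪ y) s ε (ε / dim d univ) (h v) - (qf χ.1 (h v) : ℂ)‖ ^ 2 ≤
          e * (qf χ.1 (h v) + e) := fun χ => by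
      have hχ : ‖χ.1‖ = 1 := norm_eq_of_mem_sphere χ
      have n0 := C.eta_nonneg χ.1 h1 h2 h3
      have n1 := C.eta_le hχ P y Y
      have n2 := log_dim_mono (d := d) h4
      refine ⟨_, by positivity, ?_, hK ι d P y Y (Z v) (h v) χ.1 J l s ε (ε / dim d univ) h1 h2 h3
        h4 h5 (hh v).2 (hh v).1 hv hl hZ hs cK hχ (by positivity)
        (div_mul_cancel₀ _ hD.ne').le c3⟩
      have r1 := rpow_aux (x := eta χ.1 P y Y + 2 * ε * dim d univ) (y := eta χ.1 P y Y + δ)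
        haK (Nat.le_add_right aK aG) (by positivity) (by linarith) hl (by linarith)
      have r0 : 0 ≤ (eta χ.1 P y Y + δ) ^ ((1 : ℝ) / (aK + aG : ℕ)) := by positivity
      have r2 := H χ
      set u := (eta χ.1 P y Y + δ) ^ ((1 : ℝ) / (aK + aG : ℕ))
      calc _ ≤ CK * J * s ^ 2 * l ^ aK * (3 * l * u) := by gcongr
        _ = 24 * CK * J * s ^ 2 * (l ^ aK * l) * u / 8 := by ring
        _ ≤ (24 * CK + CG + 2) * J * s ^ 2 * l ^ (aK + aG) * u / 8 := by gcongr; linarith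
        _ ≤ g χ / 8 := by gcongr
    have q0 : ∀ χ : Sph (Cfg d), 0 ≤ qf χ.1 (h v) := fun χ => re_inner_ap_nonneg (hh v).1 _
    refine dfc_core k (hasSym_rp hd hA hs hs1 hε hε1 (h v)).cont
      (h := fun χ => qf χ.1 (h v)) (by fun_prop) g.continuous q0 (fun χ => ?_) (fun χ => ?_) hδ
      (e1 (v, P, Y ∪ y, A) hd hA)
    · obtain ⟨e, r0, r1, -⟩ := key χ
      linarith
    · obtain ⟨e, r0, r1, r2⟩ := key χ
      have := q0 χ
      refine r2.trans ?_
      gcongr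
      linarith
  · have hH : (∑ v, h v).PosSemidef := posSemidef_sum _ fun v _ => (hh v).1
    have b1 : (Tc k fun χ => ⟪χ.1, ap (∑ v, h v) χ.1⟫_ℂ) = Tr k fun χ => qf χ.1 (∑ v, h v) :=
      congrArg (Tc k) (funext fun χ => Complex.ext rfl (im_inner_ap hH.1 _))
    rw [b1, norm_sub_rev] at e3
    have b2 := (le_norm_smul_one ((Tr_isHermitian k _).sub
      ((rp_alg (s := s) hε hε1 hk).hh_pos _ hH).1)).trans (smul_one_mono e3)
    exact (Tr_mono k g.continuous (by fun_prop) H).trans (sub_le_iff_le_add'.1 b2)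

end Mn

theorem rep (hK : KStmt) (hG : GStmt) : RepStmt := Mn.rep0 hK hG

end Crest.Agent.N336.R
end

-- ▼ part N336/C/CombA
section

/-!
# Row 336, CORE: combinatorics of the scanner, part A (averages, geometry of crossings)
-/

set_option autoImplicit false
set_option linter.unusedSectionVars false

open Finset

namespace Crest.Agent.N336.C

open Crest.Agent.N336.Eng

namespace Cb

section avg

variable {Cf X : Type} [Fintype X] [Nonempty X]

lemma card_pos' : (0 : ℝ) < Fintype.card X := by exact_mod_cast Fintype.card_pos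

/-- comparison of iterated averages on an invariant family of configurations -/
lemma iter_le (mv : Cf → X → Cf) (Inv : Cf → Prop) (hI : ∀ c x, Inv c → Inv (mv c x))
    (f g h : Cf → ℝ) (α β : ℝ) (H : ∀ c, Inv c → f c ≤ α * g c + β * h c) (i : ℕ) :
    ∀ c, Inv c → (avg mv)^[i] f c ≤ α * (avg mv)^[i] g c + β * (avg mv)^[i] h c := by
  induction i with
  | zero => simpa using H
  | succ i ih =>
    intro c hc
    simp only [Function.iterate_succ_apply']
    have hs : ∑ x, (avg mv)^[i] f (mv c x) ≤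
        α * ∑ x, (avg mv)^[i] g (mv c x) + β * ∑ x, (avg mv)^[i] h (mv c x) := by
      rw [Finset.mul_sum, Finset.mul_sum, ← Finset.sum_add_distrib]
      exact Finset.sum_le_sum fun x _ => ih _ (hI c x hc)
    have hN := card_pos' (X := X)
    show (∑ x, (avg mv)^[i] f (mv c x)) / Fintype.card X ≤
      α * ((∑ x, (avg mv)^[i] g (mv c x)) / Fintype.card X) +
        β * ((∑ x, (avg mv)^[i] h (mv c x)) / Fintype.card X)
    rw [← mul_div_assoc, ← mul_div_assoc, ← add_div]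
    exact div_le_div_of_nonneg_right hs hN.le

lemma iter_const (mv : Cf → X → Cf) (k : ℝ) (i : ℕ) :
    ∀ c, (avg mv)^[i] (fun _ => k) c = k := by
  induction i with
  | zero => simp
  | succ i ih =>
    intro c
    rw [Function.iterate_succ_apply']
    show (∑ x, (avg mv)^[i] (fun _ => k) (mv c x)) / Fintype.card X = k
    have hN := card_pos' (X := X)
    simp only [ih, Finset.sum_const, Finset.card_univ, nsmul_eq_mul]
    field_simp

lemma iter_le_const (mv : Cf → X → Cf) (Inv : Cf → Prop) (hI : ∀ c x, Inv c → Inv (mv c x))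
    (f : Cf → ℝ) (k : ℝ) (H : ∀ c, Inv c → f c ≤ k) (i : ℕ) (c : Cf) (hc : Inv c) :
    (avg mv)^[i] f c ≤ k := by
  have := iter_le mv Inv hI f (fun _ => k) (fun _ => k) 1 0 (by simpa using H) i c hc
  simpa [iter_const] using this

lemma iter_nonneg (mv : Cf → X → Cf) (f : Cf → ℝ) (H : ∀ c, 0 ≤ f c) (i : ℕ) (c : Cf) :
    0 ≤ (avg mv)^[i] f c := by
  have := iter_le mv (fun _ => True) (fun _ _ _ => trivial) (fun _ => 0) f f 1 0
    (by simpa using H) i c trivial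
  simpa [iter_const] using this

/-- telescoping: a function paid for by the decrease of a potential in `[0,1]` -/
lemma sum_iter_le (mv : Cf → X → Cf) (Inv : Cf → Prop) (hI : ∀ c x, Inv c → Inv (mv c x))
    (f D : Cf → ℝ) (N : ℝ) (hN : 0 ≤ N) (h0 : ∀ c, 0 ≤ D c) (h1 : ∀ c, D c ≤ 1)
    (H : ∀ c, Inv c → f c ≤ N * D c + (-N) * avg mv D c) (T t : ℕ) (c : Cf) (hc : Inv c) :
    ∑ o ∈ range T, (avg mv)^[o + t] f c ≤ N := by
  have key : ∀ T, ∑ o ∈ range T, (avg mv)^[o + t] f c ≤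
      N * ((avg mv)^[t] D c - (avg mv)^[T + t] D c) := by
    intro T
    induction T with
    | zero => simp
    | succ T ih =>
      rw [Finset.sum_range_succ]
      have := iter_le mv Inv hI f D (avg mv D) N (-N) H (T + t) c hc
      rw [← Function.iterate_succ_apply] at this
      have e : T + 1 + t = (T + t).succ := by omega
      rw [e]
      linarith
  have a1 := iter_le_const mv Inv hI D 1 (fun c _ => h1 c) t c hc
  have a2 := iter_nonneg mv D h0 (T + t) c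
  refine (key T).trans ?_
  nlinarith

/-- geometric growth of a potential -/
lemma iter_le_pow (mv : Cf → X → Cf) (Inv : Cf → Prop) (hI : ∀ c x, Inv c → Inv (mv c x))
    (Ψ : Cf → ℝ) (κ : ℝ) (hκ : 0 ≤ κ) (H : ∀ c, Inv c → avg mv Ψ c ≤ κ * Ψ c) (i : ℕ) :
    ∀ c, Inv c → (avg mv)^[i] Ψ c ≤ κ ^ i * Ψ c := by
  induction i with
  | zero => simp
  | succ i ih =>
    intro c hc
    rw [Function.iterate_succ_apply]
    have := iter_le mv Inv hI (avg mv Ψ) Ψ Ψ κ 0 (by simpa using H) i c hc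
    have h2 := mul_le_mul_of_nonneg_left (ih c hc) hκ
    rw [pow_succ]
    nlinarith

end avg

section geo

variable {ι V : Type} [Fintype ι] [DecidableEq ι] [Fintype V] {K w r b₁ b₂ N₀ Na : ℕ}
  (S : Scn ι V K w r b₁ b₂ N₀ Na)

lemma mem_sl (k : ℤ) (x : ι) : x ∈ S.sl k ↔ S.lv x ≤ k := by simp [Scn.sl]

lemma ini1 (g : Fin K) (x : ι) : x ∈ (S.ini g).1 ↔ S.lv x ≤ S.a g := mem_sl S _ x
lemma ini2 (g : Fin K) (x : ι) : x ∈ (S.ini g).2 ↔ S.lv x ≤ S.b g := mem_sl S _ x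
lemma fin1 (g : Fin K) (x : ι) : x ∈ (S.fin g).1 ↔ S.lv x ≤ S.a g + w := mem_sl S _ x
lemma fin2 (g : Fin K) (x : ι) : x ∈ (S.fin g).2 ↔ S.lv x ≤ S.b g - w := mem_sl S _ x

variable {S}

lemma ok1 {c : Cnf ι K} (h : S.Ok c) {g : Fin K} {x : ι} (hx : S.lv x ≤ S.a g) : x ∈ (c g).1 :=
  (h g).1 ((ini1 S g x).2 hx)
lemma ok2 {c : Cnf ι K} (h : S.Ok c) {g : Fin K} {x : ι} (hx : x ∈ (c g).1) :
    S.lv x ≤ S.a g + w := (fin1 S g x).1 ((h g).2.1 hx)
lemma ok3 {c : Cnf ι K} (h : S.Ok c) {g : Fin K} {x : ι} (hx : S.lv x ≤ S.b g - w) :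
    x ∈ (c g).2 := (h g).2.2.1 ((fin2 S g x).2 hx)
lemma ok4 {c : Cnf ι K} (h : S.Ok c) {g : Fin K} {x : ι} (hx : x ∈ (c g).2) :
    S.lv x ≤ S.b g := (ini2 S g x).1 ((h g).2.2.2 hx)

lemma crs_iff {Z A : Finset ι} : Crs Z A ↔ (∃ x ∈ Z, x ∉ A) ∧ ∃ x ∈ Z, x ∈ A := by
  unfold Crs
  rw [Finset.not_subset, Finset.not_disjoint_iff]

lemma ok_ini : S.Ok S.ini := by
  intro g
  refine ⟨subset_rfl, fun x hx => ?_, fun x hx => ?_, subset_rfl⟩
  · rw [ini1] at hx; rw [fin1]; omega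
  · rw [fin2] at hx; rw [ini2]; omega

lemma ok_fin : S.Ok S.fin := by
  intro g
  refine ⟨fun x hx => ?_, subset_rfl, subset_rfl, fun x hx => ?_⟩
  · rw [ini1] at hx; rw [fin1]; omega
  · rw [fin2] at hx; rw [ini2]; omega

lemma mv1_sup (c : Cnf ι K) (v : V) (g : Fin K) : (c g).1 ⊆ (S.mv c v g).1 := by
  unfold Scn.mv
  dsimp only
  split_ifs
  · exact Finset.subset_union_left
  · exact subset_rfl

lemma mv2_sub (c : Cnf ι K) (v : V) (g : Fin K) : (S.mv c v g).2 ⊆ (c g).2 := by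
  unfold Scn.mv
  dsimp only
  split_ifs
  · exact Finset.sdiff_subset
  · exact subset_rfl

lemma ok_mv (c : Cnf ι K) (v : V) (h : S.Ok c) : S.Ok (S.mv c v) := by
  intro g
  refine ⟨(h g).1.trans (mv1_sup c v g), ?_, ?_, (mv2_sub c v g).trans (h g).2.2.2⟩
  · unfold Scn.mv
    dsimp only
    split_ifs with h1
    · exact Finset.union_subset (h g).2.1 h1.2
    · exact (h g).2.1
  · unfold Scn.mv
    dsimp only
    split_ifs with h1
    · exact Finset.subset_sdiff.2 ⟨(h g).2.2.1, h1.2.symm⟩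
    · exact (h g).2.2.1

lemma ok_sub {c : Cnf ι K} (h : S.Ok c) (g : Fin K) : (c g).1 ⊆ (c g).2 := by
  intro x hx
  have := ok2 h hx
  have := S.sep g
  exact ok3 h (by omega)

lemma ok_sub' {c : Cnf ι K} (h : S.Ok c) {g g' : Fin K} (hg : g < g') : (c g).2 ⊆ (c g').1 := by
  intro x hx
  have := ok4 h hx
  have := S.sep' g g' hg
  exact ok1 h (by omega)

lemma ok_disj {c : Cnf ι K} (h : S.Ok c) (g : Fin K) : Disjoint (c g).2 S.A₁ := by
  rw [Finset.disjoint_left]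
  intro x hx hA
  have := ok4 h hx
  have := S.top x hA g
  omega

lemma near_of_cr {c : Cnf ι K} (h : S.Ok c) {v : V} (hc : S.cr c v) : v ∈ S.near := by
  by_contra hn
  obtain ⟨g, hg | hg⟩ := hc
  · obtain ⟨x, hx, hx'⟩ := (crs_iff.1 hg).2
    have := ok4 h (ok_sub h g hx')
    have := S.far v hn x hx g
    omega
  · obtain ⟨x, hx, hx'⟩ := (crs_iff.1 hg).2
    have := ok4 h hx'
    have := S.far v hn x hx g
    omega

/-- levels of a term crossing the front `P g` -/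
lemma lvP {c : Cnf ι K} (h : S.Ok c) {v : V} (hn : v ∈ S.near) {g : Fin K}
    (hc : Crs (S.Z v) (c g).1) :
    (∃ x ∈ S.Z v, S.a g < S.lv x) ∧ (∃ x ∈ S.Z v, S.lv x ≤ S.a g + w) ∧
      ∀ y ∈ S.Z v, S.a g - r < S.lv y ∧ S.lv y ≤ S.a g + w + r := by
  obtain ⟨⟨x1, h1, h1'⟩, ⟨x0, h0, h0'⟩⟩ := crs_iff.1 hc
  have a1 : S.a g < S.lv x1 := by
    by_contra hh
    exact h1' (ok1 h (by omega))
  have a0 := ok2 h h0'
  refine ⟨⟨x1, h1, a1⟩, ⟨x0, h0, a0⟩, fun y hy => ?_⟩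
  have := S.spread v hn x1 h1 y hy
  have := S.spread v hn y hy x0 h0
  omega

/-- levels of a term crossing the front `R g` -/
lemma lvR {c : Cnf ι K} (h : S.Ok c) {v : V} (hn : v ∈ S.near) {g : Fin K}
    (hc : Crs (S.Z v) (c g).2) :
    (∃ x ∈ S.Z v, S.b g - w < S.lv x) ∧ (∃ x ∈ S.Z v, S.lv x ≤ S.b g) ∧
      ∀ y ∈ S.Z v, S.b g - w - r < S.lv y ∧ S.lv y ≤ S.b g + r := by
  obtain ⟨⟨x1, h1, h1'⟩, ⟨x0, h0, h0'⟩⟩ := crs_iff.1 hc
  have a1 : S.b g - w < S.lv x1 := by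
    by_contra hh
    exact h1' (ok3 h (by omega))
  have a0 := ok4 h h0'
  refine ⟨⟨x1, h1, a1⟩, ⟨x0, h0, a0⟩, fun y hy => ?_⟩
  have := S.spread v hn x1 h1 y hy
  have := S.spread v hn y hy x0 h0
  omega

lemma mv_of_not {c : Cnf ι K} {v : V} {g : Fin K} (h1 : ¬ Crs (S.Z v) (c g).1)
    (h2 : ¬ Crs (S.Z v) (c g).2) : S.mv c v g = c g := by
  unfold Scn.mv
  rw [if_neg (fun hh => h1 hh.1), if_neg (fun hh => h2 hh.1)]

lemma mv_other {c : Cnf ι K} (h : S.Ok c) {v : V} {g : Fin K}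
    (hlt : ∀ g', g' < g → Disjoint (S.Z v) (c g').2) (hgt : ∀ g', g < g' → S.Z v ⊆ (c g').1)
    {g' : Fin K} (hne : g' ≠ g) : S.mv c v g' = c g' := by
  rcases lt_or_gt_of_ne hne with hl | hl
  · exact mv_of_not (fun hh => hh.2 ((hlt g' hl).mono_right (ok_sub h g')))
      (fun hh => hh.2 (hlt g' hl))
  · exact mv_of_not (fun hh => hh.1 (hgt g' hl))
      (fun hh => hh.1 ((hgt g' hl).trans (ok_sub h g')))

/-- the two kinds of witnesses of activity, in levels -/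
lemma act_lv {v : V} (ha : S.act v) : ∃ g,
    ((∀ y ∈ S.Z v, S.lv y ≤ S.a g + w) ∧ ∃ y ∈ S.Z v, S.a g < S.lv y) ∨
    ((∀ y ∈ S.Z v, S.b g - w < S.lv y) ∧ ∃ y ∈ S.Z v, S.lv y ≤ S.b g) := by
  obtain ⟨-, g, hg | hg⟩ := ha
  · refine ⟨g, Or.inl ⟨fun y hy => (fin1 S g y).1 (hg.1 hy), ?_⟩⟩
    obtain ⟨y, hy, hy'⟩ := Finset.not_subset.1 hg.2
    rw [ini1] at hy'
    exact ⟨y, hy, by omega⟩
  · refine ⟨g, Or.inr ⟨fun y hy => ?_, ?_⟩⟩
    · have := Finset.disjoint_left.1 hg.1 hy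
      rw [fin2] at this
      omega
    · obtain ⟨y, hy, hy'⟩ := Finset.not_disjoint_iff.1 hg.2
      exact ⟨y, hy, (ini2 S g y).1 hy'⟩

lemma actP {c : Cnf ι K} (h : S.Ok c) {v : V} {g : Fin K} (hc : Crs (S.Z v) (c g).1)
    (ha : S.act v) : S.Z v ⊆ (S.fin g).1 := by
  obtain ⟨⟨x1, h1, a1⟩, ⟨x0, h0, a0⟩, hall⟩ := lvP h ha.1 hc
  obtain ⟨g0, ⟨hA, y, hy, hy'⟩ | ⟨hA, y, hy, hy'⟩⟩ := act_lv ha
  · rcases lt_trichotomy g0 g with hl | rfl | hl
    · have := S.sep' _ _ hl; have := S.sep g0; have := hA x1 h1; omega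
    · exact fun z hz => (fin1 S _ z).2 (hA z hz)
    · have := S.sep' _ _ hl; have := S.sep g; have := hall y hy; omega
  · rcases lt_trichotomy g0 g with hl | rfl | hl
    · have := S.sep' _ _ hl; have := hall y hy; omega
    · have := S.sep g0; have := hA x0 h0; omega
    · have := S.sep' _ _ hl; have := S.sep g; have := S.sep g0; have := hA x0 h0; omega

lemma actR {c : Cnf ι K} (h : S.Ok c) {v : V} {g : Fin K} (hc : Crs (S.Z v) (c g).2)
    (ha : S.act v) : Disjoint (S.Z v) (S.fin g).2 := by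
  obtain ⟨⟨x1, h1, a1⟩, ⟨x0, h0, a0⟩, hall⟩ := lvR h ha.1 hc
  obtain ⟨g0, ⟨hA, y, hy, hy'⟩ | ⟨hA, y, hy, hy'⟩⟩ := act_lv ha
  · rcases lt_trichotomy g0 g with hl | rfl | hl
    · have := S.sep' _ _ hl; have := S.sep g0; have := S.sep g; have := hA x1 h1; omega
    · have := S.sep g0; have := hA x1 h1; omega
    · have := S.sep' _ _ hl; have := hall y hy; omega
  · rcases lt_trichotomy g0 g with hl | rfl | hl
    · have := S.sep' _ _ hl; have := S.sep g; have := hall y hy; omega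
    · rw [Finset.disjoint_left]
      intro z hz hz'
      rw [fin2] at hz'
      have := hA z hz
      omega
    · have := S.sep' _ _ hl; have := S.sep g0; have := hA x0 h0; omega

lemma crP {c : Cnf ι K} (h : S.Ok c) {v : V} (hn : v ∈ S.near) {g : Fin K}
    (hc : Crs (S.Z v) (c g).1) : S.CrP c v g := by
  obtain ⟨-, -, hall⟩ := lvP h hn hc
  have hsub : S.Z v ⊆ (c g).2 := fun y hy => by
    have := hall y hy; have := S.sep g; exact ok3 h (by omega)
  have hlt : ∀ g', g' < g → Disjoint (S.Z v) (c g').2 := fun g' hg => by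
    rw [Finset.disjoint_left]
    intro y hy hy'
    have := hall y hy; have := ok4 h hy'; have := S.sep' _ _ hg; omega
  have hgt : ∀ g', g < g' → S.Z v ⊆ (c g').1 := fun g' hg => hsub.trans (ok_sub' h hg)
  refine ⟨hc, hsub, hlt, hgt, fun ha => ?_⟩
  funext g'
  by_cases hne : g' = g
  · subst hne
    rw [Function.update_self]
    unfold Scn.mv
    rw [if_pos ⟨hc, actP h hc ha⟩, if_neg (fun hh => hh.1.1 hsub)]
  · rw [Function.update_of_ne hne, mv_other h hlt hgt hne]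

lemma crR {c : Cnf ι K} (h : S.Ok c) {v : V} (hn : v ∈ S.near) {g : Fin K}
    (hc : Crs (S.Z v) (c g).2) : S.CrR c v g := by
  obtain ⟨-, -, hall⟩ := lvR h hn hc
  have hdis : Disjoint (S.Z v) (c g).1 := by
    rw [Finset.disjoint_left]
    intro y hy hy'
    have := hall y hy; have := ok2 h hy'; have := S.sep g; omega
  have hlt : ∀ g', g' < g → Disjoint (S.Z v) (c g').2 := fun g' hg =>
    hdis.mono_right (ok_sub' h hg)
  have hgt : ∀ g', g < g' → S.Z v ⊆ (c g').1 := fun g' hg y hy => by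
    have := hall y hy; have := S.sep' _ _ hg; exact ok1 h (by omega)
  refine ⟨hc, hdis, hlt, hgt, fun ha => ?_⟩
  funext g'
  by_cases hne : g' = g
  · subst hne
    rw [Function.update_self]
    unfold Scn.mv
    rw [if_neg (fun hh => hh.1.2 hdis), if_pos ⟨hc, actR h hc ha⟩]
  · rw [Function.update_of_ne hne, mv_other h hlt hgt hne]

lemma cr_cases {c : Cnf ι K} (h : S.Ok c) {v : V} (hc : S.cr c v) :
    v ∈ S.near ∧ ∃ g, S.CrP c v g ∨ S.CrR c v g := by
  have hn := near_of_cr h hc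
  obtain ⟨g, hg | hg⟩ := hc
  · exact ⟨hn, g, Or.inl (crP h hn hg)⟩
  · exact ⟨hn, g, Or.inr (crR h hn hg)⟩

lemma mv_eq {c : Cnf ι K} (h : S.Ok c) {v : V} (hv : ¬ (S.act v ∧ S.cr c v)) : S.mv c v = c := by
  funext g
  unfold Scn.mv
  rw [if_neg, if_neg]
  · intro hh
    have hc : S.cr c v := ⟨g, Or.inr hh.1⟩
    exact hv ⟨⟨near_of_cr h hc, g, Or.inr ⟨hh.2, fun hd => hh.1.2 (hd.mono_right (h g).2.2.2)⟩⟩,
      hc⟩
  · intro hh
    have hc : S.cr c v := ⟨g, Or.inl hh.1⟩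
    exact hv ⟨⟨near_of_cr h hc, g, Or.inl ⟨hh.2, fun hd => hh.1.1 (hd.trans (h g).1)⟩⟩, hc⟩

open Classical in
lemma card_act : (univ.filter S.act).card ≤ Na := by
  refine le_trans (Finset.card_le_card fun v hv => ?_) S.cnt
  have ha : S.act v := (Finset.mem_filter.1 hv).2
  rw [Finset.mem_filter]
  refine ⟨ha.1, ?_⟩
  obtain ⟨g, ⟨hA, y, hy, hy'⟩ | ⟨hA, y, hy, hy'⟩⟩ := act_lv ha
  · have := hA y hy; have := S.sep g
    exact ⟨g, y, hy, hy', by omega⟩
  · have := hA y hy; have := S.sep g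
    exact ⟨g, y, hy, by omega, hy'⟩

end geo

end Cb

end Crest.Agent.N336.C
end

-- ▼ part N336/C/Comb
section

/-!
# Row 336, CORE: combinatorics of the scanner (`CombStmt`)
-/

set_option autoImplicit false
set_option linter.unusedSectionVars false

open Finset

namespace Crest.Agent.N336.C

open Crest.Agent.N336.Eng

namespace Cb

section geo

variable {ι V : Type} [Fintype ι] [DecidableEq ι] [Fintype V] {K w r b₁ b₂ N₀ Na : ℕ}
  {S : Scn ι V K w r b₁ b₂ N₀ Na}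

/-! ### active terms -/

open Classical in
/-- an active term crosses for a total expected time at most `card V` -/
lemma sum_act [Nonempty V] {v : V} (ha : S.act v) (T t : ℕ) :
    ∑ o ∈ range T, (avg S.mv)^[o + t] (fun c => if S.cr c v then (1 : ℝ) else 0) S.ini ≤
      Fintype.card V := by
  -- `Dn c` : the front of `v` has absorbed `v`
  obtain ⟨Dn, hst, hno, hyes⟩ : ∃ Dn : Cnf ι K → Prop, (∀ c x, Dn c → Dn (S.mv c x)) ∧
      (∀ c, S.Ok c → Dn c → ¬ S.cr c v) ∧ (∀ c, S.Ok c → S.cr c v → Dn (S.mv c v)) := by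
    refine ⟨fun c => ∀ c', (∀ g, (c g).1 ⊆ (c' g).1 ∧ (c' g).2 ⊆ (c g).2) → S.Ok c' →
      ¬ S.cr c' v, fun c x hD c' hc' => hD c' fun g =>
        ⟨(mv1_sup c x g).trans (hc' g).1, (hc' g).2.trans (mv2_sub c x g)⟩,
      fun c hc hD => hD c (fun g => ⟨subset_rfl, subset_rfl⟩) hc, ?_⟩
    intro c hc hcr c' hc' hok hcr'
    obtain ⟨hn, g, hg | hg⟩ := cr_cases hc hcr
    · have hZ : S.Z v ⊆ (c' g).1 := by
        refine subset_trans ?_ (hc' g).1
        rw [hg.2.2.2.2 ha, Function.update_self]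
        exact Finset.subset_union_right
      obtain ⟨⟨x1, h1, a1⟩, -, -⟩ := lvP hc hn hg.1
      have hle : ∀ y ∈ S.Z v, S.lv y ≤ S.a g + w := fun y hy => ok2 hok (hZ hy)
      obtain ⟨-, -, hall⟩ := lvP hc hn hg.1
      obtain ⟨g', hg' | hg'⟩ := hcr'
      · obtain ⟨⟨y1, k1, b1⟩, ⟨y0, k0, b0⟩, -⟩ := lvP hok hn hg'
        rcases lt_trichotomy g' g with hl | rfl | hl
        · have := S.sep' _ _ hl; have := S.sep g'; have := hall y0 k0; omega
        · exact hg'.1 hZ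
        · have := S.sep' _ _ hl; have := S.sep g; have := hle y1 k1; omega
      · obtain ⟨⟨y1, k1, b1⟩, ⟨y0, k0, b0⟩, -⟩ := lvR hok hn hg'
        rcases lt_trichotomy g' g with hl | rfl | hl
        · have := S.sep' _ _ hl; have := hall y0 k0; omega
        · have := S.sep g'; have := hle y1 k1; omega
        · have := S.sep' _ _ hl; have := S.sep g; have := S.sep g'; have := hle y1 k1; omega
    · have hZ : Disjoint (S.Z v) (c' g).2 := by
        refine Disjoint.mono_right (hc' g).2 ?_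
        rw [hg.2.2.2.2 ha, Function.update_self]
        exact Finset.disjoint_sdiff
      have hge : ∀ y ∈ S.Z v, S.b g - w < S.lv y := fun y hy => by
        by_contra hh
        exact Finset.disjoint_left.1 hZ hy (ok3 hok (by omega))
      obtain ⟨-, -, hall⟩ := lvR hc hn hg.1
      obtain ⟨g', hg' | hg'⟩ := hcr'
      · obtain ⟨⟨y1, k1, b1⟩, ⟨y0, k0, b0⟩, -⟩ := lvP hok hn hg'
        rcases lt_trichotomy g' g with hl | rfl | hl
        · have := S.sep' _ _ hl; have := S.sep g'; have := S.sep g; have := hge y0 k0; omega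
        · have := S.sep g'; have := hge y0 k0; omega
        · have := S.sep' _ _ hl; have := hall y1 k1; omega
      · obtain ⟨⟨y1, k1, b1⟩, ⟨y0, k0, b0⟩, -⟩ := lvR hok hn hg'
        rcases lt_trichotomy g' g with hl | rfl | hl
        · have := S.sep' _ _ hl; have := S.sep g; have := hge y0 k0; omega
        · exact hg'.2 hZ
        · have := S.sep' _ _ hl; have := S.sep g'; have := hall y1 k1; omega
  have hN := card_pos' (X := V)
  refine sum_iter_le S.mv S.Ok (fun c x h => ok_mv c x h) _ (fun c => if Dn c then 0 else 1)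
    _ hN.le (fun c => by split_ifs <;> norm_num) (fun c => by split_ifs <;> norm_num) ?_ T t _
    ok_ini
  intro c hc
  have e : (-(Fintype.card V : ℝ)) * avg S.mv (fun c => if Dn c then (0 : ℝ) else 1) c =
      -∑ x, (if Dn (S.mv c x) then (0 : ℝ) else 1) := by
    unfold avg
    field_simp
  rw [e]
  by_cases hD : Dn c
  · simp [hD, hno c hc hD, fun x => hst c x hD]
  · rw [if_neg hD, mul_one]
    have h1 : ∑ x, (if Dn (S.mv c x) then (0 : ℝ) else 1) ≤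
        ∑ x, (1 - if x = v then (if S.cr c v then (1 : ℝ) else 0) else 0) := by
      refine Finset.sum_le_sum fun x _ => ?_
      by_cases hx : x = v
      · subst hx
        by_cases hcr : S.cr c x
        · simp [hcr, hyes c hc hcr]
        · simp only [hcr, if_false, if_true]
          split_ifs <;> norm_num
      · simp only [hx, if_false]
        split_ifs <;> norm_num
    rw [Finset.sum_sub_distrib, Finset.sum_ite_eq'] at h1
    simp only [Finset.sum_const, Finset.card_univ, nsmul_eq_mul, mul_one, Finset.mem_univ,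
      if_true] at h1
    linarith

/-! ### inactive terms -/

variable (S)

/-- weight of a site for the front `P g` -/
noncomputable def wP (c : Cnf ι K) (g : Fin K) (x : ι) : ℝ :=
  if x ∈ (c g).1 ∧ S.a g - r < S.lv x then Real.exp (((S.lv x : ℝ) - S.a g) / r) else 0

/-- weight of a site for the front `R g` -/
noncomputable def wR (c : Cnf ι K) (g : Fin K) (x : ι) : ℝ :=
  if x ∉ (c g).2 ∧ S.lv x ≤ S.b g + r then Real.exp (((S.b g : ℝ) - S.lv x) / r) else 0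

/-- the potential -/
noncomputable def Psi (c : Cnf ι K) : ℝ := ∑ g, ∑ x, (wP S c g x + wR S c g x)

lemma wP_nonneg (c : Cnf ι K) (g : Fin K) (x : ι) : 0 ≤ wP S c g x := by
  unfold wP; split_ifs; exacts [(Real.exp_pos _).le, le_rfl]

lemma wR_nonneg (c : Cnf ι K) (g : Fin K) (x : ι) : 0 ≤ wR S c g x := by
  unfold wR; split_ifs; exacts [(Real.exp_pos _).le, le_rfl]

lemma le_Psi (c : Cnf ι K) (g : Fin K) (x : ι) : wP S c g x + wR S c g x ≤ Psi S c := by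
  have h0 : ∀ g x, 0 ≤ wP S c g x + wR S c g x := fun g x =>
    add_nonneg (wP_nonneg S c g x) (wR_nonneg S c g x)
  exact (Finset.single_le_sum (f := fun x => wP S c g x + wR S c g x) (fun x _ => h0 g x)
    (Finset.mem_univ x)).trans (Finset.single_le_sum
      (f := fun g => ∑ x, (wP S c g x + wR S c g x))
      (fun g _ => Finset.sum_nonneg fun x _ => h0 g x) (Finset.mem_univ g))

lemma Psi_nonneg (c : Cnf ι K) : 0 ≤ Psi S c :=
  Finset.sum_nonneg fun g _ => Finset.sum_nonneg fun x _ =>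
    add_nonneg (wP_nonneg S c g x) (wR_nonneg S c g x)

include S in
lemma r_pos' : (0 : ℝ) < r := by exact_mod_cast S.r_pos

lemma Psi_ini : Psi S S.ini ≤ 2 * K * N₀ := by
  have hr := r_pos' S
  have h1 : ∀ g, ∑ x, (wP S S.ini g x + wR S S.ini g x) ≤ 2 * N₀ := by
    intro g
    have a1 : ∑ x, wP S S.ini g x ≤ N₀ := by
      refine le_trans (Finset.sum_le_sum (g := fun x =>
        if S.a g - r < S.lv x ∧ S.lv x ≤ S.a g then (1 : ℝ) else 0) fun x _ => ?_) ?_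
      · unfold wP
        simp only [ini1]
        by_cases hx : S.lv x ≤ S.a g ∧ S.a g - r < S.lv x
        · rw [if_pos hx, if_pos hx.symm, Real.exp_le_one_iff]
          have : (S.lv x : ℝ) ≤ S.a g := by exact_mod_cast hx.1
          exact div_nonpos_of_nonpos_of_nonneg (by linarith) hr.le
        · rw [if_neg hx, if_neg (fun hh => hx hh.symm)]
      · rw [Finset.sum_boole]
        exact_mod_cast (S.lay g).1
    have a2 : ∑ x, wR S S.ini g x ≤ N₀ := by
      refine le_trans (Finset.sum_le_sum (g := fun x =>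
        if S.b g < S.lv x ∧ S.lv x ≤ S.b g + r then (1 : ℝ) else 0) fun x _ => ?_) ?_
      · unfold wR
        simp only [ini2, not_le]
        by_cases hx : S.b g < S.lv x ∧ S.lv x ≤ S.b g + r
        · rw [if_pos hx, if_pos hx, Real.exp_le_one_iff]
          have : (S.b g : ℝ) ≤ S.lv x := by exact_mod_cast hx.1.le
          exact div_nonpos_of_nonpos_of_nonneg (by linarith) hr.le
        · rw [if_neg hx, if_neg hx]
      · rw [Finset.sum_boole]
        exact_mod_cast (S.lay g).2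
    rw [Finset.sum_add_distrib]
    linarith
  refine (Finset.sum_le_sum fun g _ => h1 g).trans ?_
  simp only [Finset.sum_const, Finset.card_univ, Fintype.card_fin, nsmul_eq_mul]
  linarith

variable {S}

lemma Psi_big {c : Cnf ι K} (h : S.Ok c) {v : V} (hc : S.cr c v) (ha : ¬ S.act v) :
    Real.exp ((w : ℝ) / r - 1) ≤ Psi S c := by
  have hr := r_pos' S
  have hn := near_of_cr h hc
  have e : (w : ℝ) / r - 1 = ((w : ℝ) - r) / r := by field_simp
  obtain ⟨g, hg | hg⟩ := hc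
  · obtain ⟨-, x0, h0, h0'⟩ := crs_iff.1 hg
    have hy : ¬ S.Z v ⊆ (S.fin g).1 := fun hh =>
      ha ⟨hn, g, Or.inl ⟨hh, fun hd => hg.1 (hd.trans (h g).1)⟩⟩
    obtain ⟨y, hy, hy'⟩ := Finset.not_subset.1 hy
    rw [fin1] at hy'
    have hs := S.spread v hn y hy x0 h0
    refine le_trans ?_ (le_Psi S c g x0)
    refine le_trans ?_ (le_add_of_nonneg_right (wR_nonneg S c g x0))
    unfold wP
    rw [if_pos ⟨h0', by omega⟩, e]
    have : (S.a g : ℝ) + w - r ≤ S.lv x0 := by exact_mod_cast (by omega : S.a g + w - r ≤ S.lv x0)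
    exact Real.exp_le_exp.2 (div_le_div_of_nonneg_right (by linarith) hr.le)
  · obtain ⟨⟨x1, h1, h1'⟩, -⟩ := crs_iff.1 hg
    have hy : ¬ Disjoint (S.Z v) (S.fin g).2 := fun hh =>
      ha ⟨hn, g, Or.inr ⟨hh, fun hd => hg.2 (hd.mono_right (h g).2.2.2)⟩⟩
    obtain ⟨y, hy, hy'⟩ := Finset.not_disjoint_iff.1 hy
    rw [fin2] at hy'
    have hs := S.spread v hn x1 h1 y hy
    refine le_trans ?_ (le_Psi S c g x1)
    refine le_trans ?_ (le_add_of_nonneg_left (wP_nonneg S c g x1))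
    unfold wR
    rw [if_pos ⟨h1', by omega⟩, e]
    have : (S.lv x1 : ℝ) ≤ S.b g - w + r := by exact_mod_cast (by omega : S.lv x1 ≤ S.b g - w + r)
    exact Real.exp_le_exp.2 (div_le_div_of_nonneg_right (by linarith) hr.le)

lemma exp_step {p q : ℝ} (hr : (0 : ℝ) < r) (h : p ≤ q + r) :
    Real.exp (p / r) ≤ 3 * Real.exp (q / r) := by
  have h1 : p / r ≤ 1 + q / r := by
    rw [div_le_iff₀ hr]
    field_simp
    linarith
  refine (Real.exp_le_exp.2 h1).trans ?_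
  rw [Real.exp_add]
  have := Real.exp_one_lt_d9
  exact mul_le_mul_of_nonneg_right (by linarith) (Real.exp_pos _).le

lemma sum_new {Z : Finset ι} (f f' : ι → ℝ) (M : ℝ) (hM : 0 ≤ M) (hZ : Z.card ≤ b₁)
    (H : ∀ x, f' x ≤ f x + if x ∈ Z then M else 0) : ∑ x, f' x ≤ ∑ x, f x + b₁ * M := by
  refine (Finset.sum_le_sum fun x _ => H x).trans ?_
  rw [Finset.sum_add_distrib, Finset.sum_ite_mem, Finset.univ_inter, Finset.sum_const,
    nsmul_eq_mul]
  have : (Z.card : ℝ) ≤ b₁ := by exact_mod_cast hZ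
  nlinarith

lemma wP_mv {c : Cnf ι K} (h : S.Ok c) {v : V} (hn : v ∈ S.near) (g : Fin K) :
    ∑ x, wP S (S.mv c v) g x ≤ ∑ x, wP S c g x + b₁ * (3 * ∑ x ∈ S.Z v, wP S c g x) := by
  have hr := r_pos' S
  have hM : 0 ≤ 3 * ∑ x ∈ S.Z v, wP S c g x :=
    mul_nonneg (by norm_num) (Finset.sum_nonneg fun x _ => wP_nonneg S c g x)
  refine sum_new _ _ _ hM (S.size v hn) fun x => ?_
  by_cases hb : Crs (S.Z v) (c g).1 ∧ S.Z v ⊆ (S.fin g).1
  · have e : (S.mv c v g).1 = (c g).1 ∪ S.Z v := by unfold Scn.mv; rw [if_pos hb]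
    by_cases hx : x ∈ S.Z v
    · obtain ⟨-, x0, h0, h0'⟩ := crs_iff.1 hb.1
      obtain ⟨-, -, hall⟩ := lvP h hn hb.1
      have a0 : wP S c g x0 = Real.exp (((S.lv x0 : ℝ) - S.a g) / r) := by
        unfold wP; rw [if_pos ⟨h0', (hall x0 h0).1⟩]
      have a1 : wP S c g x0 ≤ ∑ x ∈ S.Z v, wP S c g x :=
        Finset.single_le_sum (f := fun x => wP S c g x) (fun x _ => wP_nonneg S c g x) h0
      have a2 : wP S (S.mv c v) g x ≤ 3 * wP S c g x0 := by
        rw [a0]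
        unfold wP
        split_ifs
        · have : (S.lv x : ℝ) ≤ S.lv x0 + r := by exact_mod_cast S.spread v hn x hx x0 h0
          exact exp_step hr (by linarith)
        · positivity
      rw [if_pos hx]
      have := wP_nonneg S c g x
      linarith
    · rw [if_neg hx, add_zero]
      unfold wP
      rw [e]
      simp [hx]
  · have e : (S.mv c v g).1 = (c g).1 := by unfold Scn.mv; rw [if_neg hb]
    have : wP S (S.mv c v) g x = wP S c g x := by unfold wP; rw [e]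
    rw [this]
    split_ifs <;> linarith

lemma wR_mv {c : Cnf ι K} (h : S.Ok c) {v : V} (hn : v ∈ S.near) (g : Fin K) :
    ∑ x, wR S (S.mv c v) g x ≤ ∑ x, wR S c g x + b₁ * (3 * ∑ x ∈ S.Z v, wR S c g x) := by
  have hr := r_pos' S
  have hM : 0 ≤ 3 * ∑ x ∈ S.Z v, wR S c g x :=
    mul_nonneg (by norm_num) (Finset.sum_nonneg fun x _ => wR_nonneg S c g x)
  refine sum_new _ _ _ hM (S.size v hn) fun x => ?_
  by_cases hb : Crs (S.Z v) (c g).2 ∧ Disjoint (S.Z v) (S.fin g).2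
  · have e : (S.mv c v g).2 = (c g).2 \ S.Z v := by unfold Scn.mv; rw [if_pos hb]
    by_cases hx : x ∈ S.Z v
    · obtain ⟨⟨x1, h1, h1'⟩, -⟩ := crs_iff.1 hb.1
      obtain ⟨-, -, hall⟩ := lvR h hn hb.1
      have a0 : wR S c g x1 = Real.exp (((S.b g : ℝ) - S.lv x1) / r) := by
        unfold wR; rw [if_pos ⟨h1', (hall x1 h1).2⟩]
      have a1 : wR S c g x1 ≤ ∑ x ∈ S.Z v, wR S c g x :=
        Finset.single_le_sum (f := fun x => wR S c g x) (fun x _ => wR_nonneg S c g x) h1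
      have a2 : wR S (S.mv c v) g x ≤ 3 * wR S c g x1 := by
        rw [a0]
        unfold wR
        split_ifs
        · have : (S.lv x1 : ℝ) ≤ S.lv x + r := by exact_mod_cast S.spread v hn x1 h1 x hx
          exact exp_step hr (by linarith)
        · positivity
      rw [if_pos hx]
      have := wR_nonneg S c g x
      linarith
    · rw [if_neg hx, add_zero]
      unfold wR
      rw [e]
      simp [hx]
  · have e : (S.mv c v g).2 = (c g).2 := by unfold Scn.mv; rw [if_neg hb]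
    have : wR S (S.mv c v) g x = wR S c g x := by unfold wR; rw [e]
    rw [this]
    split_ifs <;> linarith

open Classical in
lemma Psi_mv {c : Cnf ι K} (h : S.Ok c) (v : V) :
    Psi S (S.mv c v) ≤ Psi S c + 3 * b₁ * ∑ g, ∑ x,
      (if v ∈ S.near ∧ x ∈ S.Z v then wP S c g x + wR S c g x else 0) := by
  by_cases hn : v ∈ S.near
  · unfold Psi
    rw [Finset.mul_sum, ← Finset.sum_add_distrib]
    refine Finset.sum_le_sum fun g _ => ?_
    have a1 := wP_mv h hn g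
    have a2 := wR_mv h hn g
    simp only [hn, true_and]
    rw [Finset.sum_ite_mem, Finset.univ_inter, Finset.sum_add_distrib, Finset.sum_add_distrib,
      Finset.sum_add_distrib]
    linarith
  · rw [mv_eq h fun hh => hn hh.1.1]
    simp [hn]

lemma avg_Psi [Nonempty V] {c : Cnf ι K} (h : S.Ok c) :
    avg S.mv (Psi S) c ≤ (1 + 3 * b₁ * b₂ / Fintype.card V) * Psi S c := by
  classical
  have hN := card_pos' (X := V)
  have h1 : ∑ v, ∑ g, ∑ x, (if v ∈ S.near ∧ x ∈ S.Z v then wP S c g x + wR S c g x else 0) ≤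
      b₂ * Psi S c := by
    unfold Psi
    rw [Finset.sum_comm, Finset.mul_sum]
    refine Finset.sum_le_sum fun g _ => ?_
    rw [Finset.sum_comm, Finset.mul_sum]
    refine Finset.sum_le_sum fun x _ => ?_
    rw [← Finset.sum_filter, Finset.sum_const, nsmul_eq_mul]
    refine mul_le_mul_of_nonneg_right ?_ (add_nonneg (wP_nonneg S c g x) (wR_nonneg S c g x))
    have e : (univ.filter fun v => v ∈ S.near ∧ x ∈ S.Z v) = S.near.filter fun v => x ∈ S.Z v := by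
      ext v; simp
    rw [e]
    exact_mod_cast S.deg x
  have h2 : ∑ v, Psi S (S.mv c v) ≤ Fintype.card V * Psi S c + 3 * b₁ * (b₂ * Psi S c) := by
    refine (Finset.sum_le_sum fun v _ => Psi_mv h v).trans ?_
    rw [Finset.sum_add_distrib, ← Finset.mul_sum, Finset.sum_const, Finset.card_univ,
      nsmul_eq_mul]
    have : (0 : ℝ) ≤ 3 * b₁ := by positivity
    exact add_le_add le_rfl (mul_le_mul_of_nonneg_left (by convert h1) this)
  unfold avg
  rw [div_le_iff₀ hN]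
  refine h2.trans (le_of_eq ?_)
  field_simp

open Classical in
lemma iter_inact [Nonempty V] {v : V} (ha : ¬ S.act v) (T₁ i : ℕ)
    (hi : i ≤ 2 * (Fintype.card V * T₁)) :
    (avg S.mv)^[i] (fun c => if S.cr c v then (1 : ℝ) else 0) S.ini ≤ pin K w r b₁ b₂ N₀ T₁ := by
  have hN := card_pos' (X := V)
  have hI : ∀ c x, S.Ok c → S.Ok (S.mv c x) := fun c x h => ok_mv c x h
  obtain ⟨κ, hκ⟩ : ∃ κ : ℝ, κ = 3 * b₁ * b₂ / Fintype.card V := ⟨_, rfl⟩
  have hκ0 : 0 ≤ κ := by rw [hκ]; positivity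
  have a1 := iter_le S.mv S.Ok hI (fun c => if S.cr c v then (1 : ℝ) else 0) (Psi S) (Psi S)
    (Real.exp (1 - (w : ℝ) / r)) 0 (fun c hc => by
      rw [zero_mul, add_zero]
      split_ifs with hcr
      · have := mul_le_mul_of_nonneg_left (Psi_big hc hcr ha) (Real.exp_pos (1 - (w : ℝ) / r)).le
        rw [← Real.exp_add] at this
        simpa using this
      · exact mul_nonneg (Real.exp_pos _).le (Psi_nonneg S c)) i _ ok_ini
  have a2 := iter_le_pow S.mv S.Ok hI (Psi S) (1 + κ) (by linarith)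
    (fun c hc => hκ ▸ avg_Psi hc) i _ ok_ini
  have a3 : (1 + κ) ^ i ≤ Real.exp (6 * b₁ * b₂ * T₁) := by
    have b1 : (1 + κ) ^ i ≤ Real.exp κ ^ i :=
      pow_le_pow_left₀ (by linarith) (by linarith [Real.add_one_le_exp κ]) i
    refine b1.trans ?_
    rw [← Real.exp_nat_mul, Real.exp_le_exp]
    have b2 : (i : ℝ) ≤ 2 * (Fintype.card V * T₁) := by exact_mod_cast hi
    refine (mul_le_mul_of_nonneg_right b2 hκ0).trans (le_of_eq ?_)
    rw [hκ]
    field_simp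
    ring
  have a4 : (1 + κ) ^ i * Psi S S.ini ≤ Real.exp (6 * b₁ * b₂ * T₁) * (2 * K * N₀) :=
    mul_le_mul a3 (Psi_ini S) (Psi_nonneg S _) (Real.exp_pos _).le
  rw [zero_mul, add_zero] at a1
  refine a1.trans ((mul_le_mul_of_nonneg_left (a2.trans a4) (Real.exp_pos _).le).trans
    (le_of_eq ?_))
  unfold pin
  rw [show (6 * b₁ * b₂ * T₁ + 1 - (w : ℝ) / r) = (1 - (w : ℝ) / r) + 6 * b₁ * b₂ * T₁ by ring,
    Real.exp_add]
  ring

end geo

end Cb

open Cb in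
theorem comb : CombStmt := by
  intro ι V _ _ _ _ K w r b₁ b₂ N₀ Na S
  refine ⟨ok_ini, ok_fin, fun c v h => ok_mv c v h,
    fun c h g => ⟨ok_sub h g, ok_disj h g, fun g' hg => ok_sub' h hg⟩,
    fun c v h hc => cr_cases h hc, fun c v h hv => mv_eq h hv, card_act, ?_⟩
  intro T₁ hT v t ht
  have hN := card_pos' (X := V)
  have hT' : (0 : ℝ) < T₁ := by exact_mod_cast hT
  have hT0 : (0 : ℝ) < ((Fintype.card V * T₁ : ℕ) : ℝ) := by push_cast; positivity
  unfold ex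
  rw [div_le_iff₀ hT0]
  split_ifs with ha
  · refine (sum_act ha _ t).trans (le_of_eq ?_)
    push_cast
    field_simp
  · refine (Finset.sum_le_sum fun o ho => iter_inact ha T₁ (o + t) ?_).trans (le_of_eq ?_)
    · have := Finset.mem_range.1 ho
      omega
    · rw [Finset.sum_const, Finset.card_range, nsmul_eq_mul, mul_comm]

end Crest.Agent.N336.C
end

-- ▼ part N336/C/RigA
section

/-!
# Row 336, CORE: algebra of the leaf metrics (helper50)
-/

set_option autoImplicit false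
set_option linter.unusedSectionVars false

open Matrix Finset
open scoped ComplexOrder MatrixOrder Matrix.Norms.L2Operator InnerProductSpace

namespace Crest.Agent.N336.C

open Crest.Agent.N336.Q Crest.Agent.N336.Eng Crest.Agent.N336.R

section abstract

variable {n : Type} [Fintype n] [DecidableEq n] {a a' U H M N : Matrix n n ℂ}

lemma herm_rsmul (h : a.IsHermitian) (c : ℝ) : (c • a).IsHermitian := by
  unfold Matrix.IsHermitian; rw [conjTranspose_smul, h.eq]; rfl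

lemma ee_herm (a : Matrix n n ℂ) : (ee a).IsHermitian := fr_isHermitian _ _

lemma commute_ee (ha : a.IsHermitian) (h : Commute a M) : Commute (ee a) M :=
  commute_fc_left _ ha h

lemma commute_ee_ee (ha : a.IsHermitian) (hU : U.IsHermitian) (h : Commute a U) :
    Commute (ee a) (ee U) := commute_fc_fc ha hU h

lemma rsmul_mono {c : ℝ} (hc : 0 ≤ c) (h : M ≤ N) : c • M ≤ c • N := by
  rw [Matrix.le_iff, ← smul_sub]; exact (Matrix.le_iff.1 h).smul hc

lemma rsmul_le_rsmul {c c' : ℝ} (hc : c ≤ c') (h : M.PosSemidef) : c • M ≤ c' • M := by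
  rw [Matrix.le_iff, ← sub_smul]; exact h.smul (sub_nonneg.2 hc)

lemma qf_rsmul (v : Q.Vec n) (c : ℝ) (M : Matrix n n ℂ) : qf v (c • M) = c * qf v M := by
  rw [← qf_smul]; rfl

lemma qf_conj' (v : Q.Vec n) (hU : U.IsHermitian) (M : Matrix n n ℂ) :
    qf v (U * M * U) = qf (ap U v) M := by
  rw [qf, qf, ap_mul, ap_mul, inner_ap_right, hU.eq]

lemma qf_mono (v : Q.Vec n) (h : M ≤ N) : qf v M ≤ qf v N := re_inner_ap_mono h v

/-- adding a commuting summand preserves an inequality between exponentials -/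
lemma ee_two_add_le (ha : a.IsHermitian) (ha' : a'.IsHermitian) (hU : U.IsHermitian)
    (h1 : Commute a U) (h2 : Commute a' U) {c : ℝ}
    (h : ee ((2 : ℝ) • a') ≤ c • ee ((2 : ℝ) • a)) :
    ee ((2 : ℝ) • (a' + U)) ≤ c • ee ((2 : ℝ) • (a + U)) := by
  have k1 : Commute ((2 : ℝ) • a) ((2 : ℝ) • U) := (h1.smul_left _).smul_right _
  have k2 : Commute ((2 : ℝ) • a') ((2 : ℝ) • U) := (h2.smul_left _).smul_right _
  rw [smul_add, smul_add, ee_add (herm_rsmul ha' _) (herm_rsmul hU _) k2,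
    ee_add (herm_rsmul ha _) (herm_rsmul hU _) k1, ← Matrix.smul_mul]
  exact mul_le_mul_comm h (ee_posDef _).posSemidef
    (commute_ee_ee (herm_rsmul ha' _) (herm_rsmul hU _) k2)
    ((commute_ee_ee (herm_rsmul ha _) (herm_rsmul hU _) k1).smul_left c)

lemma ee_conj_add (ha : a.IsHermitian) (hU : U.IsHermitian) (h1 : Commute a U)
    (h2 : Commute U H) : ee (-(a + U)) * H * ee (a + U) = ee (-a) * H * ee a := by
  rw [neg_add, ee_add ha.neg hU.neg h1.neg_left.neg_right, add_comm a U, ee_add hU ha h1.symm,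
    Matrix.mul_assoc (ee (-a)), (commute_ee hU.neg h2.neg_left).eq]
  simp only [Matrix.mul_assoc]
  rw [← Matrix.mul_assoc (ee (-U)), ee_neg_mul_ee hU, Matrix.one_mul]

lemma ee_sandwich_add (ha : a.IsHermitian) (ha' : a'.IsHermitian) (hU : U.IsHermitian)
    (h1 : Commute a U) (h2 : Commute a' U) :
    ee (-(a + U)) * ee ((2 : ℝ) • (a' + U)) * ee (-(a + U)) =
      ee (-a) * ee ((2 : ℝ) • a') * ee (-a) := by
  have k2 : Commute ((2 : ℝ) • a') ((2 : ℝ) • U) := (h2.smul_left _).smul_right _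
  have e1 : ee (-(a + U)) = ee (-a) * ee (-U) := by
    rw [neg_add, ee_add ha.neg hU.neg h1.neg_left.neg_right]
  have e2 : ee (-(a + U)) = ee (-U) * ee (-a) := by
    rw [e1, (commute_ee_ee ha.neg hU.neg h1.neg_left.neg_right).eq]
  have e3 : ee ((2 : ℝ) • U) = ee U * ee U := by
    rw [two_smul, ee_add hU hU (Commute.refl U)]
  have c1 : Commute (ee (-U)) (ee ((2 : ℝ) • a')) :=
    commute_ee_ee hU.neg (herm_rsmul ha' _) (h2.symm.neg_left.smul_right _)
  calc _ = ee (-a) * ee (-U) * (ee ((2 : ℝ) • a') * (ee U * ee U)) * (ee (-U) * ee (-a)) := by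
        rw [← e1, ← e2, ← e3, smul_add, ee_add (herm_rsmul ha' _) (herm_rsmul hU _) k2]
    _ = ee (-a) * (ee (-U) * ee ((2 : ℝ) • a') * ee U) * (ee U * ee (-U)) * ee (-a) := by
        simp only [Matrix.mul_assoc]
    _ = _ := by
        rw [c1.eq, Matrix.mul_assoc (ee ((2 : ℝ) • a')), ee_neg_mul_ee hU, ee_mul_ee_neg hU,
          Matrix.mul_one, Matrix.mul_one]

/-- inversion of an inequality between exponentials -/
lemma ee_neg_le (ha : a.IsHermitian) (ha' : a'.IsHermitian) {c : ℝ} (hc : 0 < c)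
    (h : ee ((2 : ℝ) • a) ≤ c • ee ((2 : ℝ) • a')) :
    ee ((2 : ℝ) • -a') ≤ c • ee ((2 : ℝ) • -a) := by
  have h1 := rsmul_mono hc.le (inv_anti (ee_posDef _) h)
  have h2 : (c • ee ((2 : ℝ) • a'))⁻¹ = c⁻¹ • ee ((2 : ℝ) • -a') := by
    refine Matrix.inv_eq_left_inv ?_
    rw [Matrix.smul_mul, Matrix.mul_smul, smul_smul, inv_mul_cancel₀ hc.ne', one_smul, smul_neg,
      ee_neg_mul_ee (herm_rsmul ha' _)]
  rwa [h2, smul_smul, mul_inv_cancel₀ hc.ne', one_smul, ← ee_neg (herm_rsmul ha _),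
    ← smul_neg] at h1

end abstract

variable {ι : Type} [Fintype ι] [DecidableEq ι] {d : ι → Type} [∀ x, Fintype (d x)]
  [∀ x, DecidableEq (d x)] [∀ x, Nonempty (d x)] {I : Type} [Fintype I] [DecidableEq I]
  {R : Rp d I} {K : ℕ} {A₁ : Finset ι}

/-- logarithm of the factor of one band -/
noncomputable def Rp.loc (R : Rp d I) (A₁ : Finset ι) (p : Finset ι × Finset ι) : Matrix I I ℂ :=
  R.lw true p.1 + R.lw true p.2 - R.lw false (p.2 \ p.1) - (2 : ℝ) • R.lw false A₁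

/-- logarithm of the square root of the leaf metric -/
noncomputable def Rp.Lg (R : Rp d I) (A₁ : Finset ι) (c : Cnf ι K) : Matrix I I ℂ :=
  ∑ g, R.loc A₁ (c g)

/-- the other bands -/
noncomputable def Rp.rest (R : Rp d I) (A₁ : Finset ι) (c : Cnf ι K) (g : Fin K) : Matrix I I ℂ :=
  ∑ g' ∈ univ.erase g, R.loc A₁ (c g') - (2 : ℝ) • R.lw false A₁

/-- laminar configurations -/
def Lam (A₁ : Finset ι) (c : Cnf ι K) : Prop :=
  ∀ g, (c g).1 ⊆ (c g).2 ∧ Disjoint (c g).2 A₁ ∧ ∀ g', g < g' → (c g).2 ⊆ (c g').1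

lemma Lg_update (R : Rp d I) (c : Cnf ι K) (g : Fin K) (p : Finset ι × Finset ι) :
    R.Lg A₁ (Function.update c g p) =
      R.lw true p.1 + R.lw true p.2 - R.lw false (p.2 \ p.1) + R.rest A₁ c g := by
  rw [Rp.Lg, ← Finset.add_sum_erase _ _ (mem_univ g), Function.update_self, Rp.rest,
    Finset.sum_congr rfl fun g' hg' => by rw [Function.update_of_ne (ne_of_mem_erase hg')], Rp.loc]
  abel


namespace Rp.Alg

variable (hR : R.Alg)
include hR

lemma loc_herm (p : Finset ι × Finset ι) : (R.loc A₁ p).IsHermitian :=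
  (((hR.herm _ _).add (hR.herm _ _)).sub (hR.herm _ _)).sub (herm_rsmul (hR.herm _ _) _)

lemma sum_loc_herm (s : Finset (Fin K)) (c : Cnf ι K) :
    (∑ g ∈ s, R.loc A₁ (c g)).IsHermitian := by
  unfold Matrix.IsHermitian
  rw [conjTranspose_sum]
  exact Finset.sum_congr rfl fun g _ => (hR.loc_herm _).eq

lemma Lg_herm (c : Cnf ι K) : (R.Lg A₁ c).IsHermitian := hR.sum_loc_herm _ c

lemma rest_herm (c : Cnf ι K) (g : Fin K) : (R.rest A₁ c g).IsHermitian :=
  (hR.sum_loc_herm _ c).sub (herm_rsmul (hR.herm _ _) _)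

lemma comm' (b b' : Bool) {A A' : Finset ι} (h : A' ⊆ A ∨ A ⊆ A' ∨ Disjoint A A') :
    Commute (R.lw b A) (R.lw b' A') := by
  rcases h with h | h
  · exact (hR.comm _ _ _ _ (.inl h)).symm
  · exact hR.comm _ _ _ _ h

omit hR in
lemma comm_loc {M : Matrix I I ℂ} {p : Finset ι × Finset ι} (h1 : Commute M (R.lw true p.1))
    (h2 : Commute M (R.lw true p.2)) (h3 : Commute M (R.lw false (p.2 \ p.1)))
    (h4 : Commute M (R.lw false A₁)) : Commute M (R.loc A₁ p) :=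
  ((h1.add_right h2).sub_right h3).sub_right (h4.smul_right _)

lemma comm_rest {c : Cnf ι K} (hc : Lam A₁ c) (g : Fin K) (b : Bool) {B : Finset ι}
    (h1 : B ⊆ (c g).2) (h2 : (c g).1 ⊆ B ∨ Disjoint B (c g).1) :
    Commute (R.lw b B) (R.rest A₁ c g) := by
  have hA : Commute (R.lw b B) (R.lw false A₁) :=
    hR.comm _ _ _ _ (.inr ((hc g).2.1.mono_left h1))
  refine (Commute.sum_right _ _ _ fun g' hg' => ?_).sub_right (hA.smul_right _)
  rcases lt_or_gt_of_ne (ne_of_mem_erase hg') with h | h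
  · have k : ∀ b' X, X ⊆ (c g').2 → Commute (R.lw b B) (R.lw b' X) := fun b' X hX => by
      have hX' := hX.trans ((hc g').2.2 g h)
      rcases h2 with h2 | h2
      · exact hR.comm' _ _ (.inl (hX'.trans h2))
      · exact hR.comm' _ _ (.inr (.inr (h2.mono_right hX')))
    exact comm_loc (k _ _ (hc g').1) (k _ _ Subset.rfl) (k _ _ sdiff_subset) hA
  · have k := h1.trans ((hc g).2.2 g' h)
    exact comm_loc (hR.comm _ _ _ _ (.inl k)) (hR.comm _ _ _ _ (.inl (k.trans (hc g').1)))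
      (hR.comm _ _ _ _ (.inr (disjoint_sdiff.mono_left k))) hA

omit hR in
/-- a matrix attached to a set that does not cross the band commutes with the band -/
lemma comm_loc_of {M : Matrix I I ℂ} {Z : Finset ι}
    (hM : ∀ b A, Z ⊆ A ∨ Disjoint Z A → Commute (R.lw b A) M) (hA : Disjoint Z A₁)
    {p : Finset ι × Finset ι} (h1 : Z ⊆ p.1 ∨ Disjoint Z p.1) (h2 : Z ⊆ p.2 ∨ Disjoint Z p.2) :
    Commute M (R.loc A₁ p) := by
  refine comm_loc (hM _ _ h1).symm (hM _ _ h2).symm (hM _ _ ?_).symm (hM _ _ (.inr hA)).symm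
  rcases h1 with h1 | h1
  · exact .inr (disjoint_sdiff.mono_left h1)
  · rcases h2 with h2 | h2
    · exact .inl (subset_sdiff.2 ⟨h2, h1⟩)
    · exact .inr (h2.mono_right sdiff_subset)

omit hR in
lemma comm_rest_of {c : Cnf ι K} (hc : Lam A₁ c) (g : Fin K) {M : Matrix I I ℂ} {Z : Finset ι}
    (hM : ∀ b A, Z ⊆ A ∨ Disjoint Z A → Commute (R.lw b A) M) (hA : Disjoint Z A₁)
    (h1 : ∀ g', g' < g → Disjoint Z (c g').2) (h2 : ∀ g', g < g' → Z ⊆ (c g').1) :
    Commute (R.rest A₁ c g) M := by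
  refine ((Commute.sum_right _ _ _ fun g' hg' => ?_).sub_right
    ((hM _ _ (.inr hA)).symm.smul_right _)).symm
  rcases lt_or_gt_of_ne (ne_of_mem_erase hg') with h | h
  · exact comm_loc_of hM hA (.inr ((h1 g' h).mono_right (hc g').1)) (.inr (h1 g' h))
  · exact comm_loc_of hM hA (.inl (h2 g' h)) (.inl ((h2 g' h).trans (hc g').1))

omit hR in
lemma comm_Lg_of {c : Cnf ι K} {M : Matrix I I ℂ} {Z : Finset ι}
    (hM : ∀ b A, Z ⊆ A ∨ Disjoint Z A → Commute (R.lw b A) M) (hA : Disjoint Z A₁)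
    (h : ∀ g, ¬ Crs Z (c g).1 ∧ ¬ Crs Z (c g).2) : Commute M (R.Lg A₁ c) := by
  have k : ∀ A, ¬ Crs Z A → Z ⊆ A ∨ Disjoint Z A := fun A hA => by
    unfold Crs at hA; tauto
  exact Commute.sum_right _ _ _ fun g _ => comm_loc_of hM hA (k _ (h g).1) (k _ (h g).2)

/-- decomposition for a move of the front `P` -/
lemma dec_P {c : Cnf ι K} (hc : Lam A₁ c) (g : Fin K) :
    ∃ U : Matrix I I ℂ, U.IsHermitian ∧
      (∀ P', (c g).1 ⊆ P' → P' ⊆ (c g).2 →
        R.Lg A₁ (Function.update c g (P', (c g).2)) =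
          (R.lw true P' - R.lw false ((c g).2 \ P')) + U ∧
        Commute (R.lw true P' - R.lw false ((c g).2 \ P')) U) ∧
      U = R.lw true (c g).2 + R.rest A₁ c g := by
  refine ⟨_, (hR.herm _ _).add (hR.rest_herm c g), fun P' h1 h2 => ⟨?_, ?_⟩, rfl⟩
  · rw [Lg_update]; abel
  · exact ((hR.comm _ _ _ _ (.inl h2)).add_right (hR.comm_rest hc g _ h2 (.inl h1))).sub_left
      ((hR.comm _ _ _ _ (.inl sdiff_subset)).add_right
        (hR.comm_rest hc g _ sdiff_subset (.inr (sdiff_disjoint.mono_right h1))))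

/-- decomposition for a move of the front `R` -/
lemma dec_R {c : Cnf ι K} (hc : Lam A₁ c) (g : Fin K) :
    ∃ U : Matrix I I ℂ, U.IsHermitian ∧
      (∀ R', (c g).1 ⊆ R' → R' ⊆ (c g).2 →
        R.Lg A₁ (Function.update c g ((c g).1, R')) =
          (R.lw true R' - R.lw false (R' \ (c g).1)) + U ∧
        Commute (R.lw true R' - R.lw false (R' \ (c g).1)) U) ∧
      U = R.lw true (c g).1 + R.rest A₁ c g := by
  refine ⟨_, (hR.herm _ _).add (hR.rest_herm c g), fun R' h1 h2 => ⟨?_, ?_⟩, rfl⟩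
  · rw [Lg_update]; abel
  · exact ((hR.comm' _ _ (.inl h1)).add_right (hR.comm_rest hc g _ h2 (.inl h1))).sub_left
      ((hR.comm _ _ _ _ (.inr sdiff_disjoint)).add_right
        (hR.comm_rest hc g _ (sdiff_subset.trans h2) (.inr sdiff_disjoint)))

end Rp.Alg

end Crest.Agent.N336.C
end

-- ▼ part N336/C/RigB
section

/-!
# Row 336, CORE: monotonicity and gain of the moves (helper50)
-/

set_option autoImplicit false
set_option linter.unusedSectionVars false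

open Matrix Finset
open scoped ComplexOrder MatrixOrder Matrix.Norms.L2Operator InnerProductSpace

namespace Crest.Agent.N336.C

open Crest.Agent.N336.Q Crest.Agent.N336.Eng Crest.Agent.N336.R

section abstract

variable {n : Type} [Fintype n] [DecidableEq n] {a a' U x y : Matrix n n ℂ}

lemma ee_sub (hx : x.IsHermitian) (hy : y.IsHermitian) (h : Commute x y) :
    ee (x - y) = ee x * ee (-y) := by
  rw [sub_eq_add_neg, ee_add hx hy.neg h.neg_right]

lemma ee_two (hx : x.IsHermitian) : ee ((2 : ℝ) • x) = ee x * ee x := by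
  rw [two_smul, ee_add hx hx (Commute.refl x)]

/-- `x` commutes with everything and moves inside -/
lemma sandwich_eq (hx : x.IsHermitian) (hy : y.IsHermitian) (ha : a'.IsHermitian)
    (h1 : Commute x y) (h2 : Commute x a') :
    ee (-(x - y)) * ee ((2 : ℝ) • a') * ee (-(x - y)) =
      ee y * ee ((2 : ℝ) • (a' - x)) * ee y := by
  have e1 : ee (-(x - y)) = ee y * ee (-x) := by rw [neg_sub, ee_sub hy hx h1.symm]
  have e2 : ee (-(x - y)) = ee (-x) * ee y := by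
    rw [e1, (commute_ee_ee hy hx.neg h1.symm.neg_right).eq]
  have e3 : ee ((2 : ℝ) • (a' - x)) = ee (-x) * ee ((2 : ℝ) • a') * ee (-x) := by
    rw [(commute_ee_ee hx.neg (herm_rsmul ha _) (h2.neg_left.smul_right _)).eq, Matrix.mul_assoc,
      ← ee_two hx.neg, ← ee_add (herm_rsmul ha _) (herm_rsmul hx.neg _)
        ((h2.symm.neg_right.smul_left _).smul_right _), ← smul_add, sub_eq_add_neg]
  conv_lhs => arg 1; arg 1; rw [e1]
  rw [e2, e3]
  simp only [Matrix.mul_assoc]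

lemma qf_sandwich (hy : y.IsHermitian) (ha : a.IsHermitian) (v : Q.Vec n) :
    qf v (ee y * ee ((2 : ℝ) • a) * ee y) = ‖ap (ee a * ee y) v‖ ^ 2 := by
  rw [norm_ap_sq, conjTranspose_mul, (ee_herm y).eq, (ee_herm a).eq, ee_two ha]
  simp only [Matrix.mul_assoc]

end abstract

variable {ι : Type} [Fintype ι] [DecidableEq ι] {d : ι → Type} [∀ x, Fintype (d x)]
  [∀ x, DecidableEq (d x)] [∀ x, Nonempty (d x)] {I : Type} [Fintype I] [DecidableEq I]
  {R : Rp d I} {K : ℕ} {A₁ : Finset ι} {V : Type} [Fintype V] {h : V → Q.Op d}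
  {Z : V → Finset ι} {a : ℕ} {C J l s δ : ℝ}

section moves

variable (hR : R.Alg) (hS : R.Asy h Z a C J l s δ)
include hR hS

/-- local monotonicity for the front `R` -/
lemma mono_loc_R {F y Y : Finset ι} (h1 : Disjoint F y) (h2 : Disjoint F Y) (h3 : Disjoint y Y) :
    ee ((2 : ℝ) • (R.lw true (F ∪ y)ᶜ - R.lw false Y)) ≤
      Real.exp (3 * (δ * R.k)) • ee ((2 : ℝ) • (R.lw true Fᶜ - R.lw false (Y ∪ y))) := by
  have hc := (Real.exp_pos (δ * R.k)).le
  have d1 : Disjoint (F ∪ y) Y := disjoint_union_left.2 ⟨h2, h3⟩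
  have d2 : Disjoint F (Y ∪ y) := disjoint_union_right.2 ⟨h2, h1⟩
  have s1 := hS.compl (F ∪ y)ᶜ
  rw [compl_compl] at s1
  have t1 := ee_two_add_le (hR.herm _ _) (hR.herm _ _) (hR.herm false Y).neg
    (hR.comm _ _ _ _ (.inr d1)).neg_right
    (hR.comm' _ _ (.inl (subset_compl_iff_disjoint_left.2 d1))).neg_right s1
  have t2 := hS.mono F y Y h1 h2 h3
  have t3 := ee_two_add_le (hR.herm _ _) (hR.herm _ _) (hR.herm false (Y ∪ y)).neg
    (hR.comm' _ _ (.inl (subset_compl_iff_disjoint_left.2 d2))).neg_right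
    (hR.comm _ _ _ _ (.inr d2)).neg_right (hS.compl F)
  simp only [← sub_eq_add_neg] at t1 t3
  refine t1.trans ((rsmul_mono hc (t2.trans (rsmul_mono hc t3))).trans (le_of_eq ?_))
  rw [smul_smul, smul_smul, ← Real.exp_add, ← Real.exp_add]
  congr 2; ring

/-- local gain for the front `P` -/
lemma gain_loc_P {P y Y : Finset ι} (h1 : Disjoint P y) (h2 : Disjoint P Y) (h3 : Disjoint y Y)
    (hl : Real.log (dim d y) ≤ l) {χ : Q.Vec (Cfg d)} (hχ : ‖χ‖ = 1) :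
    qf (R.cv χ) (ee (-(R.lw true P - R.lw false (Y ∪ y))) *
      ee ((2 : ℝ) • (R.lw true (P ∪ y) - R.lw false Y)) *
      ee (-(R.lw true P - R.lw false (Y ∪ y)))) ≤
      Real.exp (R.k * (-(2 * s * eta χ P y Y) + C * s ^ (1 + (1 : ℝ) / a) * l ^ a + δ)) := by
  have ha := (hR.herm true (P ∪ y)).sub (hR.herm false Y)
  rw [sandwich_eq (hR.herm _ _) (hR.herm _ _) ha
    (hR.comm _ _ _ _ (.inr (disjoint_union_right.2 ⟨h2, h1⟩)))
    ((hR.comm _ _ _ _ (.inl subset_union_left)).sub_right (hR.comm _ _ _ _ (.inr h2))),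
    qf_sandwich (hR.herm _ _) (ha.sub (hR.herm _ _)), sub_right_comm]
  exact hS.gain P y Y h1 h2 h3 hl χ hχ

/-- local gain for the front `R` -/
lemma gain_loc_R {F y Y : Finset ι} (h1 : Disjoint F y) (h2 : Disjoint F Y) (h3 : Disjoint y Y)
    (hl : Real.log (dim d y) ≤ l) {χ : Q.Vec (Cfg d)} (hχ : ‖χ‖ = 1) :
    qf (R.cv χ) (ee (-(R.lw true Fᶜ - R.lw false (Y ∪ y))) *
      ee ((2 : ℝ) • (R.lw true (F ∪ y)ᶜ - R.lw false Y)) *
      ee (-(R.lw true Fᶜ - R.lw false (Y ∪ y)))) ≤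
      Real.exp (R.k * (-(2 * s * eta χ F y Y) + C * s ^ (1 + (1 : ℝ) / a) * l ^ a + 3 * δ)) := by
  have hc := (Real.exp_pos (δ * R.k)).le
  have d1 : Disjoint (F ∪ y) Y := disjoint_union_left.2 ⟨h2, h3⟩
  have d2 : Disjoint F (Y ∪ y) := disjoint_union_right.2 ⟨h2, h1⟩
  have q1 : (F ∪ y)ᶜ ⊆ Fᶜ := compl_subset_compl.2 subset_union_left
  have q2 : Y ⊆ Fᶜ := subset_compl_iff_disjoint_left.2 h2
  have q3 : Y ⊆ (F ∪ y)ᶜ := subset_compl_iff_disjoint_left.2 d1
  have q4 : Disjoint (F ∪ y)ᶜ F := disjoint_compl_left.mono_right subset_union_left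
  have ha := (hR.herm true (F ∪ y)ᶜ).sub (hR.herm false Y)
  have cF : Commute (R.lw true Fᶜ) (R.lw true (F ∪ y)ᶜ - R.lw false Y) :=
    (hR.comm' _ _ (.inl q1)).sub_right (hR.comm' _ _ (.inl q2))
  rw [sandwich_eq (hR.herm _ _) (hR.herm _ _) ha
    (hR.comm' _ _ (.inl (subset_compl_iff_disjoint_left.2 d2))) cF]
  have t1 := ee_two_add_le (hR.herm true F).neg (hR.herm true Fᶜ).neg ha
    ((hR.comm _ _ _ _ (.inr q4.symm)).sub_right (hR.comm _ _ _ _ (.inr h2))).neg_left cF.neg_left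
    (ee_neg_le (hR.herm _ _) (hR.herm _ _) (Real.exp_pos _) (hS.compl F))
  have s1 := hS.compl (F ∪ y)ᶜ
  rw [compl_compl] at s1
  have t2 := ee_two_add_le (hR.herm _ _) (hR.herm _ _)
    ((hR.herm true F).neg.sub (hR.herm false Y))
    ((hR.comm' _ _ (.inl subset_union_left)).neg_right.sub_right (hR.comm _ _ _ _ (.inr d1)))
    ((hR.comm _ _ _ _ (.inr q4)).neg_right.sub_right (hR.comm' _ _ (.inl q3))) s1
  have e1 : -R.lw true Fᶜ + (R.lw true (F ∪ y)ᶜ - R.lw false Y) =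
      R.lw true (F ∪ y)ᶜ - R.lw false Y - R.lw true Fᶜ := by abel
  have e2 : -R.lw true F + (R.lw true (F ∪ y)ᶜ - R.lw false Y) =
      R.lw true (F ∪ y)ᶜ + (-R.lw true F - R.lw false Y) := by abel
  have e3 : R.lw true (F ∪ y) + (-R.lw true F - R.lw false Y) =
      R.lw true (F ∪ y) - R.lw true F - R.lw false Y := by abel
  rw [e1, e2] at t1
  rw [e3] at t2
  have t3 := conj_mono (t1.trans (rsmul_mono hc t2)) (ee (R.lw false (Y ∪ y)))
  rw [(ee_herm _).eq, smul_smul, Matrix.mul_smul, Matrix.smul_mul] at t3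
  refine (qf_mono _ t3).trans ?_
  rw [qf_rsmul, qf_sandwich (hR.herm _ _) (((hR.herm _ _).sub (hR.herm _ _)).sub (hR.herm _ _))]
  refine (mul_le_mul_of_nonneg_left (hS.gain F y Y h1 h2 h3 hl χ hχ) (by positivity)).trans
    (le_of_eq ?_)
  rw [← Real.exp_add, ← Real.exp_add]
  congr 1; ring

lemma mono_P (hδ : 0 ≤ δ) {c : Cnf ι K} (hc : Lam A₁ c) (g : Fin K) {P' : Finset ι}
    (h1 : (c g).1 ⊆ P') (h2 : P' ⊆ (c g).2) :
    ee ((2 : ℝ) • R.Lg A₁ (Function.update c g (P', (c g).2))) ≤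
      Real.exp (3 * (δ * R.k)) • ee ((2 : ℝ) • R.Lg A₁ c) := by
  obtain ⟨U, hU, H, -⟩ := hR.dec_P hc g
  obtain ⟨e1, c1⟩ := H P' h1 h2
  obtain ⟨e0, c0⟩ := H _ Subset.rfl (hc g).1
  rw [Prod.mk.eta, Function.update_eq_self] at e0
  rw [e1, e0]
  refine ee_two_add_le ((hR.herm _ _).sub (hR.herm _ _)) ((hR.herm _ _).sub (hR.herm _ _)) hU c0
    c1 ?_
  have := hS.mono (c g).1 (P' \ (c g).1) ((c g).2 \ P') disjoint_sdiff
    (disjoint_sdiff.mono_left h1) (disjoint_sdiff.mono_left sdiff_subset)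
  rw [union_sdiff_of_subset h1, sdiff_union_sdiff_cancel h2 h1] at this
  refine this.trans (rsmul_le_rsmul (Real.exp_le_exp.2 ?_) (ee_posDef _).posSemidef)
  have : 0 ≤ δ * R.k := by positivity
  linarith

omit hR hS in
lemma compl_union_sdiff {X X' : Finset ι} (h : X' ⊆ X) : (Xᶜ ∪ X \ X')ᶜ = X' := by
  ext x
  have := @h x
  simp only [mem_compl, mem_union, mem_sdiff]; tauto

lemma mono_R {c : Cnf ι K} (hc : Lam A₁ c) (g : Fin K) {R' : Finset ι}
    (h1 : (c g).1 ⊆ R') (h2 : R' ⊆ (c g).2) :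
    ee ((2 : ℝ) • R.Lg A₁ (Function.update c g ((c g).1, R'))) ≤
      Real.exp (3 * (δ * R.k)) • ee ((2 : ℝ) • R.Lg A₁ c) := by
  obtain ⟨U, hU, H, -⟩ := hR.dec_R hc g
  obtain ⟨e1, c1⟩ := H R' h1 h2
  obtain ⟨e0, c0⟩ := H _ (hc g).1 Subset.rfl
  rw [Prod.mk.eta, Function.update_eq_self] at e0
  rw [e1, e0]
  refine ee_two_add_le ((hR.herm _ _).sub (hR.herm _ _)) ((hR.herm _ _).sub (hR.herm _ _)) hU c0
    c1 ?_
  have := mono_loc_R hR hS (F := (c g).2ᶜ) (y := (c g).2 \ R') (Y := R' \ (c g).1)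
    (disjoint_compl_left.mono_right sdiff_subset)
    (disjoint_compl_left.mono_right (sdiff_subset.trans h2))
    (sdiff_disjoint.mono_right sdiff_subset)
  rwa [compl_union_sdiff h2, compl_compl, union_comm (R' \ _), sdiff_union_sdiff_cancel h2 h1]
    at this

end moves

/-- number of absorbed sites -/
def cnt (c : Cnf ι K) : ℕ := ∑ g, ((c g).1.card + (c g).2ᶜ.card)

lemma cnt_update (c : Cnf ι K) (g : Fin K) (p : Finset ι × Finset ι) :
    cnt (Function.update c g p) + ((c g).1.card + (c g).2ᶜ.card) =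
      cnt c + (p.1.card + p.2ᶜ.card) := by
  rw [cnt, cnt, ← Finset.add_sum_erase _ _ (mem_univ g), ← Finset.add_sum_erase _ _ (mem_univ g),
    Function.update_self,
    Finset.sum_congr rfl fun g' hg' => by rw [Function.update_of_ne (ne_of_mem_erase hg')]]
  ring

lemma cnt_le (c : Cnf ι K) : cnt c ≤ K * (2 * Fintype.card ι) := by
  refine (Finset.sum_le_card_nsmul _ _ (2 * Fintype.card ι) fun g _ => ?_).trans (by simp)
  have := card_le_univ (c g).1
  have := card_le_univ (c g).2ᶜ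
  omega

/-- logarithm of the square root of the leaf metric with slack -/
noncomputable def Rp.Lf (R : Rp d I) (A₁ : Finset ι) (δ : ℝ) (c : Cnf ι K) : Matrix I I ℂ :=
  R.Lg A₁ c + (-(3 / 2 * (δ * R.k) * cnt c) : ℝ) • (1 : Matrix I I ℂ)

/-- the leaf metric -/
noncomputable def Rp.Am (R : Rp d I) (A₁ : Finset ι) (δ : ℝ) (c : Cnf ι K) : Matrix I I ℂ :=
  ee ((2 : ℝ) • R.Lf A₁ δ c)

lemma Lf_herm (hR : R.Alg) (c : Cnf ι K) : (R.Lf A₁ δ c).IsHermitian :=
  (hR.Lg_herm c).add (herm_rsmul isHermitian_one _)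

lemma Am_eq (hR : R.Alg) (c : Cnf ι K) :
    R.Am A₁ δ c = Real.exp (-(3 * (δ * R.k) * cnt c)) • ee ((2 : ℝ) • R.Lg A₁ c) := by
  rw [Rp.Am, Rp.Lf, smul_add, smul_smul, ee_add_smul_one (herm_rsmul (hR.Lg_herm c) _)]
  congr 2; ring

lemma ee_Lf (hR : R.Alg) (c : Cnf ι K) :
    ee (R.Lf A₁ δ c) = Real.exp (-(3 / 2 * (δ * R.k) * cnt c)) • ee (R.Lg A₁ c) := by
  rw [Rp.Lf, ee_add_smul_one (hR.Lg_herm c)]

lemma ee_neg_Lf (hR : R.Alg) (c : Cnf ι K) :
    ee (-R.Lf A₁ δ c) = Real.exp (3 / 2 * (δ * R.k) * cnt c) • ee (-R.Lg A₁ c) := by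
  rw [Rp.Lf, neg_add, ← neg_smul, neg_neg, ee_add_smul_one (hR.Lg_herm c).neg]

lemma Am_step (hR : R.Alg) (hδ : 0 ≤ δ) {c c' : Cnf ι K} (h1 : cnt c + 1 ≤ cnt c')
    (h2 : ee ((2 : ℝ) • R.Lg A₁ c') ≤ Real.exp (3 * (δ * R.k)) • ee ((2 : ℝ) • R.Lg A₁ c)) :
    R.Am A₁ δ c' ≤ R.Am A₁ δ c := by
  rw [Am_eq hR, Am_eq hR]
  refine (rsmul_mono (Real.exp_pos _).le h2).trans ?_
  rw [smul_smul, ← Real.exp_add]
  refine rsmul_le_rsmul (Real.exp_le_exp.2 ?_) (ee_posDef _).posSemidef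
  have h3 : (cnt c : ℝ) + 1 ≤ cnt c' := by exact_mod_cast h1
  have : 0 ≤ δ * R.k := by positivity
  nlinarith

lemma Am_update (hR : R.Alg) (hS : R.Asy h Z a C J l s δ) (hδ : 0 ≤ δ) {c : Cnf ι K} (g : Fin K)
    {p : Finset ι × Finset ι} (hc : Lam A₁ c) (hc' : Lam A₁ (Function.update c g (p.1, (c g).2)))
    (h1 : (c g).1 ⊆ p.1) (h2 : p.1 ⊆ p.2) (h3 : p.2 ⊆ (c g).2) :
    R.Am A₁ δ (Function.update c g p) ≤ R.Am A₁ δ c := by
  set c' := Function.update c g (p.1, (c g).2) with hcd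
  have s1 : R.Am A₁ δ c' ≤ R.Am A₁ δ c := by
    rcases h1.eq_or_ssubset with e | e
    · rw [hcd, ← e, Prod.mk.eta, Function.update_eq_self]
    · refine Am_step hR hδ ?_ (mono_P hR hS hδ hc g h1 (h2.trans h3))
      have k1 := cnt_update c g (p.1, (c g).2)
      have k2 := card_lt_card e
      rw [← hcd] at k1
      simp only at k1
      omega
  have e1 : c' g = (p.1, (c g).2) := by rw [hcd, Function.update_self]
  have e2 : Function.update c g p = Function.update c' g ((c' g).1, p.2) := by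
    rw [e1, hcd, Function.update_idem]
  refine le_trans ?_ s1
  rw [e2]
  rcases h3.eq_or_ssubset with e | e
  · have : ((c' g).1, p.2) = c' g := by rw [e1, e]
    rw [this, Function.update_eq_self]
  · refine Am_step hR hδ ?_ (mono_R hR hS hc' g (by rw [e1]; exact h2) (by rw [e1]; exact h3))
    have := cnt_update c' g ((c' g).1, p.2)
    have h4 := card_lt_card (compl_ssubset_compl.2 e)
    have h5 : (c' g).2 = (c g).2 := by rw [e1]
    rw [h5] at this
    simp only at *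
    omega

end Crest.Agent.N336.C
end

-- ▼ part N336/C/RigC
section

/-!
# Row 336, CORE: the local data of a crossing term (helper50)
-/

set_option autoImplicit false
set_option linter.unusedSectionVars false

open Matrix Finset
open scoped ComplexOrder MatrixOrder Matrix.Norms.L2Operator InnerProductSpace

namespace Crest.Agent.N336.C

open Crest.Agent.N336.Q Crest.Agent.N336.Eng Crest.Agent.N336.R

variable {ι : Type} [Fintype ι] [DecidableEq ι] {d : ι → Type} [∀ x, Fintype (d x)]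
  [∀ x, DecidableEq (d x)] [∀ x, Nonempty (d x)] {I : Type} [Fintype I] [DecidableEq I]
  {R : Rp d I} {V : Type} [Fintype V] {h : V → Q.Op d} {a : ℕ} {C J l s δ : ℝ}
  {K w r b₁ b₂ N₀ Na : ℕ} {S : Scn ι V K w r b₁ b₂ N₀ Na}

lemma Scn.Ok.update {c : Cnf ι K} (hc : S.Ok c) (g : Fin K) {p : Finset ι × Finset ι}
    (hp : (S.ini g).1 ⊆ p.1 ∧ p.1 ⊆ (S.fin g).1 ∧ (S.fin g).2 ⊆ p.2 ∧ p.2 ⊆ (S.ini g).2) :
    S.Ok (Function.update c g p) := fun g' => by
  by_cases e : g' = g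
  · subst e; rw [Function.update_self]; exact hp
  · rw [Function.update_of_ne e]; exact hc g'

theorem Am_mono (hR : R.Alg) (hS : R.Asy h S.Z a C J l s δ) (hδ : 0 ≤ δ)
    (hL : ∀ c, S.Ok c → Lam S.A₁ c) {c c' : Cnf ι K} (hc : S.Ok c) (hc' : S.Ok c')
    (H : ∀ g, (c g).1 ⊆ (c' g).1 ∧ (c' g).2 ⊆ (c g).2) : R.Am S.A₁ δ c' ≤ R.Am S.A₁ δ c := by
  have key : ∀ T : Finset (Fin K), R.Am S.A₁ δ (T.piecewise c' c) ≤ R.Am S.A₁ δ c := by
    intro T
    induction T using Finset.induction_on with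
    | empty => rw [Finset.piecewise_empty]
    | insert g T hg ih =>
      have ok : S.Ok (T.piecewise c' c) := fun g' => by
        by_cases e : g' ∈ T
        · rw [Finset.piecewise_eq_of_mem _ _ _ e]; exact hc' g'
        · rw [Finset.piecewise_eq_of_notMem _ _ _ e]; exact hc g'
      have e : T.piecewise c' c g = c g := Finset.piecewise_eq_of_notMem _ _ _ hg
      rw [Finset.piecewise_insert]
      refine le_trans (Am_update hR hS hδ g (hL _ ok) (hL _ (ok.update g ?_)) ?_ (hL _ hc' g).1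
        ?_) ih
      · rw [e]; exact ⟨(hc' g).1, (hc' g).2.1, (hc g).2.2⟩
      · rw [e]; exact (H g).1
      · rw [e]; exact (H g).2
  simpa using key univ

lemma mv_le (c : Cnf ι K) (v : V) (g : Fin K) :
    (c g).1 ⊆ (S.mv c v g).1 ∧ (S.mv c v g).2 ⊆ (c g).2 := by
  unfold Scn.mv
  constructor
  · dsimp only; split_ifs; exacts [subset_union_left, Subset.rfl]
  · dsimp only; split_ifs; exacts [sdiff_subset, Subset.rfl]

lemma cnt_mono {c c' : Cnf ι K} (H : ∀ g, (c g).1 ⊆ (c' g).1 ∧ (c' g).2 ⊆ (c g).2) :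
    cnt c ≤ cnt c' :=
  Finset.sum_le_sum fun g _ => add_le_add (card_le_card (H g).1)
    (card_le_card (compl_subset_compl.2 (H g).2))

/-- the local data of a crossing term -/
structure Loc (R : Rp d I) (S : Scn ι V K w r b₁ b₂ N₀ Na) (h : V → Q.Op d) (s e : ℝ)
    (c : Cnf ι K) (v : V) (P y Y A : Finset ι) : Prop where
  d1 : Disjoint P y
  d2 : Disjoint P Y
  d3 : Disjoint y Y
  s1 : y ⊆ S.Z v
  s2 : S.Z v ⊆ P ∪ y
  side : A = P ∨ A = Pᶜ
  conj : ee (-R.Lg S.A₁ c) * R.hh (h v) * ee (R.Lg S.A₁ c) = R.X A (Y ∪ y) (h v)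
  gain : S.act v → ∀ χ : Q.Vec (Cfg d), ‖χ‖ = 1 →
    qf (R.cv χ) (ee (-R.Lg S.A₁ c) * ee ((2 : ℝ) • R.Lg S.A₁ (S.mv c v)) * ee (-R.Lg S.A₁ c)) ≤
      Real.exp (R.k * (-(2 * s * eta χ P y Y) + e))

lemma X_eq (hR : R.Alg) {A Y : Finset ι} (hc : Commute (R.lw true A) (R.lw false Y))
    (h : Q.Op d) : ee (-(R.lw true A - R.lw false Y)) * R.hh h * ee (R.lw true A - R.lw false Y) =
      R.X A Y h := by
  have e1 : ee (-(R.lw true A - R.lw false Y)) = ee (-R.lw true A) * ee (R.lw false Y) := by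
    rw [neg_sub', sub_neg_eq_add, ee_add (hR.herm _ _).neg (hR.herm _ _) hc.neg_left]
  have e2 : ee (R.lw true A - R.lw false Y) = ee (-R.lw false Y) * ee (R.lw true A) := by
    rw [sub_eq_neg_add, ee_add (hR.herm _ _).neg (hR.herm _ _) hc.symm.neg_left]
  rw [e1, e2, Rp.X]
  simp only [Matrix.mul_assoc]

theorem exists_loc (hR : R.Alg) (hS : R.Asy h S.Z a C J l s δ) (hδ : 0 ≤ δ) {c : Cnf ι K}
    (hc : Lam S.A₁ c) {v : V} (hv : Supp (S.Z v) (h v)) (hl : Real.log (dim d (S.Z v)) ≤ l)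
    (hx : ∃ g, S.CrP c v g ∨ S.CrR c v g) :
    ∃ q : Finset ι × Finset ι × Finset ι × Finset ι,
      Loc R S h s (C * s ^ (1 + (1 : ℝ) / a) * l ^ a + 3 * δ) c v q.1 q.2.1 q.2.2.1 q.2.2.2 := by
  have hM : ∀ b A, S.Z v ⊆ A ∨ Disjoint (S.Z v) A → Commute (R.lw b A) (R.hh (h v)) :=
    fun b A hA => hR.comm_hh b A _ _ hv hA
  obtain ⟨g, ⟨-, x2, x3, x4, x5⟩ | ⟨-, x2, x3, x4, x5⟩⟩ := hx
  · obtain ⟨U, hU, H, hUe⟩ := hR.dec_P hc g
    have p1 : (c g).1 ⊆ (c g).1 ∪ S.Z v := subset_union_left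
    have p2 : (c g).1 ∪ S.Z v ⊆ (c g).2 := union_subset (hc g).1 x2
    obtain ⟨e1, c1⟩ := H _ p1 p2
    obtain ⟨e0, c0⟩ := H _ Subset.rfl (hc g).1
    rw [Prod.mk.eta, Function.update_eq_self] at e0
    have u1 : (c g).1 ∪ S.Z v \ (c g).1 = (c g).1 ∪ S.Z v := union_sdiff_self_eq_union
    have u2 : (c g).2 \ ((c g).1 ∪ S.Z v) ∪ S.Z v \ (c g).1 = (c g).2 \ (c g).1 := by
      ext x
      have := @x2 x
      simp only [mem_union, mem_sdiff]; tauto
    have d1 : Disjoint (c g).1 (S.Z v \ (c g).1) := disjoint_sdiff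
    have d2 : Disjoint (c g).1 ((c g).2 \ ((c g).1 ∪ S.Z v)) := disjoint_sdiff.mono_left p1
    have d3 : Disjoint (S.Z v \ (c g).1) ((c g).2 \ ((c g).1 ∪ S.Z v)) :=
      disjoint_sdiff.mono_left (sdiff_subset.trans subset_union_right)
    refine ⟨((c g).1, S.Z v \ (c g).1, (c g).2 \ ((c g).1 ∪ S.Z v), (c g).1), d1, d2, d3,
      sdiff_subset, by rw [u1]; exact subset_union_right, .inl rfl, ?_, fun ha χ hχ => ?_⟩
    · dsimp only
      rw [u2, e0, ee_conj_add ((hR.herm _ _).sub (hR.herm _ _)) hU c0, X_eq hR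
        (hR.comm _ _ _ _ (.inr disjoint_sdiff))]
      rw [hUe]
      exact (hM _ _ (.inl x2)).add_left (Rp.Alg.comm_rest_of hc g hM (S.disj v) x3 x4)
    · dsimp only
      rw [x5 ha, e1, e0, ee_sandwich_add ((hR.herm _ _).sub (hR.herm _ _))
        ((hR.herm _ _).sub (hR.herm _ _)) hU c0 c1]
      have := gain_loc_P hR hS d1 d2 d3 ((log_dim_mono sdiff_subset).trans hl) hχ
      rw [u1, u2] at this
      refine this.trans (Real.exp_le_exp.2 (mul_le_mul_of_nonneg_left ?_ (Nat.cast_nonneg _)))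
      linarith
  · obtain ⟨U, hU, H, hUe⟩ := hR.dec_R hc g
    have p1 : (c g).1 ⊆ (c g).2 \ S.Z v := subset_sdiff.2 ⟨(hc g).1, x2.symm⟩
    have p2 : (c g).2 \ S.Z v ⊆ (c g).2 := sdiff_subset
    obtain ⟨e1, c1⟩ := H _ p1 p2
    obtain ⟨e0, c0⟩ := H _ (hc g).1 Subset.rfl
    rw [Prod.mk.eta, Function.update_eq_self] at e0
    have u1 : ((c g).2ᶜ ∪ S.Z v ∩ (c g).2)ᶜ = (c g).2 \ S.Z v := by
      ext x
      simp only [mem_compl, mem_union, mem_sdiff, mem_inter]; tauto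
    have u2 : ((c g).2 \ S.Z v) \ (c g).1 ∪ S.Z v ∩ (c g).2 = (c g).2 \ (c g).1 := by
      ext x
      have : x ∈ S.Z v → x ∉ (c g).1 := fun hx => disjoint_left.1 x2 hx
      simp only [mem_union, mem_sdiff, mem_inter]; tauto
    have d1 : Disjoint (c g).2ᶜ (S.Z v ∩ (c g).2) :=
      disjoint_compl_left.mono_right inter_subset_right
    have d2 : Disjoint (c g).2ᶜ (((c g).2 \ S.Z v) \ (c g).1) :=
      disjoint_compl_left.mono_right (sdiff_subset.trans p2)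
    have d3 : Disjoint (S.Z v ∩ (c g).2) (((c g).2 \ S.Z v) \ (c g).1) :=
      (disjoint_sdiff.mono_right sdiff_subset).mono_left inter_subset_left
    refine ⟨((c g).2ᶜ, S.Z v ∩ (c g).2, ((c g).2 \ S.Z v) \ (c g).1, (c g).2), d1, d2, d3,
      inter_subset_left, fun x hx => ?_, .inr (compl_compl _).symm, ?_, fun ha χ hχ => ?_⟩
    · simp only [mem_compl, mem_union, mem_inter]; tauto
    · dsimp only
      rw [u2, e0, ee_conj_add ((hR.herm _ _).sub (hR.herm _ _)) hU c0, X_eq hR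
        (hR.comm' _ _ (.inl sdiff_subset))]
      rw [hUe]
      exact (hM _ _ (.inr x2)).add_left (Rp.Alg.comm_rest_of hc g hM (S.disj v) x3 x4)
    · dsimp only
      rw [x5 ha, e1, e0, ee_sandwich_add ((hR.herm _ _).sub (hR.herm _ _))
        ((hR.herm _ _).sub (hR.herm _ _)) hU c0 c1]
      have := gain_loc_R hR hS d1 d2 d3 ((log_dim_mono inter_subset_left).trans hl) hχ
      rwa [u1, u2, compl_compl, add_assoc] at this

/-! ### value bounds -/

/-- the functional as a continuous function -/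
noncomputable def fnC (d : ι → Type) [∀ x, Fintype (d x)] [∀ x, DecidableEq (d x)]
    [∀ x, Nonempty (d x)] (A₁ : Finset ι) (c : Cnf ι K) : C(Sph (Cfg d), ℝ) :=
  ∑ g, (SC (c g).1 + SC (c g).2 - SC ((c g).2 \ (c g).1) - (2 : ℝ) • SC A₁)

lemma fnC_apply (A₁ : Finset ι) (c : Cnf ι K) (χ : Sph (Cfg d)) :
    fnC d A₁ c χ = fn A₁ c χ.1 := by
  simp only [fnC, fn, ContinuousMap.sum_apply, ContinuousMap.sub_apply, ContinuousMap.add_apply,
    ContinuousMap.smul_apply, SC_apply, smul_eq_mul]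

lemma Lg_le {Z : V → Finset ι} (hS : R.Asy h Z a C J l s δ) (A₁ : Finset ι) (c : Cnf ι K) :
    R.Lg A₁ c ≤ (-(s * R.k)) • R.T (fnC d A₁ c) + (5 * K * (δ * R.k)) • (1 : Matrix I I ℂ) := by
  have k1 : ∀ b A, R.lw b A ≤ (-(s * R.k)) • R.T (SC A) + (δ * R.k) • (1 : Matrix I I ℂ) :=
    fun b A => by
      have := hS.up b A ((-s) • SC A) fun χ => by simp
      rwa [map_smul, smul_smul, mul_neg, mul_comm] at this
  have k2 : ∀ b A, -R.lw b A ≤ (s * R.k) • R.T (SC A) + (δ * R.k) • (1 : Matrix I I ℂ) :=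
    fun b A => by
      have := hS.up' b A (s • SC A) fun χ => by simp
      rwa [map_smul, smul_smul, mul_comm] at this
  have e : (5 * K * (δ * R.k)) • (1 : Matrix I I ℂ) =
      ∑ _g : Fin K, (5 * (δ * R.k)) • (1 : Matrix I I ℂ) := by
    rw [Finset.sum_const, card_univ, Fintype.card_fin, ← Nat.cast_smul_eq_nsmul ℝ, smul_smul]
    congr 1; ring
  rw [Rp.Lg, fnC, map_sum, Finset.smul_sum, e, ← Finset.sum_add_distrib]
  refine Finset.sum_le_sum fun g _ => ?_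
  have := add_le_add (add_le_add (add_le_add (k1 true (c g).1) (k1 true (c g).2))
    (k2 false ((c g).2 \ (c g).1))) (rsmul_mono (by norm_num : (0 : ℝ) ≤ 2) (k2 false A₁))
  refine le_trans (le_of_eq ?_) (this.trans (le_of_eq ?_))
  · rw [Rp.loc]; module
  · simp only [map_sub, map_add, map_smul]; module

lemma le_qf_Lg {Z : V → Finset ι} (hS : R.Asy h Z a C J l s δ) (A₁ : Finset ι) (c : Cnf ι K)
    {χ : Q.Vec (Cfg d)} (hχ : ‖χ‖ = 1) :
    -(s * R.k * fn A₁ c χ) - 5 * K * (δ * R.k) ≤ qf (R.cv χ) (R.Lg A₁ c) := by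
  have e : qf (R.cv χ) (R.Lg A₁ c) = ∑ g, qf (R.cv χ) (R.loc A₁ (c g)) := re_inner_sum _ _ _
  have e2 : 5 * K * (δ * R.k) = ∑ _g : Fin K, 5 * (δ * R.k) := by
    rw [Finset.sum_const, card_univ, Fintype.card_fin, nsmul_eq_mul]; ring
  rw [e, fn, Finset.mul_sum, e2, ← Finset.sum_neg_distrib, ← Finset.sum_sub_distrib]
  refine Finset.sum_le_sum fun g _ => ?_
  rw [Rp.loc, qf_sub, qf_sub, qf_add, qf_rsmul]
  have h1 := abs_le.1 (hS.lo true (c g).1 χ hχ)
  have h2 := abs_le.1 (hS.lo true (c g).2 χ hχ)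
  have h3 := abs_le.1 (hS.lo false ((c g).2 \ (c g).1) χ hχ)
  have h4 := abs_le.1 (hS.lo false A₁ χ hχ)
  linarith [h1.1, h2.1, h3.2, h4.2]

end Crest.Agent.N336.C
end

-- ▼ part N336/C/RigD
section

/-!
# Row 336, CORE: the hypotheses of the operator engine (helper50)
-/

set_option autoImplicit false
set_option linter.unusedSectionVars false

open Matrix Finset
open scoped ComplexOrder MatrixOrder Matrix.Norms.L2Operator InnerProductSpace

namespace Crest.Agent.N336.C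

open Crest.Agent.N336.Q Crest.Agent.N336.Eng Crest.Agent.N336.R

section abstract

variable {n : Type} [Fintype n] [DecidableEq n]

lemma defect_eq {G L W : Matrix n n ℂ} (hG : G.PosDef) (hL : L.IsHermitian) (hW : W.PosDef) :
    (pw G (-(1 / 2)) * ee L * W * ee L * pw G (-(1 / 2))).PosDef ∧
    (pw G (1 / 2) * (ee L * ee L) - pw G (-(1 / 2)) * ee L * W * ee L * pw G (-(1 / 2)) *
        pw G (1 / 2))ᴴ * (pw G (-(1 / 2)) * ee L * W * ee L * pw G (-(1 / 2)))⁻¹ *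
      (pw G (1 / 2) * (ee L * ee L) - pw G (-(1 / 2)) * ee L * W * ee L * pw G (-(1 / 2)) *
        pw G (1 / 2)) =
      ee L * ((ee (-L) * G * ee L - W)ᴴ * W⁻¹ * (ee (-L) * G * ee L - W)) * ee L := by
  set g := pw G (1 / 2)
  set gi := pw G (-(1 / 2))
  set q := ee L
  set qi := ee (-L)
  have a1 : ∀ M : Matrix n n ℂ, gi * (g * M) = M := fun M => by
    rw [← Matrix.mul_assoc, pw_neg_mul hG, Matrix.one_mul]
  have a2 : ∀ M : Matrix n n ℂ, g * (gi * M) = M := fun M => by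
    rw [← Matrix.mul_assoc, pw_mul_neg hG, Matrix.one_mul]
  have a3 : ∀ M : Matrix n n ℂ, qi * (q * M) = M := fun M => by
    rw [← Matrix.mul_assoc, ee_neg_mul_ee hL, Matrix.one_mul]
  have a4 : ∀ M : Matrix n n ℂ, q * (qi * M) = M := fun M => by
    rw [← Matrix.mul_assoc, ee_mul_ee_neg hL, Matrix.one_mul]
  have a5 : ∀ M : Matrix n n ℂ, W⁻¹ * (W * M) = M := fun M => by
    rw [← Matrix.mul_assoc, Matrix.nonsing_inv_mul _ ((Matrix.isUnit_iff_isUnit_det _).1 hW.isUnit),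
      Matrix.one_mul]
  have a6 : G = g * g := by rw [pw_mul_pw hG, add_halves, pw_one hG.1]
  have hq : qᴴ = q := (ee_herm L).eq
  have hgi : giᴴ = gi := pw_conjTranspose _ _
  constructor
  · have := hW.conjTranspose_mul_mul_same (B := q * gi) (Matrix.mulVec_injective_of_isUnit
      ((ee_posDef L).isUnit.mul (pw_posDef hG _).isUnit))
    rw [conjTranspose_mul, hq, hgi] at this
    simpa only [Matrix.mul_assoc] using this
  · have e1 : g * (q * q) - gi * q * W * q * gi * g = gi * (q * ((qi * G * q - W) * q)) := by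
      rw [Matrix.mul_assoc _ gi g, pw_neg_mul hG, Matrix.mul_one]
      conv_rhs => rw [a6]
      simp only [Matrix.sub_mul, Matrix.mul_sub, Matrix.mul_assoc, a1, a4]
    have e2 : (gi * q * W * q * gi)⁻¹ = g * (qi * (W⁻¹ * (qi * g))) := by
      refine Matrix.inv_eq_left_inv ?_
      simp only [Matrix.mul_assoc, a2, a3, a5]
      exact pw_mul_neg hG _
    rw [e1, e2]
    simp only [conjTranspose_mul, hq, hgi, Matrix.mul_assoc, a1, a2, a3, a4]

lemma qf_proj_le {O M : Matrix n n ℂ} (hO : O.IsHermitian) (hOO : O * O = O) (hM : M.PosSemidef)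
    (hc : Commute O M) (v : Q.Vec n) : qf (ap O v) M ≤ qf v M := by
  rw [← qf_conj' v hO]
  refine qf_mono v ?_
  have h1 : O * M * O = M * O := by rw [hc.eq, Matrix.mul_assoc, hOO]
  have h2 : ((1 : Matrix n n ℂ) - O).PosSemidef := by
    have : (1 : Matrix n n ℂ) - O = (1 - O)ᴴ * (1 - O) := by
      rw [conjTranspose_sub, conjTranspose_one, hO.eq, Matrix.sub_mul, Matrix.mul_sub,
        Matrix.mul_sub, hOO]; simp
    rw [this]; exact posSemidef_conjTranspose_mul_self _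
  rw [h1, Matrix.le_iff]
  have := posSemidef_mul hM h2 ((Commute.one_right M).sub_right hc.symm)
  rwa [Matrix.mul_sub, Matrix.mul_one] at this

lemma qf_vsmul (c : ℝ) (v : Q.Vec n) (M : Matrix n n ℂ) :
    qf ((c : ℂ) • v) M = c ^ 2 * qf v M := by
  rw [qf, qf, map_smul, inner_smul_left, inner_smul_right, Complex.conj_ofReal, ← mul_assoc,
    ← Complex.ofReal_mul, Complex.re_ofReal_mul, sq]

lemma qf_pos' {M : Matrix n n ℂ} (hM : M.PosDef) {v : Q.Vec n} (hv : v ≠ 0) : 0 < qf v M := by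
  have h1 : M = pw M (1 / 2) * 1 * pw M (1 / 2) := by
    rw [Matrix.mul_one, pw_mul_pw hM, add_halves, pw_one hM.1]
  rw [h1, qf_conj' v (pw_isHermitian _ _), qf_one]
  refine pow_pos (norm_pos_iff.2 fun h0 => hv ?_) 2
  have := congrArg (ap (pw M (-(1 / 2)))) h0
  rwa [← ap_mul, pw_neg_mul hM, ap_one, map_zero] at this

/-- upper bound for the logarithm of the norm -/
lemma log_qf_le {M : Matrix n n ℂ} (hM : M.PosDef) {Ω : Q.Vec n} (hΩ : ‖Ω‖ = 1) :
    ∃ Φ : Q.Vec n, ‖Φ‖ = 1 ∧ ap (pw M (1 / 4)) Ω = ((‖ap (pw M (1 / 4)) Ω‖ : ℝ) : ℂ) • Φ ∧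
      0 < ‖ap (pw M (1 / 4)) Ω‖ ∧
      Real.log (qf Ω (pw M (1 / 2))) ≤ (1 / 2) * qf Φ (lg M) := by
  set u := ap (pw M (1 / 4)) Ω with hu
  have h1 : qf Ω (pw M (1 / 2)) = ‖u‖ ^ 2 := by
    rw [← qf_one, hu, ← qf_conj' _ (pw_isHermitian _ _), Matrix.mul_one, pw_mul_pw hM]; norm_num
  have h0 : 0 < ‖u‖ := by
    have := qf_pos' (pw_posDef hM (1 / 2)) (v := Ω) (norm_ne_zero_iff.1 (by rw [hΩ]; norm_num))
    rw [h1] at this
    exact (norm_nonneg u).lt_of_ne fun e => by rw [← e] at this; simp at this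
  have hn : ‖((‖u‖⁻¹ : ℝ) : ℂ) • u‖ = 1 := by
    rw [norm_smul, Complex.norm_real, norm_inv, norm_norm, inv_mul_cancel₀ h0.ne']
  refine ⟨((‖u‖⁻¹ : ℝ) : ℂ) • u, hn, ?_, h0, ?_⟩
  · rw [smul_smul, ← Complex.ofReal_mul, mul_inv_cancel₀ h0.ne', Complex.ofReal_one, one_smul]
  · have h2 := qf_lg_le (pw_posDef hM (-(1 / 2))) hn
    have h3 : qf (((‖u‖⁻¹ : ℝ) : ℂ) • u) (pw M (-(1 / 2))) = (‖u‖ ^ 2)⁻¹ := by
      rw [qf_vsmul, hu, ← qf_conj' _ (pw_isHermitian _ _), pw_mul_pw hM, pw_mul_pw hM]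
      norm_num [pw_zero, qf_one, hΩ]
    rw [h3, lg_pw hM, qf_smul, Real.log_inv] at h2
    rw [h1]; linarith

end abstract

section ex

variable {Cf X : Type} [Fintype X] [Nonempty X] (mv : Cf → X → Cf)

lemma avg_iter_aff {α : Type*} (s : Finset α) (f : α → Cf → ℝ) (a b : ℝ) (t : ℕ) :
    (avg mv)^[t] (fun c => a * ∑ i ∈ s, f i c + b) =
      fun c => a * ∑ i ∈ s, (avg mv)^[t] (f i) c + b := by
  induction t with
  | zero => rfl
  | succ t ih =>
    funext c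
    have hN : (Fintype.card X : ℝ) ≠ 0 := by exact_mod_cast Fintype.card_pos.ne'
    simp only [Function.iterate_succ_apply', ih, avg]
    rw [Finset.sum_add_distrib, ← Finset.mul_sum, Finset.sum_comm, ← Finset.sum_div,
      Finset.sum_const, card_univ, nsmul_eq_mul]
    field_simp

lemma ex_aff {α : Type*} (s : Finset α) (f : α → Cf → ℝ) (a b : ℝ) (c₀ : Cf) {T : ℕ} (hT : 1 ≤ T)
    (t : ℕ) : ex mv c₀ T t (fun c => a * ∑ i ∈ s, f i c + b) =
      a * ∑ i ∈ s, ex mv c₀ T t (f i) + b := by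
  have hN : (T : ℝ) ≠ 0 := by positivity
  simp only [ex, avg_iter_aff]
  rw [Finset.sum_add_distrib, ← Finset.mul_sum, Finset.sum_comm, ← Finset.sum_div,
    Finset.sum_const, card_range, nsmul_eq_mul]
  field_simp

lemma ex_subtype {p : Cf → Prop} (hp : ∀ c x, p c → p (mv c x)) (c₀ : {c // p c}) (T t : ℕ)
    (f : Cf → ℝ) : ex (fun (c : {c // p c}) x => (⟨mv c.1 x, hp _ _ c.2⟩ : {c // p c})) c₀ T t
      (fun c => f c.1) = ex mv c₀.1 T t f := by
  have : ∀ t : ℕ, (avg fun (c : {c // p c}) x => (⟨mv c.1 x, hp _ _ c.2⟩ : {c // p c}))^[t]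
      (fun c => f c.1) = fun c => (avg mv)^[t] f c.1 := fun t => by
    induction t with
    | zero => rfl
    | succ t ih => funext c; simp only [Function.iterate_succ_apply', ih, avg]
  simp only [ex, this]

end ex

lemma rpow_le_lin {x lam κ : ℝ} (hx : 0 ≤ x) (hl : 0 < lam) (h0 : 0 < κ) (h1 : κ ≤ 1) :
    x ^ κ ≤ lam ^ κ + lam ^ (κ - 1) * x := by
  have p1 : 0 ≤ lam ^ (κ - 1) * x := by positivity
  rcases le_total x lam with h | h
  · have := Real.rpow_le_rpow hx h h0.le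
    linarith
  · have hx0 : 0 < x := hl.trans_le h
    have h2 := Real.rpow_le_rpow_of_nonpos hl h (by linarith : κ - 1 ≤ 0)
    have h3 : x ^ κ = x ^ (κ - 1) * x := by rw [Real.rpow_sub_one hx0.ne']; field_simp
    have h4 : 0 ≤ lam ^ κ := by positivity
    rw [h3]; nlinarith

variable {ι : Type} [Fintype ι] [DecidableEq ι] {d : ι → Type} [∀ x, Fintype (d x)]
  [∀ x, DecidableEq (d x)] [∀ x, Nonempty (d x)] {I : Type} [Fintype I] [DecidableEq I]
  {R : Rp d I} {V : Type} [Fintype V] {h : V → Q.Op d} {a : ℕ} {C J l s δ : ℝ}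
  {K w r b₁ b₂ N₀ Na : ℕ} {S : Scn ι V K w r b₁ b₂ N₀ Na}

/-- the activity as a continuous function -/
noncomputable def etaC (d : ι → Type) [∀ x, Fintype (d x)] [∀ x, DecidableEq (d x)]
    [∀ x, Nonempty (d x)] (P y Y : Finset ι) : C(Sph (Cfg d), ℝ) :=
  SC (P ∪ y) - SC P + SC (Y ∪ y) - SC Y

lemma etaC_apply (P y Y : Finset ι) (χ : Sph (Cfg d)) : etaC d P y Y χ = eta χ.1 P y Y := rfl

/-- the symbol of the defect -/
noncomputable def dfC (d : ι → Type) [∀ x, Fintype (d x)] [∀ x, DecidableEq (d x)]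
    [∀ x, Nonempty (d x)] (c δ : ℝ) (a : ℕ) (P y Y : Finset ι) : C(Sph (Cfg d), ℝ) :=
  ⟨fun χ => c * (etaC d P y Y χ + δ) ^ ((1 : ℝ) / a), continuous_const.mul
    (((etaC d P y Y).continuous.add continuous_const).rpow_const fun _ => .inr (by positivity))⟩

lemma T_const (hR : R.Alg) (c : ℝ) : R.T (ContinuousMap.const _ c) = c • (1 : Matrix I I ℂ) := by
  rw [← hR.T_one, ← map_smul]
  congr 1
  ext; simp

lemma T_le (hR : R.Alg) {f : C(Sph (Cfg d), ℝ)} {c : ℝ} (H : ∀ χ, f χ ≤ c) :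
    R.T f ≤ c • (1 : Matrix I I ℂ) := by
  rw [← T_const hR]; exact hR.T_mono _ _ H

lemma le_T (hR : R.Alg) {f : C(Sph (Cfg d), ℝ)} {c : ℝ} (H : ∀ χ, c ≤ f χ) :
    c • (1 : Matrix I I ℂ) ≤ R.T f := by
  rw [← T_const hR]; exact hR.T_mono _ _ H

lemma pw_Am_half (hR : R.Alg) (A₁ : Finset ι) (c : Cnf ι K) :
    pw (R.Am A₁ δ c) (1 / 2) = ee (R.Lf A₁ δ c) := by
  rw [Rp.Am, pw_ee (herm_rsmul (Lf_herm hR c) _), smul_smul]; norm_num

lemma pw_Am_neg_half (hR : R.Alg) (A₁ : Finset ι) (c : Cnf ι K) :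
    pw (R.Am A₁ δ c) (-1 / 2) = ee (-R.Lf A₁ δ c) := by
  rw [Rp.Am, pw_ee (herm_rsmul (Lf_herm hR c) _), smul_smul]; norm_num

lemma conj_Lf (hR : R.Alg) (A₁ : Finset ι) (c : Cnf ι K) (M : Matrix I I ℂ) :
    ee (-R.Lf A₁ δ c) * M * ee (R.Lf A₁ δ c) = ee (-R.Lg A₁ c) * M * ee (R.Lg A₁ c) := by
  rw [ee_Lf hR, ee_neg_Lf hR, Matrix.smul_mul, Matrix.smul_mul, Matrix.mul_smul, smul_smul,
    ← Real.exp_add, add_neg_cancel, Real.exp_zero, one_smul]

lemma sandwich_Lf (hR : R.Alg) (hδ : 0 ≤ δ) (A₁ : Finset ι) {c c' : Cnf ι K} (hc : cnt c ≤ cnt c')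
    (v : Q.Vec I) : qf v (ee (-R.Lf A₁ δ c) * R.Am A₁ δ c' * ee (-R.Lf A₁ δ c)) ≤
      qf v (ee (-R.Lg A₁ c) * ee ((2 : ℝ) • R.Lg A₁ c') * ee (-R.Lg A₁ c)) := by
  rw [ee_neg_Lf hR, Am_eq hR]
  simp only [Matrix.smul_mul, Matrix.mul_smul, smul_smul, qf_rsmul]
  refine mul_le_of_le_one_left ?_ ?_
  · rw [qf_conj' _ (ee_herm _)]; exact re_inner_ap_nonneg (ee_posDef _).posSemidef _
  · rw [← Real.exp_add, ← Real.exp_add, Real.exp_le_one_iff]
    have h3 : (cnt c : ℝ) ≤ cnt c' := by exact_mod_cast hc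
    have : 0 ≤ δ * R.k := by positivity
    nlinarith

lemma sandwich_self (hR : R.Alg) (A₁ : Finset ι) (c : Cnf ι K) :
    ee (-R.Lf A₁ δ c) * R.Am A₁ δ c * ee (-R.Lf A₁ δ c) = 1 := by
  rw [Rp.Am, ee_two (Lf_herm hR c), ← Matrix.mul_assoc, ee_neg_mul_ee (Lf_herm hR c),
    Matrix.one_mul, ee_mul_ee_neg (Lf_herm hR c)]

end Crest.Agent.N336.C
end

-- ▼ part N336/C/RigE
section

/-!
# Row 336, CORE: gain against energy for one configuration (helper50)
-/

set_option autoImplicit false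
set_option linter.unusedSectionVars false

open Matrix Finset
open scoped ComplexOrder MatrixOrder Matrix.Norms.L2Operator InnerProductSpace

namespace Crest.Agent.N336.C

open Crest.Agent.N336.Q Crest.Agent.N336.Eng Crest.Agent.N336.R

variable {ι : Type} [Fintype ι] [DecidableEq ι] {d : ι → Type} [∀ x, Fintype (d x)]
  [∀ x, DecidableEq (d x)] [∀ x, Nonempty (d x)] {I : Type} [Fintype I] [DecidableEq I]
  {R : Rp d I} {V : Type} [Fintype V] {h : V → Q.Op d} {a : ℕ} {C J l s δ : ℝ}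
  {K w r b₁ b₂ N₀ Na : ℕ} {S : Scn ι V K w r b₁ b₂ N₀ Na}

/-- cost of one crossing term -/
noncomputable def xi1 (a : ℕ) (c lam s e δ : ℝ) : ℝ :=
  c * lam ^ ((1 : ℝ) / a) + c * lam ^ ((1 : ℝ) / a - 1) * (δ + e / (2 * s)) + δ

open Classical in
theorem h3 [Nonempty V] (hR : R.Alg) (hS : R.Asy h S.Z a C J l s δ) (hδ : 0 < δ) (hs : 0 < s)
    (ha : 1 ≤ a) {c' lam e : ℝ} (hc' : 0 ≤ c') (hlam : 0 < lam) {c : Cnf ι K}
    (hmv : ∀ v, ¬ (S.act v ∧ S.cr c v) → S.mv c v = c)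
    (q : V → Finset ι × Finset ι × Finset ι × Finset ι)
    (hq : ∀ v, S.cr c v → Loc R S h s e c v (q v).1 (q v).2.1 (q v).2.2.1 (q v).2.2.2)
    {G : Matrix I I ℂ} (hG : G.PosDef)
    (H : ∀ u : Q.Vec I, u ≠ 0 → Real.log (qf u G) ≤
      (∑ x, Real.log (qf u (R.Am S.A₁ δ (S.mv c x)))) / Fintype.card V) :
    ∑ v ∈ univ.filter (fun v => S.act v ∧ S.cr c v),
        (R.T (dfC d c' δ a (q v).1 (q v).2.1 (q v).2.2.1) + δ • (1 : Matrix I I ℂ)) ≤
      (xi1 a c' lam s e δ * (univ.filter fun v => S.act v ∧ S.cr c v).card +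
          c' * lam ^ ((1 : ℝ) / a - 1) * Fintype.card V * δ / (2 * s)) • (1 : Matrix I I ℂ) -
        (c' * lam ^ ((1 : ℝ) / a - 1) * Fintype.card V / (2 * s * R.k)) •
          lg (ee (-R.Lf S.A₁ δ c) * G * ee (-R.Lf S.A₁ δ c)) := by
  set F := univ.filter fun v => S.act v ∧ S.cr c v with hF
  set γ := c' * lam ^ ((1 : ℝ) / a - 1) with hγ
  set N : ℝ := (Fintype.card V : ℝ) with hN
  have hN0 : 0 < N := by rw [hN]; exact_mod_cast Fintype.card_pos
  have hk : (0 : ℝ) < R.k := by exact_mod_cast hR.k_pos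
  have hγ0 : 0 ≤ γ := by positivity
  have hκ : (0 : ℝ) < 1 / a := by positivity
  have hκ1 : (1 : ℝ) / a ≤ 1 := by
    rw [div_le_one (by positivity)]; exact_mod_cast ha
  have hL := Lf_herm (δ := δ) (A₁ := S.A₁) hR c
  have hM : (ee (-R.Lf S.A₁ δ c) * G * ee (-R.Lf S.A₁ δ c)).PosDef := by
    have := hG.conjTranspose_mul_mul_same (B := ee (-R.Lf S.A₁ δ c))
      (Matrix.mulVec_injective_of_isUnit (ee_posDef _).isUnit)
    rwa [(ee_herm _).eq] at this
  let G₀ : C(Sph (Cfg d), ℝ) := N⁻¹ • ∑ v ∈ F,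
    ((-(2 * s)) • etaC d (q v).1 (q v).2.1 (q v).2.2.1 + ContinuousMap.const _ e)
  have hG₀ : ∀ χ, G₀ χ = N⁻¹ * ∑ v ∈ F, (-(2 * s * eta χ.1 (q v).1 (q v).2.1 (q v).2.2.1) + e) :=
    fun χ => by
      simp only [G₀, ContinuousMap.smul_apply, ContinuousMap.sum_apply, ContinuousMap.add_apply,
        ContinuousMap.const_apply, etaC_apply, smul_eq_mul, neg_mul]
  have hb := hS.bl _ G₀ hM fun χ => by
    have hχ := hR.cv_norm _ (Sph.norm χ)
    have hu : ap (ee (-R.Lf S.A₁ δ c)) (R.cv χ.1) ≠ 0 := fun h0 => by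
      have := congrArg (ap (ee (R.Lf S.A₁ δ c))) h0
      rw [← ap_mul, ee_mul_ee_neg hL, ap_one, map_zero] at this
      rw [this, norm_zero] at hχ; exact zero_ne_one hχ
    rw [qf_conj' _ (ee_herm _)]
    refine (H _ hu).trans ?_
    rw [hG₀, div_eq_inv_mul, mul_left_comm, hF, Finset.sum_filter, Finset.mul_sum _ _ (R.k : ℝ)]
    refine mul_le_mul_of_nonneg_left (Finset.sum_le_sum fun x _ => ?_) (by positivity)
    split_ifs with hx
    · refine (Real.log_le_iff_le_exp (qf_pos' (ee_posDef _) hu)).2 ?_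
      rw [← qf_conj' _ (ee_herm _)]
      exact (sandwich_Lf hR hδ.le _ (cnt_mono (mv_le c x)) _).trans
        ((hq x hx.2).gain hx.1 _ (Sph.norm χ))
    · rw [hmv x hx, ← qf_conj' _ (ee_herm _), sandwich_self hR, qf_one, hχ]; simp
  have hp : R.T (∑ v ∈ F, dfC d c' δ a (q v).1 (q v).2.1 (q v).2.2.1 + (γ * N / (2 * s)) • G₀) ≤
      ((xi1 a c' lam s e δ - δ) * F.card) • (1 : Matrix I I ℂ) := T_le hR fun χ => by
    rw [ContinuousMap.add_apply, ContinuousMap.smul_apply, hG₀, ContinuousMap.sum_apply,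
      smul_eq_mul, ← mul_assoc, Finset.mul_sum, ← Finset.sum_add_distrib, mul_comm _ (F.card : ℝ),
      ← nsmul_eq_mul]
    refine Finset.sum_le_card_nsmul _ _ _ fun v hv => ?_
    have hv' := hq v (mem_filter.1 hv).2.2
    have h0 := eta_nonneg χ.1 hv'.d1 hv'.d2 hv'.d3
    have h1 := mul_le_mul_of_nonneg_left
      (rpow_le_lin (add_nonneg h0 hδ.le) hlam hκ hκ1) hc'
    have h2 : γ * N / (2 * s) * N⁻¹ *
        (-(2 * s * eta χ.1 (q v).1 (q v).2.1 (q v).2.2.1) + e) =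
        -(γ * eta χ.1 (q v).1 (q v).2.1 (q v).2.2.1) + γ * (e / (2 * s)) := by
      field_simp
    rw [h2]
    change c' * (eta χ.1 _ _ _ + δ) ^ ((1 : ℝ) / a) + _ ≤ _
    rw [xi1, ← hγ]
    have h3 : c' * (lam ^ ((1 : ℝ) / a) + lam ^ ((1 : ℝ) / a - 1) *
        (eta χ.1 (q v).1 (q v).2.1 (q v).2.2.1 + δ)) = c' * lam ^ ((1 : ℝ) / a) +
        γ * (eta χ.1 (q v).1 (q v).2.1 (q v).2.2.1 + δ) := by rw [hγ]; ring
    nlinarith
  have hb' := rsmul_mono (by positivity : 0 ≤ γ * N / (2 * s * R.k)) hb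
  rw [map_add, map_sum, map_smul] at hp
  rw [le_sub_iff_add_le, Finset.sum_add_distrib, Finset.sum_const]
  refine (add_le_add_right hb' _).trans ?_
  have e1 : (γ * N / (2 * s * R.k)) • ((R.k : ℝ) • R.T G₀ + (δ * R.k) • (1 : Matrix I I ℂ)) =
      (γ * N / (2 * s)) • R.T G₀ + (γ * N * δ / (2 * s)) • (1 : Matrix I I ℂ) := by
    rw [smul_add, smul_smul, smul_smul]
    congr 2 <;> field_simp
  rw [e1, ← Nat.cast_smul_eq_nsmul ℝ]
  refine le_trans (le_of_eq ?_) ((add_le_add_left hp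
    ((F.card * δ + γ * N * δ / (2 * s)) • (1 : Matrix I I ℂ))).trans (le_of_eq ?_))
  · module
  · module

/-- defect of a crossing term -/
theorem exists_defect (hR : R.Alg) (hS : R.Asy h S.Z a C J l s δ) (hδ : 0 < δ) {e : ℝ}
    {c : Cnf ι K} {v : V} {P y Y A : Finset ι} (hq : Loc R S h s e c v P y Y A)
    (hv : (h v).PosSemidef) (h1 : ‖h v‖ ≤ J) (h2 : Real.log (dim d (S.Z v)) ≤ l) :
    ∃ At : Matrix I I ℂ, At.PosDef ∧
      (pw (R.hh (h v) + δ • 1) (1 / 2) * R.Am S.A₁ δ c - At * pw (R.hh (h v) + δ • 1) (1 / 2))ᴴ *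
        At⁻¹ *
        (pw (R.hh (h v) + δ • 1) (1 / 2) * R.Am S.A₁ δ c - At * pw (R.hh (h v) + δ • 1) (1 / 2)) ≤
      pw (R.Am S.A₁ δ c) (1 / 2) *
        (R.T (dfC d (C * J * s ^ 2 * l ^ a) δ a P y Y) + δ • (1 : Matrix I I ℂ)) *
        pw (R.Am S.A₁ δ c) (1 / 2) := by
  obtain ⟨W, hW, hD⟩ := hS.dfc v P y Y A hq.d1 hq.d2 hq.d3 hq.s1 hq.s2 hq.side h1 h2
    (dfC d (C * J * s ^ 2 * l ^ a) δ a P y Y) fun χ => le_rfl
  have p1 : (δ • (1 : Matrix I I ℂ)).PosDef := PosDef.one.smul hδ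
  have hL := Lf_herm (δ := δ) (A₁ := S.A₁) hR c
  obtain ⟨k1, k2⟩ := defect_eq (PosDef.posSemidef_add (hR.hh_pos _ hv) p1) hL (hW.add p1)
  refine ⟨_, k1, ?_⟩
  rw [pw_Am_half hR, Rp.Am, ee_two hL, k2]
  have e1 : ee (-R.Lf S.A₁ δ c) * (R.hh (h v) + δ • 1) * ee (R.Lf S.A₁ δ c) - (W + δ • 1) =
      R.X A (Y ∪ y) (h v) - W := by
    rw [Matrix.mul_add, Matrix.add_mul, conj_Lf hR, hq.conj, Matrix.mul_smul, Matrix.mul_one,
      Matrix.smul_mul, ee_neg_mul_ee hL]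
    abel
  rw [e1]
  have := conj_mono ((conj_mono (inv_anti hW (le_add_of_nonneg_right p1.posSemidef.nonneg))
    (R.X A (Y ∪ y) (h v) - W)).trans hD) (ee (R.Lf S.A₁ δ c))
  rwa [(ee_herm _).eq] at this

lemma dfC_bounds (hδ : 0 < δ) (hδ1 : δ ≤ 1) (ha : 1 ≤ a) (hl : 1 ≤ l) {c' : ℝ} (hc' : 0 ≤ c')
    {P y Y : Finset ι} (d1 : Disjoint P y) (d2 : Disjoint P Y) (d3 : Disjoint y Y)
    (h2 : Real.log (dim d y) ≤ l) (χ : Sph (Cfg d)) :
    0 ≤ dfC d c' δ a P y Y χ ∧ dfC d c' δ a P y Y χ ≤ 3 * c' * l := by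
  have h0 := eta_nonneg χ.1 d1 d2 d3
  have h1 := eta_le (Sph.norm χ) P y Y
  have h3 : 0 ≤ eta χ.1 P y Y + δ := by positivity
  change 0 ≤ c' * (eta χ.1 P y Y + δ) ^ ((1 : ℝ) / a) ∧
    c' * (eta χ.1 P y Y + δ) ^ ((1 : ℝ) / a) ≤ _
  refine ⟨by positivity, ?_⟩
  have hκ1 : (1 : ℝ) / a ≤ 1 := by
    rw [div_le_one (by positivity)]; exact_mod_cast ha
  have h4 : (eta χ.1 P y Y + δ) ^ ((1 : ℝ) / a) ≤ 3 * l :=
    (Real.rpow_le_rpow h3 (by linarith : _ ≤ 3 * l) (by positivity)).trans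
      (by simpa using Real.rpow_le_rpow_of_exponent_le (by linarith : 1 ≤ 3 * l) hκ1)
  nlinarith

/-! ### the values at the two ends -/

lemma log_ini_le (hR : R.Alg) (hS : R.Asy h S.Z a C J l s δ) (hδ : 0 ≤ δ) (hs : 0 ≤ s)
    (c : Cnf ι K) {B : ℝ} (hB : ∀ χ : Q.Vec (Cfg d), ‖χ‖ = 1 → -B ≤ fn S.A₁ c χ) {v : Q.Vec I}
    (hv : ‖v‖ = 1) : Real.log (qf v (pw (R.Am S.A₁ δ c) (1 / 2))) ≤
      s * R.k * B + 5 * K * (δ * R.k) := by
  rw [pw_Am_half hR]
  have h1 : R.Lf S.A₁ δ c ≤ (s * R.k * B + 5 * K * (δ * R.k)) • (1 : Matrix I I ℂ) := by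
    have k1 := rsmul_mono (by positivity : 0 ≤ s * R.k)
      (le_T hR (f := fnC d S.A₁ c) (c := -B) fun χ => by rw [fnC_apply]; exact hB _ (Sph.norm χ))
    have k2 := Lg_le hS S.A₁ c
    have k3 : (-(3 / 2 * (δ * R.k) * cnt c) : ℝ) • (1 : Matrix I I ℂ) ≤ (0 : ℝ) • 1 :=
      rsmul_le_rsmul (neg_nonpos.2 (by positivity)) PosSemidef.one
    have := add_le_add (add_le_add k2 k3) k1
    rw [Rp.Lf, ← sub_nonneg]
    rw [← sub_nonneg] at this
    refine this.trans (le_of_eq ?_)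
    module
  have h2 := qf_mono v (ee_le_of_le (Lf_herm hR c) h1)
  rw [qf_rsmul, qf_one, hv, one_pow, mul_one] at h2
  exact (Real.log_le_iff_le_exp
    (qf_pos' (ee_posDef _) (norm_ne_zero_iff.1 (by rw [hv]; norm_num)))).2 h2

lemma le_qf_Lf (hR : R.Alg) (hS : R.Asy h S.Z a C J l s δ) (hδ : 0 ≤ δ) (c : Cnf ι K)
    {χ : Q.Vec (Cfg d)} (hχ : ‖χ‖ = 1) :
    Real.exp (-(s * R.k * fn S.A₁ c χ) - (5 * K + 3 * K * Fintype.card ι) * (δ * R.k)) ≤
      qf (R.cv χ) (pw (R.Am S.A₁ δ c) (1 / 2)) := by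
  rw [pw_Am_half hR]
  refine le_trans (Real.exp_le_exp.2 ?_) (exp_qf_le (Lf_herm hR c) (hR.cv_norm _ hχ))
  rw [Rp.Lf, qf_add, qf_rsmul, qf_one, hR.cv_norm _ hχ]
  have h1 := le_qf_Lg hS S.A₁ c hχ
  have h2 : (cnt c : ℝ) ≤ K * (2 * Fintype.card ι) := by exact_mod_cast cnt_le c
  have h3 : 0 ≤ δ * R.k := by positivity
  nlinarith

lemma lg_le_of_le (hR : R.Alg) (hS : R.Asy h S.Z a C J l s δ) (hδ : 0 ≤ δ) (hs : 0 ≤ s)
    (c : Cnf ι K) {α β : ℝ} (hβ : 0 ≤ β)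
    (hU : ∀ χ : Q.Vec (Cfg d), ‖χ‖ = 1 → α - β * qf χ (∑ v, h v) ≤ fn S.A₁ c χ)
    {M : Matrix I I ℂ} (hM : M.PosDef) (hle : M ≤ R.Am S.A₁ δ c) {Φ : Q.Vec I} (hΦ : ‖Φ‖ = 1) :
    (1 / 2) * qf Φ (lg M) ≤
      -(s * R.k * (α - β * (qf Φ (R.hh (∑ v, h v)) + δ))) + 5 * K * (δ * R.k) := by
  have h1 := qf_mono Φ (lg_mono hM hle)
  rw [Rp.Am, lg_ee (herm_rsmul (Lf_herm hR c) _), qf_rsmul, Rp.Lf, qf_add, qf_rsmul, qf_one,
    hΦ] at h1
  have h2 := qf_mono Φ (Lg_le hS S.A₁ c)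
  rw [qf_add, qf_rsmul, qf_rsmul, qf_one, hΦ] at h2
  let qC : C(Sph (Cfg d), ℝ) := ⟨fun χ => qf χ.1 (∑ v, h v), by unfold qf; fun_prop⟩
  have h3 := qf_mono Φ (hS.en qC fun χ => le_rfl)
  rw [qf_add, qf_rsmul, qf_one, hΦ] at h3
  have h4 := qf_mono Φ (le_T hR (f := fnC d S.A₁ c + β • qC) (c := α) fun χ => by
    have := hU _ (Sph.norm χ)
    rw [ContinuousMap.add_apply, fnC_apply, ContinuousMap.smul_apply, smul_eq_mul]
    change _ ≤ _ + β * qf χ.1 _
    linarith)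
  rw [map_add, map_smul, qf_add, qf_rsmul, qf_rsmul, qf_one, hΦ] at h4
  have h5 : 0 ≤ s * R.k := by positivity
  have h6 : 0 ≤ 3 / 2 * (δ * R.k) * cnt c := by positivity
  have h7 := mul_le_mul_of_nonneg_left h3 hβ
  have h8 : α - β * (qf Φ (R.hh (∑ v, h v)) + δ) ≤ qf Φ (R.T (fnC d S.A₁ c)) := by
    simp only [one_pow, mul_one] at *
    linarith
  have h9 := mul_le_mul_of_nonneg_left h8 h5
  simp only [one_pow, mul_one] at *
  linarith

lemma le_log_fin (hR : R.Alg) (hS : R.Asy h S.Z a C J l s δ) (hδ : 0 ≤ δ) {Ω : Q.Vec (Cfg d)}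
    {O : Q.Op d} {ZO : Finset ι} (hO : O.IsHermitian) (hOO : O * O = O) (hZ : Supp ZO O)
    {c : Cnf ι K} (h1 : ∀ g, ZO ⊆ (c g).1) (h1' : ∀ g, (c g).1 ⊆ (c g).2) (h2 : Disjoint ZO S.A₁)
    (h0 : ap O Ω ≠ 0) :
    R.k * Real.log (‖ap O Ω‖ ^ 2) - s * R.k * fn S.A₁ c (((‖ap O Ω‖⁻¹ : ℝ) : ℂ) • ap O Ω) -
        (5 * K + 3 * K * Fintype.card ι) * (δ * R.k) ≤
      Real.log (qf (R.cv Ω) (pw (R.Am S.A₁ δ c) (1 / 2))) := by
  set φ := ((‖ap O Ω‖⁻¹ : ℝ) : ℂ) • ap O Ω with hφ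
  have hn := norm_pos_iff.2 h0
  have hφ1 : ‖φ‖ = 1 := by
    rw [hφ, norm_smul, Complex.norm_real, norm_inv, norm_norm, inv_mul_cancel₀ hn.ne']
  have e1 : ap O Ω = ((‖ap O Ω‖ : ℝ) : ℂ) • φ := by
    rw [hφ, smul_smul, ← Complex.ofReal_mul, mul_inv_cancel₀ hn.ne', Complex.ofReal_one, one_smul]
  obtain ⟨t1, t2⟩ := hR.tp_proj O hO hOO
  have hc : Commute (R.tp O) (R.Lf S.A₁ δ c) :=
    (Rp.Alg.comm_Lg_of (fun b A hA => hR.comm_tp b A _ _ hZ (proj_posSemidef hO hOO) hA) h2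
      fun g => ⟨fun x => x.1 (h1 g), fun x => x.1 ((h1 g).trans (h1' g))⟩).add_right
      ((Commute.one_right _).smul_right _)
  have k1 := qf_proj_le t1 t2 (ee_posDef (R.Lf S.A₁ δ c)).posSemidef
    (commute_ee (Lf_herm hR c) hc.symm).symm (R.cv Ω)
  rw [hR.tp_cv, e1, hR.cv_smul, ← Complex.ofReal_pow, qf_vsmul, ← pw_Am_half hR] at k1
  have k2 := (mul_le_mul_of_nonneg_left (le_qf_Lf hR hS hδ c hφ1)
    (by positivity : 0 ≤ (‖ap O Ω‖ ^ R.k) ^ 2)).trans k1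
  refine le_trans (le_of_eq ?_) (Real.log_le_log (by positivity) k2)
  rw [Real.log_mul (by positivity) (Real.exp_pos _).ne', Real.log_exp, ← pow_mul, mul_comm R.k 2,
    pow_mul, Real.log_pow _ R.k]
  ring

end Crest.Agent.N336.C
end

-- ▼ part N336/C/Rig

/-!
# Row 336, CORE: the rigidity theorem (helper50)
-/

set_option autoImplicit false
set_option linter.unusedSectionVars false

open Matrix Finset Filter
open scoped ComplexOrder MatrixOrder Matrix.Norms.L2Operator InnerProductSpace Topology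

namespace Crest.Agent.N336.C

open Crest.Agent.N336.Q Crest.Agent.N336.Eng Crest.Agent.N336.R

/-- the energy bound with slack `δ` -/
noncomputable def Efun (a : ℕ) (Ce c l s lam e τ B E₀ p c₁ Na N T₁ δ : ℝ) : ℝ :=
  4 * (E₀ + N * δ) + Ce * (1 / T₁ * (xi1 a c lam s (e + 3 * δ) δ * (Na / T₁) +
    c * lam ^ ((1 : ℝ) / a - 1) * N * δ / (2 * s) +
    c * lam ^ ((1 : ℝ) / a - 1) * (2 * s * B + c₁ * δ) / (2 * s * T₁ * τ)) +
    (3 * c * l + δ) * (τ * (Na / T₁ ^ 2 + N * p ^ 2) + N * p ^ 2)) + δ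

lemma Efun_zero_le {a : ℕ} (ha : 1 ≤ a) {Ce C J l s lam τ B E₀ p : ℝ} {Na N T₁ : ℕ} (c₁ : ℝ)
    (hCe : 0 < Ce) (hC : 1 ≤ C) (hJ : 0 ≤ J) (hl : 1 ≤ l) (hs : 0 < s) (hlam : 0 < lam)
    (hτ : 0 < τ) (hτ1 : τ ≤ 1 / 4) (hB : 0 ≤ B) (hT : 1 ≤ T₁) :
    Efun a Ce (C * J * s ^ 2 * l ^ a) l s lam (C * s ^ (1 + (1 : ℝ) / a) * l ^ a) τ B E₀ p c₁ Na N
      T₁ 0 ≤ enB a (Ce * (C ^ 2 + 6 * C) + C) J l s lam τ B E₀ p Na N T₁ := by
  have hT' : (1 : ℝ) ≤ T₁ := by exact_mod_cast hT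
  set L := l ^ a with hL
  set u := lam ^ ((1 : ℝ) / a)
  set v := lam ^ ((1 : ℝ) / a - 1)
  set σ := s ^ ((1 : ℝ) / a)
  have hu : 0 < u := by positivity
  have hv : 0 < v := by positivity
  have hσ : 0 < σ := by positivity
  have h1 : l ≤ L := by rw [hL]; exact le_self_pow₀ hl (by omega)
  have h2 : 1 ≤ L := hl.trans h1
  have e1 : s ^ (1 + (1 : ℝ) / a) = s * σ := by rw [Real.rpow_add hs, Real.rpow_one]
  have e2 : l ^ (2 * a) = L * L := by rw [hL, two_mul, pow_add]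
  rw [Efun, enB, xi1, e1, e2]
  set X := (Na : ℝ) / (T₁ : ℝ) ^ 2 with hX
  set Y := B / ((T₁ : ℝ) ^ 2 * τ) with hY
  set Z := (N : ℝ) * p ^ 2 with hZ
  have hX0 : 0 ≤ X := by positivity
  have hY0 : 0 ≤ Y := by positivity
  have hZ0 : 0 ≤ Z := by positivity
  have e3 : 1 / (T₁ : ℝ) * ((C * J * s ^ 2 * L * u + C * J * s ^ 2 * L * v *
      (0 + (C * (s * σ) * L + 3 * 0) / (2 * s)) + 0) * (Na / T₁) +
      C * J * s ^ 2 * L * v * N * 0 / (2 * s) +
      C * J * s ^ 2 * L * v * (2 * s * B + c₁ * 0) / (2 * s * T₁ * τ)) +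
      (3 * (C * J * s ^ 2 * L) * l + 0) * (τ * (X + Z) + Z) =
      J * s ^ 2 * L * (C * (X * u) + C * C * L / 2 * (X * (v * σ)) + C * (v * Y) +
        3 * C * l * (X * τ) + 3 * C * l * (1 + τ) * Z) := by
    rw [hX, hY]; field_simp; ring
  have e4 : v * B / ((T₁ : ℝ) ^ 2 * τ) = v * Y := by rw [hY]; ring
  rw [e3, e4]
  have hD : C ≤ (C ^ 2 + 6 * C) * L := by nlinarith
  have k1 : C * (X * u) ≤ (C ^ 2 + 6 * C) * L * (X * u) := by gcongr
  have k2 : C * C * L / 2 * (X * (v * σ)) ≤ (C ^ 2 + 6 * C) * L * (X * (v * σ)) := by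
    gcongr; nlinarith
  have k3 : C * (v * Y) ≤ (C ^ 2 + 6 * C) * L * (v * Y) := by gcongr
  have hD2 : 6 * C * l ≤ (C ^ 2 + 6 * C) * L := by nlinarith
  have k4 : 3 * C * l * (X * τ) ≤ (C ^ 2 + 6 * C) * L * (X * τ) := by
    gcongr; nlinarith
  have k5 : 3 * C * l * (1 + τ) * Z ≤ (C ^ 2 + 6 * C) * L * Z := by
    have := mul_le_mul_of_nonneg_left (by linarith : 1 + τ ≤ 2) (by positivity : 0 ≤ 3 * C * l)
    exact mul_le_mul_of_nonneg_right (by linarith) hZ0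
  have k6 : 0 ≤ X * (u + v * σ + τ) + v * Y + Z := by positivity
  have k7 : 0 ≤ J * s ^ 2 * L := by positivity
  have k8 := mul_le_mul_of_nonneg_left (mul_le_mul_of_nonneg_left
    (add_le_add (add_le_add (add_le_add (add_le_add k1 k2) k3) k4) k5) k7) hCe.le
  have k9 : 0 ≤ C * (J * s ^ 2 * L) * L * (X * (u + v * σ + τ) + v * Y + Z) := by positivity
  nlinarith

lemma sum_p_sq {V : Type} [Fintype V] (act : V → Prop) [DecidablePred act] {Na : ℕ} {T p : ℝ}
    (h : (univ.filter act).card ≤ Na) :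
    ∑ v, (if act v then 1 / T else p) ^ 2 ≤ Na / T ^ 2 + Fintype.card V * p ^ 2 ∧
    ∑ v ∈ univ.filter (fun v => ¬ act v), (if act v then 1 / T else p) ^ 2 ≤
      Fintype.card V * p ^ 2 := by
  have h2 : ∑ v ∈ univ.filter (fun v => ¬ act v), (if act v then 1 / T else p) ^ 2 ≤
      Fintype.card V * p ^ 2 := by
    rw [Finset.sum_congr rfl fun v hv => by rw [if_neg (mem_filter.1 hv).2], Finset.sum_const,
      nsmul_eq_mul]
    gcongr
    exact card_le_univ _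
  refine ⟨?_, h2⟩
  rw [← Finset.sum_filter_add_sum_filter_not univ act]
  refine add_le_add ?_ h2
  rw [Finset.sum_congr rfl fun v hv => by rw [if_pos (mem_filter.1 hv).2], Finset.sum_const,
    nsmul_eq_mul, div_pow, one_pow, mul_one_div]
  gcongr

theorem rig (hE : EngStmt) (hR : RepStmt) (hC : CombStmt) : RigStmt := by
  classical
  obtain ⟨Ce, hCe, hE⟩ := hE
  obtain ⟨a, C, ha, hC1, hR⟩ := hR
  refine ⟨a, Ce * (C ^ 2 + 6 * C) + C, ha, by nlinarith, ?_⟩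
  intro ι _ _ d _ _ _ V _ _ K w r b₁ b₂ N₀ Na T₁ S h J l s lam τ B E₀ α β Ω O ZO hh hnear hJ hl hs
    hsm hlam hτ hτ1 hT hΩ hE₀ hβ hB hU hlow hfin hO hOO hZO hZ1 hZ2 h0
  obtain ⟨ok0, ok1, okm, hL, hcr, hmv, hNa, hp⟩ := hC ι V K w r b₁ b₂ N₀ Na S
  have hsm' : C * l ^ a * s ≤ 1 := by
    refine le_trans ?_ hsm
    gcongr
    nlinarith
  set c' := C * J * s ^ 2 * l ^ a with hc'
  set e := C * s ^ (1 + (1 : ℝ) / a) * l ^ a with he
  set p := pin K w r b₁ b₂ N₀ T₁ with hpd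
  set N := Fintype.card V with hN
  set c₁ : ℝ := 10 * K + 3 * K * Fintype.card ι with hc₁
  set rhs := fn S.A₁ S.fin (((‖ap O Ω‖⁻¹ : ℝ) : ℂ) • ap O Ω) - Real.log (‖ap O Ω‖ ^ 2) / s
  have hc'0 : 0 ≤ c' := by positivity
  have he0 : 0 ≤ e := by positivity
  have hN1 : 1 ≤ N := Fintype.card_pos
  have hT' : (0 : ℝ) < T₁ := by exact_mod_cast hT
  have hN' : (0 : ℝ) < N := by exact_mod_cast hN1
  have key : ∀ δ : ℝ, 0 < δ → δ ≤ 1 →
      α - β * (Efun a Ce c' l s lam e τ B E₀ p c₁ Na N T₁ δ + δ) - c₁ * δ / s ≤ rhs := by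
    intro δ hδ hδ1
    obtain ⟨I, _, _, R, hA, hS⟩ := hR ι d V h S.Z J l s δ hh hJ hl hs hsm' hδ
    have hk : (0 : ℝ) < R.k := by exact_mod_cast hA.k_pos
    have p1 : (δ • (1 : Matrix I I ℂ)).PosDef := PosDef.one.smul hδ
    have pG : ∀ v, (R.hh (h v) + δ • (1 : Matrix I I ℂ)).PosDef := fun v =>
      PosDef.posSemidef_add (hA.hh_pos _ (hh v).1) p1
    have hq : ∀ (c : {c // S.Ok c}) (v : V), S.cr c.1 v →
        ∃ q : Finset ι × Finset ι × Finset ι × Finset ι,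
          Loc R S h s (e + 3 * δ) c.1 v q.1 q.2.1 q.2.2.1 q.2.2.2 := fun c v hc =>
      exists_loc hA hS hδ.le (hL _ c.2) (hh v).2 (hnear v (hcr _ _ c.2 hc).1).2 (hcr _ _ c.2 hc).2
    choose! q hq using hq
    have hAt := fun (c : {c // S.Ok c}) (v : V) (hc : S.cr c.1 v) =>
      exists_defect hA hS hδ (hq c v hc) (hh v).1 (hnear v (hcr _ _ c.2 hc).1).1
        (hnear v (hcr _ _ c.2 hc).1).2
    choose! At hAt using hAt
    have gg : ∑ v, (pw (R.hh (h v) + δ • (1 : Matrix I I ℂ)) (1 / 2))ᴴ *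
        pw (R.hh (h v) + δ • (1 : Matrix I I ℂ)) (1 / 2) =
        R.hh (∑ v, h v) + (N * δ) • (1 : Matrix I I ℂ) := by
      simp only [pw_conjTranspose, pw_mul_pw (pG _), add_halves, pw_one (pG _).1]
      rw [Finset.sum_add_distrib, map_sum, Finset.sum_const, card_univ,
        ← Nat.cast_smul_eq_nsmul ℝ, smul_smul]
    have hcv := hA.cv_norm Ω hΩ
    have hγ : 0 ≤ c' * lam ^ ((1 : ℝ) / a - 1) := by positivity
    have hx1 : 0 ≤ xi1 a c' lam s (e + 3 * δ) δ := by unfold xi1; positivity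
    have lo' : ∀ c : {c // S.Ok c}, R.Am S.A₁ δ S.fin ≤ R.Am S.A₁ δ c.1 := fun c =>
      Am_mono hA hS hδ.le hL c.2 ok1 fun g => ⟨(c.2 g).2.1, (c.2 g).2.2.1⟩
    have mono' : ∀ (c : {c // S.Ok c}) (x : V), R.Am S.A₁ δ (S.mv c.1 x) ≤ R.Am S.A₁ δ c.1 :=
      fun c x => Am_mono hA hS hδ.le hL c.2 (okm _ _ c.2) (mv_le (S := S) c.1 x)
    obtain ⟨M, hM, lo, hi, en⟩ := hE I {c // S.Ok c} V V
      (fun c x => ⟨S.mv c.1 x, okm _ _ c.2⟩) ⟨S.ini, ok0⟩ (fun c => R.Am S.A₁ δ c.1)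
      (fun v => pw (R.hh (h v) + δ • 1) (1 / 2)) At
      (fun c v => R.T (dfC d c' δ a (q c v).1 (q c v).2.1 (q c v).2.2.1) + δ • 1)
      (fun c v => S.cr c.1 v) S.act
      (fun c => xi1 a c' lam s (e + 3 * δ) δ *
        ∑ v ∈ univ.filter S.act, (if S.cr c.1 v then 1 else 0) +
          c' * lam ^ ((1 : ℝ) / a - 1) * N * δ / (2 * s))
      (fun v => if S.act v then 1 / (T₁ : ℝ) else p) (R.cv Ω) (R.Am S.A₁ δ S.fin) (E₀ + N * δ)
      (c' * lam ^ ((1 : ℝ) / a - 1) * N / (2 * s * R.k)) (3 * c' * l + δ)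
      (xi1 a c' lam s (e + 3 * δ) δ * (Na / T₁) + c' * lam ^ ((1 : ℝ) / a - 1) * N * δ / (2 * s))
      (1 / T₁) τ (R.k * (2 * s * B + c₁ * δ)) δ (N * T₁) (N * T₁)
      (fun c => ee_posDef _)
      mono' (ee_posDef _)
      (fun _ _ => lo' _)
      hcv (by
        rw [gg, ap_add, hA.hh_cv _ _ _ hE₀, Complex.ofReal_add, add_smul]
        congr 1
        exact (ap_smul ((N * δ : ℝ) : ℂ) 1 _).trans (by rw [ap_one]))
      (fun c v hc => by
        have hc1 : Commute (R.hh (h v)) (R.Lg S.A₁ c.1) :=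
          Rp.Alg.comm_Lg_of (fun b A hA' => hA.comm_hh b A _ _ (hh v).2 hA') (S.disj v)
            fun g => ⟨fun x => hc ⟨g, .inl x⟩, fun x => hc ⟨g, .inr x⟩⟩
        have hc2 : Commute (R.hh (h v) + δ • (1 : Matrix I I ℂ)) ((2 : ℝ) • R.Lf S.A₁ δ c.1) :=
          ((hc1.add_right ((Commute.one_right _).smul_right _)).add_left
            ((Commute.one_left _).smul_left _)).smul_right _
        rw [Rp.Am]
        exact (commute_fc_fc (f := fun x => ((x ^ (1 / 2 : ℝ) : ℝ) : ℂ))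
          (g := fun x => (Real.exp x : ℂ)) (pG v).1 (herm_rsmul (Lf_herm hA c.1) _) hc2).eq)
      (fun c v hc => by
        have hb := dfC_bounds (d := d) hδ hδ1 ha hl hc'0 (hq c v hc).d1 (hq c v hc).d2
          (hq c v hc).d3 ((log_dim_mono (hq c v hc).s1).trans (hnear v (hcr _ _ c.2 hc).1).2)
        refine ⟨(hAt c v hc).1, PosSemidef.add ?_ p1.posSemidef, ?_, (hAt c v hc).2⟩
        · have := le_T hA fun χ => (hb χ).1
          rw [zero_smul] at this
          exact this.posSemidef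
        · rw [add_smul]; exact add_le_add_left (T_le hA fun χ => (hb χ).2) _)
      (fun c G hG _ H => by
        rw [pw_Am_neg_half hA]
        refine (h3 hA hS hδ hs ha hc'0 hlam (fun v => hmv c.1 v c.2) (q c) (hq c) hG H).trans
          (le_of_eq ?_)
        rw [Finset.sum_boole, Finset.filter_filter])
      (Nat.mul_pos hN1 hT) (Nat.mul_pos hN1 hT) hτ hτ1 (by positivity) (by positivity)
      (by positivity) (by positivity) hδ
      (fun v t ht => (ex_subtype S.mv okm ⟨S.ini, ok0⟩ _ t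
        fun c => if S.cr c v then 1 else 0).trans_le (hp T₁ hT v t ht))
      (fun v hv => by simp only [if_pos hv, le_refl])
      (fun t ht => by
        rw [ex_aff _ _ (fun v (c : {c // S.Ok c}) => if S.cr c.1 v then (1 : ℝ) else 0) _ _ _
          (Nat.mul_pos hN1 hT)]
        refine add_le_add_left (mul_le_mul_of_nonneg_left ?_ hx1) _
        refine (Finset.sum_le_card_nsmul _ _ (1 / (T₁ : ℝ)) fun v hv => ?_).trans ?_
        · have := hp T₁ hT v t ht.le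
          rw [if_pos (mem_filter.1 hv).2] at this
          exact (ex_subtype S.mv okm ⟨S.ini, ok0⟩ _ t
            fun c => if S.cr c v then 1 else 0).trans_le this
        · rw [nsmul_eq_mul, mul_one_div]; gcongr)
      (by
        have k1 := log_ini_le hA hS hδ.le hs.le S.ini hlow hcv
        have k2 := Real.log_le_log (Real.exp_pos _) (le_qf_Lf hA hS hδ.le S.fin hΩ)
        rw [Real.log_exp] at k2
        have k3 := mul_le_mul_of_nonneg_left hfin (by positivity : 0 ≤ s * R.k)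
        dsimp only
        rw [hc₁]; linarith)
    obtain ⟨Φ, hΦ, eΦ, n0, hlog⟩ := log_qf_le hM hcv
    obtain ⟨s1, s2⟩ := sum_p_sq S.act (T := T₁) (p := p) hNa
    have en1 : qf Φ (R.hh (∑ v, h v)) ≤ Efun a Ce c' l s lam e τ B E₀ p c₁ Na N T₁ δ := by
      have k1 : ∑ v, ‖ap (pw (R.hh (h v) + δ • (1 : Matrix I I ℂ)) (1 / 2))
          (ap (pw M (1 / 4)) (R.cv Ω))‖ ^ 2 =
          (qf Φ (R.hh (∑ v, h v)) + N * δ) * ‖ap (pw M (1 / 4)) (R.cv Ω)‖ ^ 2 := by
        simp only [norm_ap_sq (pw (R.hh (h _) + _) _)]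
        rw [← re_inner_sum, gg]
        change qf _ _ = _
        conv_lhs => rw [eΦ]
        rw [qf_vsmul, qf_add, qf_rsmul, qf_one, hΦ]; ring
      rw [k1] at en
      have k2 := le_of_mul_le_mul_right en (by positivity)
      have k3 : c' * lam ^ ((1 : ℝ) / a - 1) * N / (2 * s * R.k) * (R.k * (2 * s * B + c₁ * δ)) /
          ((N * T₁ : ℕ) * τ) =
          c' * lam ^ ((1 : ℝ) / a - 1) * (2 * s * B + c₁ * δ) / (2 * s * T₁ * τ) := by
        push_cast; field_simp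
      rw [k3] at k2
      have k4 : 0 ≤ (N : ℝ) * δ := by positivity
      refine le_trans (by linarith) (k2.trans ?_)
      rw [Efun]
      gcongr
    have u1 := lg_le_of_le hA hS hδ.le hs.le S.ini hβ hU hM hi hΦ
    have u2 := le_log_fin hA hS hδ.le (Ω := Ω) hO hOO hZO (c := S.fin)
      (fun g => (hZ1 g).trans (ok1 g).1) (fun g => (hL _ ok1 g).1) hZ2 h0
    have u3 := Real.log_le_log (qf_pos' (pw_posDef (ee_posDef _) _)
      (norm_ne_zero_iff.1 (by rw [hcv]; norm_num)))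
      (qf_mono (R.cv Ω) (pw_mono (ee_posDef _).posSemidef lo (s := 1 / 2) (by norm_num)
        (by norm_num)))
    have u4 := mul_le_mul_of_nonneg_left (mul_le_mul_of_nonneg_left en1 hβ)
      (by positivity : 0 ≤ s * R.k)
    refine le_of_mul_le_mul_left (a := s * R.k) ?_ (by positivity)
    have u5 : s * R.k * rhs = s * R.k * fn S.A₁ S.fin (((‖ap O Ω‖⁻¹ : ℝ) : ℂ) • ap O Ω) -
        R.k * Real.log (‖ap O Ω‖ ^ 2) := by
      simp only [rhs]; field_simp
    have u6 : s * R.k * (c₁ * δ / s) = c₁ * (δ * R.k) := by field_simp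
    have u7 := (u2.trans u3).trans (hlog.trans u1)
    rw [u5, mul_sub, u6, hc₁]
    linarith
  have cont : Continuous fun δ : ℝ =>
      α - β * (Efun a Ce c' l s lam e τ B E₀ p c₁ Na N T₁ δ + δ) - c₁ * δ / s := by
    unfold Efun xi1; fun_prop
  have lim : α - β * (Efun a Ce c' l s lam e τ B E₀ p c₁ Na N T₁ 0 + 0) - c₁ * 0 / s ≤ rhs :=
    le_of_tendsto ((cont.tendsto 0).mono_left (nhdsWithin_le_nhds (s := Set.Ioi 0)))
      (by filter_upwards [Ioc_mem_nhdsGT (zero_lt_one' ℝ)] with δ hδ using key δ hδ.1 hδ.2)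
  have fin := mul_le_mul_of_nonneg_left (Efun_zero_le (E₀ := E₀) (p := p) (Na := Na) (N := N) ha
    c₁ hCe hC1 hJ hl hs hlam hτ hτ1 hB hT) hβ
  simp only [add_zero, mul_zero, zero_div, sub_zero] at lim
  linarith

end Crest.Agent.N336.C
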